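import Vale.Agent.P154.Window.Garbling

/-!
From phases to nonreconstruction in the cases with few children.
-/

namespace Vale.Agent.P154

namespace Window

variable {κ κ' ε : ℝ}

/-- At most four children: one depth with a small potential and scalar inequalities below it. -/
theorem nonrec_regular_low {m : ℕ} (hm : m ≤ 4) {l : ℝ} (h0 : -(1 / 2) ≤ l) (h1 : l ≤ 0)
    (hc : CC κ κ') (k0 : 0 ≤ κ) (k1 : κ ≤ 12 / 25) (k0' : 0 ≤ κ') (k1' : κ' ≤ 12 / 25)
    (e0 : 0 < ε) (e1 : ε ≤ 1) {B : ℝ}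
    (hreach : ∃ n, mo (mPhi κ) (tab (regularLaw 4) (-(1 / 2)) n) ≤ B)
    (hS : ∀ X : ℝ, 0 ≤ X → X ≤ B → X ≤ 1 → Scal κ κ' 4 (fun σ ν => binSum κ σ ν 4) ε X) :
    Nonreconstruction (regularLaw m) l := by
  obtain ⟨n0, hn0⟩ := hreach
  have hp := regular_law m
  have ok := tab_ok hp h0 (by linarith : l ≤ 1)
  have hl : 4 * l ^ 2 ≤ 1 := by nlinarith
  refine nonrec_of_drop (d := 4) hp h0 (by linarith) (by norm_num) hl k0 e0 e1 B (n0 := n0)
    (le_trans ((below_four hm h0 h1 n0).pot_le k0) hn0) fun n hn => ?_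
  have a0 : 0 ≤ info (regularLaw m) l n := (ok n).mo_nonneg fun _ _ _ => mA_nonneg
  have a1 : info (regularLaw m) l n ≤ 1 := (ok n).mA_le_one
  have aB : info (regularLaw m) l n ≤ B := by
    have hb := hn
    rw [pot_eq ⟨ok 0, ok⟩ κ n] at hb
    have := mul_nonneg k0 ((ok n).mo_nonneg (g := mQ) fun _ _ _ => mQ_nonneg)
    linarith
  have hX := mul_le_mul_of_nonneg_right hl a0
  exact drop_regular_small hm h0 (by linarith) hc k0 k1 k0' k1' e0.le n
    (hS _ (by positivity) (by linarith) (by linarith))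

end Window

end Vale.Agent.P154
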