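import Vale.Agent.P154.Window.Forms

/-!
Quotient polynomial for the extremal-direction inequality with coefficient 0 / 1,
grouped by the exponents of the two invariants of the first vector.
-/

namespace Vale.Agent.P154

namespace Window

/-- Part 0 of the quotient. -/
def quoLo0 : List ((ℕ × ℕ) × Terms) :=
  [((0, 1), [(-4, [0, 0]), (4, [2, 0])]),
   ((0, 2), [(-32, [0, 1]), (-8, [2, 0]), (32, [2, 1]), (8, [3, 0]), (8, [4, 0]), (-8, [5, 0])]),
   ((0, 3), [(-64, [0, 2]), (-64, [2, 1]), (64, [2, 2]), (64, [3, 1]), (64, [4, 1]),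
    (16, [5, 0]), (-64, [5, 1]), (-16, [6, 0]), (-16, [7, 0]), (16, [8, 0])]),
   ((0, 4), [(-128, [2, 2]), (128, [3, 2]), (128, [4, 2]), (128, [5, 1]), (-128, [5, 2]),
    (-128, [7, 1]), (-32, [8, 0]), (32, [9, 0]), (32, [10, 0]), (-32, [11, 0])]),
   ((0, 5), [(256, [5, 2]), (256, [6, 2]), (-256, [7, 2]), (-256, [8, 2]), (64, [11, 0]),
    (64, [12, 0]), (-64, [13, 0]), (-64, [14, 0])]),
   ((0, 6), [(512, [8, 2]), (-512, [9, 2]), (-512, [10, 2]), (512, [11, 2]), (512, [12, 1]),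
    (128, [14, 0]), (-512, [14, 1]), (-128, [15, 0]), (-128, [16, 0]), (128, [17, 0])]),
   ((0, 7), [(-1024, [11, 2]), (1024, [13, 2]), (1024, [14, 1]), (-1024, [15, 1]),
    (-1024, [16, 1]), (-256, [17, 0]), (1024, [17, 1]), (256, [18, 0]), (256, [19, 0]),
    (-256, [20, 0])]),
   ((0, 8), [(-2048, [17, 1]), (2048, [19, 1]), (512, [20, 0]), (-512, [21, 0]), (-512, [22, 0]),
    (512, [23, 0])]),
   ((0, 9), [(-1024, [23, 0]), (1024, [25, 0])]),
   ((1, 0), [(4, [0, 0])]),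
   ((1, 1), [(4, [0, 0]), (40, [0, 1]), (92, [2, 0]), (-16, [3, 0]), (-88, [4, 0])]),
   ((1, 2), [(32, [0, 1]), (128, [0, 2]), (640, [2, 1]), (-8, [3, 0]), (-176, [3, 1]),
    (168, [4, 0]), (-608, [4, 1]), (-160, [5, 0]), (-104, [6, 0]), (152, [7, 0])]),
   ((1, 3), [(64, [0, 2]), (128, [0, 3]), (1088, [2, 2]), (-64, [3, 1]), (-640, [3, 2]),
    (1152, [4, 1]), (-1024, [4, 2]), (-1088, [5, 1]), (16, [6, 0]), (-608, [6, 1]),
    (-288, [7, 0]), (1024, [7, 1]), (272, [8, 0]), (96, [9, 0]), (-256, [10, 0])]),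
   ((1, 4), [(-128, [3, 2]), (-768, [3, 3]), (1920, [4, 2]), (-1792, [5, 2]), (-384, [6, 2]),
    (-1920, [7, 1]), (1664, [7, 2]), (-32, [9, 0]), (448, [9, 1]), (480, [10, 0]),
    (-448, [11, 0]), (-96, [12, 0]), (416, [13, 0])])]

/-- Part 1 of the quotient. -/
def quoLo1 : List ((ℕ × ℕ) × Terms) :=
  [((1, 5), [(-256, [6, 2]), (1536, [6, 3]), (-3072, [7, 2]), (-2816, [8, 2]), (2560, [10, 2]),
    (-64, [12, 0]), (2432, [12, 1]), (-768, [13, 0]), (-704, [14, 0]), (640, [16, 0])]),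
   ((1, 6), [(512, [9, 2]), (-1024, [9, 3]), (-4608, [10, 2]), (4096, [11, 2]), (-512, [12, 1]),
    (8704, [12, 2]), (-3584, [13, 2]), (-4096, [14, 1]), (128, [15, 0]), (-3328, [15, 1]),
    (-1152, [16, 0]), (3584, [16, 1]), (1024, [17, 0]), (2176, [18, 0]), (-896, [19, 0])]),
   ((1, 7), [(6144, [13, 2]), (1024, [15, 1]), (-8192, [15, 2]), (-6144, [16, 1]),
    (5120, [17, 1]), (-256, [18, 0]), (9728, [18, 1]), (1536, [19, 0]), (-4096, [19, 1]),
    (-1280, [20, 0]), (-2560, [21, 0]), (1024, [22, 0])]),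
   ((1, 8), [(6144, [19, 1]), (512, [21, 0]), (-7168, [21, 1]), (-1536, [22, 0]),
    (1024, [23, 0]), (2560, [24, 0]), (-512, [25, 0])]),
   ((2, 0), [(-4, [0, 0]), (-96, [2, 0])]),
   ((2, 1), [(-40, [0, 1]), (-88, [2, 0]), (-840, [2, 1]), (16, [3, 0]), (-928, [4, 0]),
    (336, [5, 0]), (840, [6, 0])]),
   ((2, 2), [(-128, [0, 2]), (-608, [2, 1]), (-2304, [2, 2]), (176, [3, 1]), (-5504, [4, 1]),
    (152, [5, 0]), (3168, [5, 1]), (-1576, [6, 0]), (4896, [6, 1]), (1376, [7, 0]),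
    (360, [8, 0]), (-1224, [9, 0])]),
   ((2, 3), [(-128, [0, 3]), (-1024, [2, 2]), (-1920, [2, 3]), (640, [3, 2]), (-7744, [4, 2]),
    (1024, [5, 1]), (9600, [5, 2]), (-9184, [6, 1]), (6720, [6, 2]), (7744, [7, 1]),
    (-256, [8, 0]), (480, [8, 1]), (2352, [9, 0]), (-6720, [9, 1]), (-1936, [10, 0]),
    (720, [11, 0]), (1680, [12, 0])]),
   ((2, 4), [(768, [3, 3]), (1664, [5, 2]), (9216, [5, 3]), (-13056, [6, 2]), (10112, [7, 2]),
    (-6912, [8, 2]), (12992, [9, 1]), (-8448, [9, 2]), (416, [11, 0]), (6144, [11, 1]),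
    (-3264, [12, 0]), (2528, [13, 0]), (-1728, [14, 0]), (-2112, [15, 0])]),
   ((2, 5), [(-1536, [6, 3]), (2560, [8, 2]), (-13824, [8, 3]), (16896, [9, 2]),
    (11776, [10, 2]), (13824, [11, 2]), (-2432, [12, 1]), (-9216, [12, 2]), (640, [14, 0]),
    (-21888, [14, 1]), (4224, [15, 0]), (2944, [16, 0]), (3456, [17, 0]), (-2304, [18, 0])])]

/-- Part 2 of the quotient. -/
def quoLo2 : List ((ℕ × ℕ) × Terms) :=
  [((2, 6), [(1024, [9, 3]), (-3584, [11, 2]), (6144, [11, 3]), (9728, [12, 2]),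
    (-11264, [13, 2]), (3584, [14, 1]), (-38400, [14, 2]), (3328, [15, 1]), (7680, [15, 2]),
    (11264, [16, 1]), (-896, [17, 0]), (19968, [17, 1]), (2432, [18, 0]), (-7680, [18, 1]),
    (-2816, [19, 0]), (-9600, [20, 0]), (1920, [21, 0])]),
   ((2, 7), [(-7168, [15, 2]), (-4096, [17, 1]), (15360, [17, 2]), (5632, [18, 1]),
    (-7168, [19, 1]), (1024, [20, 0]), (-19968, [20, 1]), (-1280, [21, 0]), (3072, [21, 1]),
    (1792, [22, 0]), (5376, [23, 0]), (-768, [24, 0])]),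
   ((2, 8), [(1024, [21, 1]), (-512, [23, 0]), (-1024, [24, 0]), (-512, [25, 0])]),
   ((3, 0), [(-8, [0, 1]), (96, [2, 0]), (8, [2, 1]), (8, [3, 0]), (1008, [4, 0]), (-8, [5, 0])]),
   ((3, 1), [(-96, [0, 2]), (824, [2, 1]), (96, [2, 2]), (96, [3, 1]), (840, [4, 0]),
    (7576, [4, 1]), (-320, [5, 0]), (-96, [5, 1]), (5376, [6, 0]), (-3040, [7, 0]),
    (-4536, [8, 0])]),
   ((3, 2), [(-256, [0, 3]), (2112, [2, 2]), (256, [2, 3]), (448, [3, 2]), (4896, [4, 1]),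
    (17472, [4, 2]), (-2976, [5, 1]), (-448, [5, 2]), (26272, [6, 1]), (-1224, [7, 0]),
    (-23952, [7, 1]), (8712, [8, 0]), (-21376, [8, 1]), (-6592, [9, 0]), (1080, [10, 0]),
    (5368, [11, 0])]),
   ((3, 3), [(1408, [2, 3]), (768, [3, 3]), (6720, [4, 2]), (12032, [4, 3]), (-8704, [5, 2]),
    (-768, [5, 3]), (28736, [6, 2]), (-6720, [7, 1]), (-58496, [7, 2]), (42272, [8, 1]),
    (-22016, [8, 2]), (-29248, [9, 1]), (1680, [10, 0]), (14848, [10, 1]), (-11456, [11, 0]),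
    (22528, [11, 1]), (7184, [12, 0]), (-8704, [13, 0]), (-5504, [14, 0])]),
   ((3, 4), [(-7680, [5, 3]), (-8448, [7, 2]), (-43008, [7, 3]), (50944, [8, 2]),
    (-27648, [9, 2]), (50432, [10, 2]), (-51200, [11, 1]), (19200, [11, 2]), (-1920, [12, 1]),
    (-2112, [13, 0]), (-45952, [13, 1]), (12736, [14, 0]), (1920, [14, 1]), (-6912, [15, 0]),
    (12608, [16, 0]), (4800, [17, 0])])]

/-- Part 3 of the quotient. -/
def quoLo3 : List ((ℕ × ℕ) × Terms) :=
  [((3, 5), [(13824, [8, 3]), (-1024, [9, 3]), (-9216, [10, 2]), (41472, [10, 3]),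
    (-52224, [11, 2]), (1024, [11, 3]), (-23552, [12, 2]), (-58368, [13, 2]), (18048, [14, 1]),
    (14336, [14, 2]), (2560, [15, 1]), (-2304, [16, 0]), (69504, [16, 1]), (-13056, [17, 0]),
    (-2560, [17, 1]), (-6784, [18, 0]), (-14592, [19, 0]), (4480, [20, 0])]),
   ((3, 6), [(-8192, [11, 3]), (7680, [13, 2]), (-7168, [13, 3]), (9728, [14, 2]),
    (11264, [15, 2]), (-7680, [16, 1]), (51712, [16, 2]), (-14848, [17, 1]), (-3584, [17, 2]),
    (-12800, [18, 1]), (1920, [19, 0]), (-35072, [19, 1]), (640, [20, 0]), (5120, [20, 1]),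
    (4608, [21, 0]), (14720, [22, 0]), (-2688, [23, 0])]),
   ((3, 7), [(-8192, [17, 2]), (3072, [19, 1]), (2048, [19, 2]), (9728, [20, 1]),
    (3072, [21, 1]), (-768, [22, 0]), (1024, [22, 1]), (-768, [24, 0]), (-3072, [25, 0])]),
   ((4, 0), [(8, [0, 1]), (32, [0, 2]), (160, [2, 1]), (-8, [3, 0]), (16, [3, 1]),
    (-1008, [4, 0]), (-152, [4, 1]), (-160, [5, 0]), (-6096, [6, 0]), (152, [7, 0])]),
   ((4, 1), [(96, [0, 2]), (192, [0, 3]), (1632, [2, 2]), (-96, [3, 1]), (-7272, [4, 1]),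
    (-1536, [4, 2]), (-1632, [5, 1]), (-4536, [6, 0]), (-38472, [6, 1]), (2736, [7, 0]),
    (1536, [7, 1]), (-19656, [8, 0]), (15600, [9, 0]), (15120, [10, 0])]),
   ((4, 2), [(256, [0, 3]), (256, [0, 4]), (3584, [2, 3]), (-448, [3, 2]), (-640, [3, 3]),
    (-14400, [4, 2]), (-3328, [4, 3]), (-6272, [5, 2]), (-21376, [6, 1]), (-72640, [6, 2]),
    (20880, [7, 1]), (5824, [7, 2]), (-74624, [8, 1]), (5368, [9, 0]), (99520, [9, 1]),
    (-31320, [10, 0]), (53248, [10, 1]), (18992, [11, 0]), (-12456, [12, 0]), (-13624, [13, 0])]),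
   ((4, 3), [(-768, [3, 3]), (-1536, [3, 4]), (-5376, [4, 3]), (-8448, [5, 3]), (-22016, [6, 2]),
    (-39680, [6, 3]), (46848, [7, 2]), (7680, [7, 3]), (-54976, [8, 2]), (22528, [9, 1]),
    (186112, [9, 2]), (-121344, [10, 1]), (32960, [10, 2]), (60608, [11, 1]), (-5504, [12, 0]),
    (-78080, [12, 1]), (35952, [13, 0]), (-38080, [13, 1]), (-13744, [14, 0]), (34704, [15, 0]),
    (8240, [16, 0])])]

/-- Part 4 of the quotient. -/
def quoLo4 : List ((ℕ × ℕ) × Terms) :=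
  [((4, 4), [(3072, [6, 4]), (27648, [7, 3]), (19200, [9, 2]), (93696, [9, 3]),
    (-116352, [10, 2]), (32640, [11, 2]), (1920, [12, 1]), (-137088, [12, 2]), (122112, [13, 1]),
    (-13440, [13, 2]), (15360, [14, 1]), (4800, [15, 0]), (123264, [15, 1]), (-29088, [16, 0]),
    (-13440, [16, 1]), (8160, [17, 0]), (-35424, [18, 0]), (-3360, [19, 0])]),
   ((4, 5), [(1024, [9, 3]), (-2048, [9, 4]), (-41472, [10, 3]), (5120, [11, 3]),
    (14336, [12, 2]), (-36352, [12, 3]), (85248, [13, 2]), (-4096, [13, 3]), (23296, [14, 2]),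
    (-2560, [15, 1]), (82688, [15, 2]), (-42624, [16, 1]), (-8960, [16, 2]), (-12800, [17, 1]),
    (4480, [18, 0]), (-96896, [18, 1]), (21312, [19, 0]), (10240, [19, 1]), (10304, [20, 0]),
    (23232, [21, 0]), (-5824, [22, 0])]),
   ((4, 6), [(15360, [13, 3]), (-3584, [15, 2]), (-8192, [15, 3]), (-33792, [16, 2]),
    (-2560, [17, 2]), (5120, [18, 1]), (-1024, [18, 2]), (14592, [19, 1]), (-1024, [19, 2]),
    (5632, [20, 1]), (-2688, [21, 0]), (18432, [21, 1]), (-3072, [22, 0]), (-512, [22, 1]),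
    (-4224, [23, 0]), (-9216, [24, 0]), (1536, [25, 0])]),
   ((5, 0), [(-32, [0, 2]), (-152, [2, 1]), (-576, [2, 2]), (-16, [3, 1]), (-1376, [4, 1]),
    (152, [5, 0]), (-288, [5, 1]), (6096, [6, 0]), (1224, [6, 1]), (1376, [7, 0]),
    (23544, [8, 0]), (-1224, [9, 0])]),
   ((5, 1), [(-192, [0, 3]), (-1536, [2, 2]), (-2880, [2, 3]), (-11616, [4, 2]), (1536, [5, 1]),
    (36024, [6, 1]), (10080, [6, 2]), (11616, [7, 1]), (15120, [8, 0]), (121320, [8, 1]),
    (-13152, [9, 0]), (-10080, [9, 1]), (46872, [10, 0]), (-50400, [11, 0]), (-31752, [12, 0])]),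
   ((5, 2), [(-256, [0, 4]), (-3328, [2, 3]), (-3072, [2, 4]), (640, [3, 3]), (-20224, [4, 3]),
    (5824, [5, 2]), (7680, [5, 3]), (52480, [6, 2]), (16896, [6, 3]), (35392, [7, 2]),
    (53248, [8, 1]), (180480, [8, 2]), (-79360, [9, 1]), (-29568, [9, 2]), (124000, [10, 1]),
    (-13624, [11, 0]), (-250320, [11, 1]), (75960, [12, 0]), (-70752, [12, 1]),
    (-32896, [13, 0]), (43848, [14, 0]), (19272, [15, 0])])]

/-- Part 5 of the quotient. -/
def quoLo5 : List ((ℕ × ℕ) × Terms) :=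
  [((5, 3), [(1536, [3, 4]), (7680, [5, 3]), (13824, [5, 4]), (5888, [6, 3]), (35328, [7, 3]),
    (32960, [8, 2]), (70272, [8, 3]), (-126976, [9, 2]), (-27648, [9, 3]), (37568, [10, 2]),
    (-38080, [11, 1]), (-330624, [11, 2]), (219584, [12, 1]), (-4608, [12, 2]),
    (-61120, [13, 1]), (8240, [14, 0]), (183456, [14, 1]), (-73248, [15, 0]), (23040, [15, 1]),
    (9392, [16, 0]), (-71712, [17, 0]), (-1152, [18, 0])]),
   ((5, 4), [(-3072, [6, 4]), (-18432, [8, 4]), (-38400, [9, 3]), (-13440, [11, 2]),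
    (-85248, [11, 3]), (146304, [12, 2]), (-768, [13, 2]), (-13440, [14, 1]), (176256, [14, 2]),
    (-169344, [15, 1]), (-12672, [15, 2]), (-42240, [16, 1]), (-3360, [17, 0]),
    (-157248, [17, 1]), (37728, [18, 0]), (28800, [18, 1]), (-192, [19, 0]), (50976, [20, 0]),
    (-3168, [21, 0])]),
   ((5, 5), [(2048, [9, 4]), (-4096, [11, 3]), (6144, [11, 4]), (36352, [12, 3]),
    (-7168, [13, 3]), (-8960, [14, 2]), (-15360, [14, 3]), (-57344, [15, 2]), (3072, [15, 3]),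
    (-10496, [16, 2]), (10240, [17, 1]), (-33792, [17, 2]), (39296, [18, 1]), (1536, [18, 2]),
    (17920, [19, 1]), (-5824, [20, 0]), (59136, [20, 1]), (-16896, [21, 0]), (-7680, [21, 1]),
    (-8896, [22, 0]), (-16128, [23, 0]), (3072, [24, 0])]),
   ((5, 6), [(2048, [15, 3]), (-1024, [17, 2]), (-2048, [18, 2]), (-1024, [19, 2]),
    (-512, [20, 1]), (-3072, [21, 1]), (-512, [22, 1]), (1536, [23, 0]), (3072, [24, 0]),
    (1536, [25, 0])]),
   ((6, 0), [(-64, [0, 3]), (576, [2, 2]), (64, [2, 3]), (64, [3, 2]), (1224, [4, 1]),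
    (4320, [4, 2]), (288, [5, 1]), (-64, [5, 2]), (6688, [6, 1]), (-1224, [7, 0]),
    (2160, [7, 1]), (-23544, [8, 0]), (-5464, [8, 1]), (-6688, [9, 0]), (-60912, [10, 0]),
    (5464, [11, 0])]),
   ((6, 1), [(-320, [0, 4]), (2752, [2, 3]), (320, [2, 4]), (512, [3, 3]), (10080, [4, 2]),
    (17408, [4, 3]), (128, [5, 2]), (-512, [5, 3]), (44768, [6, 2]), (-10080, [7, 1]),
    (-128, [7, 2]), (-110392, [8, 1]), (-34688, [8, 2]), (-45152, [9, 1]), (-31752, [10, 0]),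
    (-247448, [10, 1]), (39472, [11, 0]), (35072, [11, 1]), (-72384, [12, 0]), (107696, [13, 0]),
    (40632, [14, 0])])]

/-- Part 6 of the quotient. -/
def quoLo6 : List ((ℕ × ℕ) × Terms) :=
  [((6, 2), [(2432, [2, 4]), (1152, [3, 4]), (16896, [4, 3]), (14464, [4, 4]), (-6656, [5, 3]),
    (-1152, [5, 4]), (56832, [6, 3]), (-29568, [7, 2]), (-35584, [7, 3]), (-111104, [8, 2]),
    (-39936, [8, 3]), (-102912, [9, 2]), (-70752, [10, 1]), (-273280, [10, 2]),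
    (180176, [11, 1]), (73344, [11, 2]), (-102912, [12, 1]), (19272, [13, 0]), (395872, [13, 1]),
    (-125112, [14, 0]), (32160, [14, 1]), (31200, [15, 0]), (-83976, [16, 0]),
    (-11928, [17, 0])]),
   ((6, 3), [(-11520, [5, 4]), (-768, [6, 4]), (-27648, [7, 3]), (-43776, [7, 4]),
    (9600, [8, 3]), (768, [8, 4]), (-67072, [9, 3]), (-4608, [10, 2]), (-55680, [10, 3]),
    (183936, [11, 2]), (39424, [11, 3]), (34624, [12, 2]), (23040, [13, 1]), (322944, [13, 2]),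
    (-247776, [14, 1]), (-39232, [14, 2]), (8896, [15, 1]), (-1152, [16, 0]), (-233760, [16, 1]),
    (95568, [17, 0]), (14144, [17, 1]), (10064, [18, 0]), (84144, [19, 0]), (-11216, [20, 0])]),
   ((6, 4), [(16896, [8, 4]), (-512, [9, 4]), (29184, [10, 4]), (6400, [11, 3]), (512, [11, 4]),
    (-1024, [12, 3]), (-12672, [13, 2]), (9728, [13, 3]), (-97792, [14, 2]), (1024, [14, 3]),
    (-24448, [15, 2]), (28800, [16, 1]), (-95744, [16, 2]), (128960, [17, 1]), (11776, [17, 2]),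
    (47104, [18, 1]), (-3168, [19, 0]), (93952, [19, 1]), (-28544, [20, 0]), (-18304, [20, 1]),
    (-8160, [21, 0]), (-37120, [22, 0]), (4992, [23, 0])]),
   ((6, 5), [(-7168, [11, 4]), (3072, [13, 3]), (1024, [13, 4]), (13312, [14, 3]),
    (3072, [15, 3]), (1536, [16, 2]), (2048, [16, 3]), (10240, [17, 2]), (1536, [18, 2]),
    (-7680, [19, 1]), (-4096, [19, 2]), (-22528, [20, 1]), (-7680, [21, 1]), (3072, [22, 0]),
    (-2048, [22, 1]), (6144, [23, 0]), (3072, [24, 0]), (3072, [25, 0])]),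
   ((7, 0), [(64, [0, 3]), (64, [0, 4]), (896, [2, 3]), (-64, [3, 2]), (128, [3, 3]),
    (-4320, [4, 2]), (-832, [4, 3]), (-896, [5, 2]), (-5464, [6, 1]), (-17536, [6, 2]),
    (-2160, [7, 1]), (832, [7, 2]), (-20336, [8, 1]), (5464, [9, 0]), (-8768, [9, 1]),
    (60912, [10, 0]), (14872, [10, 1]), (20336, [11, 0]), (107760, [12, 0]), (-14872, [13, 0])])]

/-- Part 7 of the quotient. -/
def quoLo7 : List ((ℕ × ℕ) × Terms) :=
  [((7, 1), [(320, [0, 4]), (128, [0, 5]), (3520, [2, 4]), (-512, [3, 3]), (256, [3, 4]),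
    (-15744, [4, 3]), (-3200, [4, 4]), (-5632, [5, 3]), (-34688, [6, 2]), (-54656, [6, 3]),
    (-1536, [7, 2]), (5120, [7, 3]), (-100768, [8, 2]), (35072, [9, 1]), (2048, [9, 2]),
    (217704, [10, 1]), (66080, [10, 2]), (104992, [11, 1]), (40632, [12, 0]), (329928, [12, 1]),
    (-77952, [13, 0]), (-69920, [13, 1]), (67872, [14, 0]), (-155232, [15, 0]),
    (-27240, [16, 0])]),
   ((7, 2), [(-1152, [3, 4]), (-768, [3, 5]), (-8064, [4, 4]), (-9216, [5, 4]), (-39936, [6, 3]),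
    (-34944, [6, 4]), (25344, [7, 3]), (8064, [7, 4]), (-77568, [8, 3]), (73344, [9, 2]),
    (82944, [9, 3]), (141120, [10, 2]), (37632, [10, 3]), (163392, [11, 2]), (32160, [12, 1]),
    (242496, [12, 2]), (-256032, [13, 1]), (-90048, [13, 2]), (2400, [14, 1]), (-11928, [15, 0]),
    (-391920, [15, 1]), (138456, [16, 0]), (29760, [16, 1]), (-9024, [17, 0]), (96360, [18, 0]),
    (-2904, [19, 0])]),
   ((7, 3), [(768, [6, 4]), (1536, [6, 5]), (27648, [7, 4]), (3840, [8, 4]), (39424, [9, 3]),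
    (56320, [9, 4]), (-19584, [10, 3]), (-3072, [10, 4]), (51968, [11, 3]), (-39232, [12, 2]),
    (-11776, [12, 3]), (-142848, [13, 2]), (-12544, [13, 3]), (-64832, [14, 2]),
    (14144, [15, 1]), (-148864, [15, 2]), (174240, [16, 1]), (25600, [16, 2]), (36160, [17, 1]),
    (-11216, [18, 0]), (157120, [18, 1]), (-78336, [19, 0]), (-22016, [19, 1]),
    (-23248, [20, 0]), (-54336, [21, 0]), (12032, [22, 0])]),
   ((7, 4), [(512, [9, 4]), (-1024, [9, 5]), (-23040, [10, 4]), (1024, [11, 4]), (1024, [12, 3]),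
    (-3584, [12, 4]), (15360, [13, 3]), (-512, [13, 4]), (2048, [14, 3]), (11776, [15, 2]),
    (16384, [15, 3]), (44544, [16, 2]), (-1024, [16, 3]), (9728, [17, 2]), (-18304, [18, 1]),
    (-7168, [18, 2]), (-49920, [19, 1]), (2048, [19, 2]), (-19328, [20, 1]), (4992, [21, 0]),
    (-15360, [21, 1]), (13056, [22, 0]), (1024, [22, 1]), (6528, [23, 0]), (10752, [24, 0]),
    (-1536, [25, 0])])]

/-- Part 8 of the quotient. -/
def quoLo8 : List ((ℕ × ℕ) × Terms) :=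
  [((8, 0), [(-64, [0, 4]), (-832, [2, 3]), (-768, [2, 4]), (-128, [3, 3]), (-5056, [4, 3]),
    (832, [5, 2]), (-1536, [5, 3]), (17536, [6, 2]), (4224, [6, 3]), (5056, [7, 2]),
    (14872, [8, 1]), (41952, [8, 2]), (8768, [9, 1]), (-4224, [9, 2]), (40480, [10, 1]),
    (-14872, [11, 0]), (20976, [11, 1]), (-107760, [12, 0]), (-25608, [12, 1]),
    (-40480, [13, 0]), (-130608, [14, 0]), (25608, [15, 0])]),
   ((8, 1), [(-128, [0, 5]), (-3200, [2, 4]), (-1152, [2, 5]), (-256, [3, 4]), (-14720, [4, 4]),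
    (5120, [5, 3]), (-2304, [5, 4]), (46208, [6, 3]), (11520, [6, 4]), (23552, [7, 3]),
    (66080, [8, 2]), (96192, [8, 3]), (6400, [9, 2]), (-18432, [9, 3]), (132896, [10, 2]),
    (-69920, [11, 1]), (-11520, [11, 2]), (-278712, [12, 1]), (-66816, [12, 2]),
    (-150560, [13, 1]), (-27240, [14, 0]), (-283608, [14, 1]), (104016, [15, 0]),
    (80640, [15, 1]), (-29076, [16, 0]), (149904, [17, 0]), (1836, [18, 0])]),
   ((8, 2), [(768, [3, 5]), (8064, [5, 4]), (4608, [5, 5]), (11904, [6, 4]), (25344, [7, 4]),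
    (37632, [8, 3]), (47232, [8, 4]), (-46080, [9, 3]), (-17280, [9, 4]), (35328, [10, 3]),
    (-90048, [11, 2]), (-107136, [11, 3]), (-108864, [12, 2]), (2304, [12, 3]),
    (-137856, [13, 2]), (29760, [14, 1]), (-105408, [14, 2]), (230640, [15, 1]),
    (47808, [15, 2]), (70944, [16, 1]), (-2904, [17, 0]), (226944, [17, 1]), (-100032, [18, 0]),
    (-41184, [18, 1]), (-11256, [19, 0]), (-66240, [20, 0]), (8352, [21, 0])]),
   ((8, 3), [(-1536, [6, 5]), (-3072, [8, 4]), (-4608, [8, 5]), (-21760, [9, 4]),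
    (-5376, [10, 4]), (-12544, [11, 3]), (-23808, [11, 4]), (7168, [12, 3]), (2304, [12, 4]),
    (-6400, [13, 3]), (25600, [14, 2]), (49152, [14, 3]), (53248, [15, 2]), (-6144, [15, 3]),
    (24064, [16, 2]), (-22016, [17, 1]), (7680, [17, 2]), (-74752, [18, 1]), (1536, [18, 2]),
    (-28160, [19, 1]), (12032, [20, 0]), (-44544, [20, 1]), (37632, [21, 0]), (6144, [21, 1]),
    (15872, [22, 0]), (16128, [23, 0]), (-3840, [24, 0])])]

/-- Part 9 of the quotient. -/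
def quoLo9 : List ((ℕ × ℕ) × Terms) :=
  [((8, 4), [(1024, [9, 5]), (-512, [11, 4]), (-1024, [12, 4]), (-512, [13, 4]),
    (-1024, [14, 3]), (-4096, [15, 3]), (-1024, [16, 3]), (2048, [17, 2]), (4096, [18, 2]),
    (2048, [19, 2]), (1024, [20, 1]), (3072, [21, 1]), (1024, [22, 1]), (-1536, [23, 0]),
    (-3072, [24, 0]), (-1536, [25, 0])]),
   ((9, 0), [(-128, [0, 5]), (768, [2, 4]), (128, [2, 5]), (128, [3, 4]), (4224, [4, 3]),
    (3456, [4, 4]), (1536, [5, 3]), (-128, [5, 4]), (14848, [6, 3]), (-4224, [7, 2]),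
    (6912, [7, 3]), (-41952, [8, 2]), (-10624, [8, 3]), (-14848, [9, 2]), (-25608, [10, 1]),
    (-60480, [10, 2]), (-20976, [11, 1]), (10624, [11, 2]), (-53600, [12, 1]), (25608, [13, 0]),
    (-30240, [13, 1]), (130608, [14, 0]), (27992, [14, 1]), (53600, [15, 0]), (106596, [16, 0]),
    (-27992, [17, 0])]),
   ((9, 1), [(896, [2, 5]), (512, [3, 5]), (11520, [4, 4]), (3712, [4, 5]), (2560, [5, 4]),
    (-512, [5, 5]), (28288, [6, 4]), (-18432, [7, 3]), (6656, [7, 4]), (-74944, [8, 3]),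
    (-16768, [8, 4]), (-47104, [9, 3]), (-66816, [10, 2]), (-95552, [10, 3]), (-9728, [11, 2]),
    (28672, [11, 3]), (-96032, [12, 2]), (80640, [13, 1]), (28160, [13, 2]), (227624, [14, 1]),
    (29216, [14, 2]), (132128, [15, 1]), (1836, [16, 0]), (150160, [16, 1]), (-93920, [17, 0]),
    (-51488, [17, 1]), (-9044, [18, 0]), (-93136, [19, 0]), (10880, [20, 0])]),
   ((9, 2), [(-3584, [5, 5]), (-512, [6, 5]), (-17280, [7, 4]), (-7936, [7, 5]),
    (-13696, [8, 4]), (512, [8, 5]), (-27136, [9, 4]), (2304, [10, 3]), (-30080, [10, 4]),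
    (49792, [11, 3]), (9856, [11, 4]), (17152, [12, 3]), (47808, [13, 2]), (71168, [13, 3]),
    (46976, [14, 2]), (-14848, [14, 3]), (53696, [15, 2]), (-41184, [16, 1]), (4864, [16, 2]),
    (-123968, [17, 1]), (-5888, [17, 2]), (-55520, [18, 1]), (8352, [19, 0]), (-63232, [19, 1]),
    (44480, [20, 0]), (14336, [20, 1]), (12320, [21, 0]), (25216, [22, 0]), (-3968, [23, 0])])]

/-- Part 10 of the quotient. -/
def quoLo10 : List ((ℕ × ℕ) × Terms) :=
  [((9, 3), [(3584, [8, 5]), (2304, [10, 4]), (1024, [10, 5]), (4096, [11, 4]), (2304, [12, 4]),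
    (-6144, [13, 3]), (-1024, [13, 4]), (-19456, [14, 3]), (-6144, [15, 3]), (1536, [16, 2]),
    (-2048, [16, 3]), (4096, [17, 2]), (1536, [18, 2]), (6144, [19, 1]), (2048, [19, 2]),
    (15872, [20, 1]), (6144, [21, 1]), (-3840, [22, 0]), (1024, [22, 1]), (-8192, [23, 0]),
    (-3840, [24, 0]), (-1024, [25, 0])]),
   ((10, 0), [(128, [0, 5]), (1024, [2, 5]), (-128, [3, 4]), (256, [3, 5]), (-3456, [4, 4]),
    (-896, [4, 5]), (-1024, [5, 4]), (-10624, [6, 3]), (-7168, [6, 4]), (-6912, [7, 3]),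
    (896, [7, 4]), (-24512, [8, 3]), (10624, [9, 2]), (-14336, [9, 3]), (60480, [10, 2]),
    (13888, [10, 3]), (24512, [11, 2]), (27992, [12, 1]), (51488, [12, 2]), (30240, [13, 1]),
    (-13888, [13, 2]), (46816, [14, 1]), (-27992, [15, 0]), (25744, [15, 1]), (-106596, [16, 0]),
    (-18824, [16, 1]), (-46816, [17, 0]), (-55984, [18, 0]), (18824, [19, 0])]),
   ((10, 1), [(-512, [3, 5]), (-1920, [4, 5]), (-2560, [5, 5]), (-16768, [6, 4]),
    (-6016, [6, 5]), (-8448, [7, 4]), (2048, [7, 5]), (-23360, [8, 4]), (28672, [9, 3]),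
    (-4352, [9, 4]), (67776, [10, 3]), (6592, [10, 4]), (46592, [11, 3]), (29216, [12, 2]),
    (50048, [12, 3]), (-384, [13, 2]), (-17920, [13, 3]), (28576, [14, 2]), (-51488, [15, 1]),
    (-29312, [15, 2]), (-112512, [16, 1]), (640, [16, 2]), (-67360, [17, 1]), (10880, [18, 0]),
    (-44032, [18, 1]), (55488, [19, 0]), (15872, [19, 1]), (18112, [20, 0]), (33664, [21, 0]),
    (-7232, [22, 0])]),
   ((10, 2), [(512, [6, 5]), (3840, [7, 5]), (1024, [8, 5]), (9856, [9, 4]), (4096, [9, 5]),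
    (16896, [10, 4]), (-512, [10, 5]), (9344, [11, 4]), (-14848, [12, 3]), (-4096, [12, 4]),
    (-35328, [13, 3]), (512, [13, 4]), (-15872, [14, 3]), (-5888, [15, 2]), (-8192, [15, 3]),
    (-6144, [16, 2]), (1024, [16, 3]), (-4864, [17, 2]), (14336, [18, 1]), (8192, [18, 2]),
    (31488, [19, 1]), (-1024, [19, 2]), (14848, [20, 1]), (-3968, [21, 0]), (4096, [21, 1]),
    (-10752, [22, 0]), (-512, [22, 1]), (-4480, [23, 0]), (-4096, [24, 0]), (512, [25, 0])])]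

/-- Part 11 of the quotient. -/
def quoLo11 : List ((ℕ × ℕ) × Terms) :=
  [((11, 0), [(-896, [2, 5]), (-256, [3, 5]), (-2816, [4, 5]), (896, [5, 4]), (-1536, [5, 5]),
    (7168, [6, 4]), (1920, [6, 5]), (2816, [7, 4]), (13888, [8, 3]), (6720, [8, 4]),
    (14336, [9, 3]), (-1920, [9, 4]), (22912, [10, 3]), (-13888, [11, 2]), (13440, [11, 3]),
    (-51488, [12, 2]), (-9024, [12, 3]), (-22912, [13, 2]), (-18824, [14, 1]), (-23808, [14, 2]),
    (-25744, [15, 1]), (9024, [15, 2]), (-25928, [16, 1]), (18824, [17, 0]), (-11904, [17, 1]),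
    (55984, [18, 0]), (7104, [18, 1]), (25928, [19, 0]), (17088, [20, 0]), (-7104, [21, 0])]),
   ((11, 1), [(2048, [5, 5]), (2176, [6, 5]), (3584, [7, 5]), (6592, [8, 4]), (5376, [8, 5]),
    (8192, [9, 4]), (-1536, [9, 5]), (5056, [10, 4]), (-17920, [11, 3]), (-5376, [11, 4]),
    (-32000, [12, 3]), (1536, [12, 4]), (-20992, [13, 3]), (640, [14, 2]), (-10752, [14, 3]),
    (11264, [15, 2]), (3072, [15, 3]), (3712, [16, 2]), (15872, [17, 1]), (10752, [17, 2]),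
    (29824, [18, 1]), (-3072, [18, 2]), (17408, [19, 1]), (-7232, [20, 0]), (5376, [20, 1]),
    (-19456, [21, 0]), (-1536, [21, 1]), (-8768, [22, 0]), (-5376, [23, 0]), (1536, [24, 0])]),
   ((11, 2), [(-512, [8, 5]), (-1024, [9, 5]), (-512, [10, 5]), (512, [11, 4]), (1024, [12, 4]),
    (512, [13, 4]), (1024, [14, 3]), (2048, [15, 3]), (1024, [16, 3]), (-1024, [17, 2]),
    (-2048, [18, 2]), (-1024, [19, 2]), (-512, [20, 1]), (-1024, [21, 1]), (-512, [22, 1]),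
    (512, [23, 0]), (1024, [24, 0]), (512, [25, 0])]),
   ((12, 0), [(1920, [4, 5]), (1536, [5, 5]), (3072, [6, 5]), (-1920, [7, 4]), (2304, [7, 5]),
    (-6720, [8, 4]), (-1152, [8, 5]), (-3072, [9, 4]), (-9024, [10, 3]), (-2304, [10, 4]),
    (-13440, [11, 3]), (1152, [11, 4]), (-11328, [12, 3]), (9024, [13, 2]), (-4608, [13, 3]),
    (23808, [14, 2]), (2304, [14, 3]), (11328, [15, 2]), (7104, [16, 1]), (4608, [16, 2]),
    (11904, [17, 1]), (-2304, [17, 2]), (8256, [18, 1]), (-7104, [19, 0]), (2304, [19, 1]),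
    (-17088, [20, 0]), (-1152, [20, 1]), (-8256, [21, 0]), (-2304, [22, 0]), (1152, [23, 0])])]

/-- Part 12 of the quotient. -/
def quoLo12 : List ((ℕ × ℕ) × Terms) :=
  [((12, 1), [(-1536, [7, 5]), (-3072, [8, 5]), (-1536, [9, 5]), (1536, [10, 4]),
    (3072, [11, 4]), (1536, [12, 4]), (3072, [13, 3]), (6144, [14, 3]), (3072, [15, 3]),
    (-3072, [16, 2]), (-6144, [17, 2]), (-3072, [18, 2]), (-1536, [19, 1]), (-3072, [20, 1]),
    (-1536, [21, 1]), (1536, [22, 0]), (3072, [23, 0]), (1536, [24, 0])]),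
   ((13, 0), [(-1152, [6, 5]), (-2304, [7, 5]), (-1152, [8, 5]), (1152, [9, 4]), (2304, [10, 4]),
    (1152, [11, 4]), (2304, [12, 3]), (4608, [13, 3]), (2304, [14, 3]), (-2304, [15, 2]),
    (-4608, [16, 2]), (-2304, [17, 2]), (-1152, [18, 1]), (-2304, [19, 1]), (-1152, [20, 1]),
    (1152, [21, 0]), (2304, [22, 0]), (1152, [23, 0])])]

/-- The quotient. -/
def quoLo : List ((ℕ × ℕ) × Terms) :=
  quoLo0 ++ quoLo1 ++ quoLo2 ++ quoLo3 ++ quoLo4 ++ quoLo5 ++ quoLo6 ++ quoLo7 ++ quoLo8 ++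
    quoLo9 ++ quoLo10 ++ quoLo11 ++ quoLo12

end Window

end Vale.Agent.P154
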