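import Vale.Agent.P154.Window.Rot
import Vale.Agent.P154.Window.DataL1Lo
import Vale.Agent.P154.Window.DataL1Hi

/-!
Certificates for the extremal-direction inequality.
-/

namespace Vale.Agent.P154

namespace Window

section generic

variable {α : Type} [Add α] [Mul α] (k : ℤ → α)

/-- Value of a grouped table at four arguments. -/
def evG (A m C y : α) : List ((ℕ × ℕ) × Terms) → α
  | [] => k 0
  | g :: gs => pw k A g.1.1 * pw k C g.1.2 * evT k [m, y] g.2 + evG A m C y gs

/-- The inner table after the substitution `m = u / v`, `y = m ^ 3 * (e / f)`, cleared. -/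
def evIn (u v e f : α) : Terms → α
  | [] => k 0
  | t :: ts =>
      k t.1 * (pw k u (t.2.getD 0 0 + 3 * t.2.getD 1 0) * pw k v (25 - t.2.getD 0 0 - 3 * t.2.getD 1 0)
        * (pw k e (t.2.getD 1 0) * pw k f (5 - t.2.getD 1 0))) + evIn u v e f ts

/-- The table after the substitution `A = (r / q) ^ 2`, `C = c / (w * q ^ 3)`, cleared. -/
def evOut (r q c w u v e f : α) : List ((ℕ × ℕ) × Terms) → α
  | [] => k 0
  | g :: gs => pw k r (2 * g.1.1) * pw k q (28 - 2 * g.1.1 - 3 * g.1.2)
      * (pw k c g.1.2 * pw k w (9 - g.1.2)) * evIn k u v e f g.2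
      + evOut r q c w u v e f gs

/-- The table on the part of the domain with small first invariant. -/
def evLow (a m b s : α) (gs : List ((ℕ × ℕ) × Terms)) : α :=
  evOut k a (k 2 * (k 1 + a)) (a * a * a * (b + k (-1))) (k 1 + b)
    m (k 2 * (k 1 + m)) (s + k (-1)) (k 1 + s) gs

/-- The numerator of the cubic invariant on the part with large first invariant. -/
def highC (a b : α) : α :=
  k 2 * (k 1 + a) * dif k (k 3 * ((k 1 + k 2 * a) * (k 1 + k 2 * a)))
      ((k 2 * (k 1 + a)) * (k 2 * (k 1 + a)))
    + k 2 * b * ((k 1 + k 2 * a) * (k 1 + k 2 * a) * (k 1 + k 2 * a))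

/-- The table on the part of the domain with large first invariant. -/
def evHigh (a m b s : α) (gs : List ((ℕ × ℕ) × Terms)) : α :=
  evOut k (k 1 + k 2 * a) (k 2 * (k 1 + a)) (highC k a b) (k 2 * (k 1 + b))
    m (k 2 * (k 1 + m)) (s + k (-1)) (k 1 + s) gs

/-- Numerator of a moment sum at the value `V` of the mixed invariant. -/
def numT (num den A B C K V : α) : α :=
  den * (k 2 * (evT k [A, B, C, K, V] formA * (den2 k A B V * den2 k A B V)))
    + num * evT k [A, B, C, K, V] formQ

/-- Product of two pairs `a + b * h` when `h * h = w`. -/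
def pmul (w : α) (p q : α × α) : α × α :=
  (p.1 * q.1 + p.2 * q.2 * w, p.1 * q.2 + p.2 * q.1)

/-- A table linear in its last argument, as a pair at `V = c + 4 h`. -/
def linV (A B C K c : α) (ts : Terms) : α × α :=
  let z := evT k [A, B, C, K, k 0] ts
  let o := dif k (evT k [A, B, C, K, k 1] ts) z
  (z + c * o, k 4 * o)

/-- The extremal-direction difference in the variables `A`, `m`, `cA`, `cy`. -/
def l1P (num den : α) (A m cA cy : α) : α :=
  let B := m * m
  let C := k 2 * cA
  let K := k 2 * cy
  let c := k 4 * (cA * cy)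
  let w := dif k (A * A * A) (cA * cA) * dif k (B * B * B) (cy * cy)
  let fA := linV k A B C K c formA
  let fQ := linV k A B C K c formQ
  let dp : α × α := (den2 k A B c, k 4)
  let dm : α × α := (den2 k A B c, k (-4))
  let d2 := pmul w dp dp
  let t := pmul w fA d2
  let np : α × α := (den * (k 2 * t.1) + num * fQ.1, den * (k 2 * t.2) + num * fQ.2)
  let dm3 := pmul w dm (pmul w dm dm)
  let prod := pmul w dp dm
  let C0 := k (-2) * (m * m * m)
  let V0 := k (-4) * (cA * (m * m * m))
  let d0 := den2 k A B V0
  dif k (k 2 * numT k num den A B C C0 V0 * pw k prod.1 3)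
    (pw k d0 3 * (k 2 * (pmul w np dm3).1))

/-- The identity defining the quotient. -/
def l1Id (num den : α) (gs : List ((ℕ × ℕ) × Terms)) (A m cA cy : α) : α :=
  dif k (l1P k num den A m cA cy) (k 2048 * ((cy + m * m * m) * evG k A m cA cy gs))

end generic

end Window

end Vale.Agent.P154
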