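import Vale.Agent.P154.Window.Radix
import Vale.Agent.P154.Four.Mask

/-!
Coefficient tests through one packed integer and one bit mask, with a separate radix for every
variable. The digits are never unpacked, so the test needs little memory.
-/

namespace Vale.Agent.P154

namespace Pol

open Four.Mask (rep rep_lt split_mask)

/-- The top bit of every digit. -/
def maskR (bits : ℕ) (D : ℕ → ℕ) : ℕ → ℕ
  | 0 => 2 ^ (bits - 1)
  | n + 1 => rep (bits * prodD D n) (maskR bits D n) (D n)

lemma maskR_lt (bits : ℕ) (D : ℕ → ℕ) (hb : 0 < bits) :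
    ∀ n, maskR bits D n < 2 ^ (bits * prodD D n)
  | 0 => by
    simpa [maskR, prodD] using
      Nat.pow_lt_pow_right (by norm_num : 1 < 2) (by omega : bits - 1 < bits)
  | n + 1 => by
    have := rep_lt _ _ (maskR_lt bits D hb n) (D n)
    rw [maskR, prodD, ← mul_assoc]
    exact this

lemma checkR_of_mask (bits : ℕ) (D : ℕ → ℕ) (hb : 0 < bits) (hD : ∀ i, 0 < D i) :
    ∀ n N : ℕ, N < 2 ^ (bits * prodD D n) → N &&& maskR bits D n = 0 →
      checkR (fun z => decide (0 ≤ z)) bits D n (N : ℤ) = true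
        ∧ 2 * N < 2 ^ (bits * prodD D n) := by
  intro n
  induction n with
  | zero =>
    intro N hN h
    refine ⟨decide_eq_true (Int.natCast_nonneg N), ?_⟩
    simp only [prodD, mul_one] at hN ⊢
    obtain ⟨b, rfl⟩ : ∃ b, bits = b + 1 := ⟨bits - 1, by omega⟩
    simp only [maskR, Nat.add_sub_cancel, Nat.and_two_pow] at h
    have hbit : N.testBit b = false := by
      cases hh : N.testBit b
      · rfl
      · simp [hh] at h
    rw [pow_succ] at hN ⊢
    by_contra hge
    have hdiv : N / 2 ^ b = 1 :=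
      Nat.div_eq_of_lt_le (by omega) (by omega)
    rw [Nat.testBit_eq_decide_div_mod_eq, hdiv] at hbit
    simp at hbit
  | succ n ih =>
    set w := bits * prodD D n with hw
    have e : bits * prodD D (n + 1) = w * D n := by rw [hw, prodD]; ring
    have hm : maskR bits D n < 2 ^ w := maskR_lt bits D hb n
    have hwpos : 0 < w := by
      have := prodD_pos (d := fun _ => 0) hD n
      rw [hw]; exact Nat.mul_pos hb (by omega)
    have hbase : baseR bits D n = ((2 ^ w : ℕ) : ℤ) := by simp [baseR, hw]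
    have key : ∀ k N : ℕ, N < 2 ^ (w * k) → N &&& rep w (maskR bits D n) k = 0 →
        digits (checkR (fun z => decide (0 ≤ z)) bits D n) (baseR bits D n) k (N : ℤ) = true ∧
          (0 < k → 2 * N < 2 ^ (w * k)) := by
      intro k
      induction k with
      | zero =>
        intro N hN _
        refine ⟨?_, fun hk => absurd hk (lt_irrefl 0)⟩
        simp only [mul_zero, pow_zero, Nat.lt_one_iff] at hN
        simp [digits, hN]
      | succ k ihk =>
        intro N hN h
        obtain ⟨h1, h2⟩ := split_mask hm h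
        obtain ⟨c1, b1⟩ := ih (N % 2 ^ w) (Nat.mod_lt _ (Nat.two_pow_pos w)) h1
        have hdiv : N / 2 ^ w < 2 ^ (w * k) := by
          rw [Nat.div_lt_iff_lt_mul (Nat.two_pow_pos w), ← pow_add]
          rwa [Nat.mul_succ] at hN
        obtain ⟨c2, b2⟩ := ihk (N / 2 ^ w) hdiv h2
        refine ⟨?_, fun _ => ?_⟩
        · simp only [digits, Bool.and_eq_true, decide_eq_true_eq, hbase]
          rw [hbase] at c2
          exact ⟨⟨by exact_mod_cast b1, by exact_mod_cast c1⟩, by exact_mod_cast c2⟩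
        · rcases Nat.eq_zero_or_pos k with rfl | hk
          · rw [zero_add, mul_one] at hN ⊢
            rw [Nat.mod_eq_of_lt hN] at b1
            exact b1
          · have hlt := b2 hk
            have hmod := Nat.mod_lt N (Nat.two_pow_pos w)
            have heq := Nat.mod_add_div N (2 ^ w)
            calc 2 * N = 2 * (N % 2 ^ w) + 2 ^ w * (2 * (N / 2 ^ w)) := by linarith
              _ < 2 ^ w * (2 * (N / 2 ^ w) + 2) := by rw [mul_add]; omega
              _ ≤ 2 ^ w * 2 ^ (w * k) := by
                  refine Nat.mul_le_mul le_rfl ?_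
                  have : 2 ∣ 2 ^ (w * k) := dvd_pow_self 2 (Nat.mul_ne_zero hwpos.ne' hk.ne')
                  omega
              _ = 2 ^ (w * (k + 1)) := by rw [← pow_add]; ring_nf
    intro N hN h
    rw [e] at hN ⊢
    obtain ⟨a, b⟩ := key (D n) N hN h
    exact ⟨a, b (hD n)⟩

lemma checkR_zero (f : ℤ → Bool) (hf : f 0 = true) (bits : ℕ) (D : ℕ → ℕ) :
    ∀ n, checkR f bits D n 0 = true
  | 0 => hf
  | n + 1 => by
    have key : ∀ k, digits (checkR f bits D n) (baseR bits D n) k 0 = true := by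
      intro k
      induction k with
      | zero => simp [digits]
      | succ k ih =>
        have : (0 : ℤ) < baseR bits D n := by simp only [baseR]; positivity
        simp [digits, ih, checkR_zero f hf bits D n, this]
    exact key (D n)

end Pol

namespace Ex

/-- The side conditions of a packed test. -/
def fitR (bits D0 D1 D2 D3 : ℕ) (e : Ex) : Bool :=
  decide (0 < bits) && decide (deg 0 e < D0) && decide (deg 1 e < D1) && decide (deg 2 e < D2)
    && decide (deg 3 e < D3) && decide (2 * bound e < (2 : ℤ) ^ bits)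

/-- The mask test of a packed value. -/
def maskTestR (bits : ℕ) (D : ℕ → ℕ) : ℤ → Bool
  | Int.ofNat N =>
    Nat.blt N (2 ^ (bits * Pol.prodD D 4)) && Nat.beq (Nat.land N (Pol.maskR bits D 4)) 0
  | Int.negSucc _ => false

/-- Nonnegativity of every coefficient, through one mask. -/
def posR (bits D0 D1 D2 D3 : ℕ) (e : Ex) : Bool :=
  fitR bits D0 D1 D2 D3 e
    && maskTestR bits (rad D0 D1 D2 D3) (valZ (packR bits (rad D0 D1 D2 D3)) e)

/-- Vanishing of every coefficient, through one packed value. -/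
def nullR (bits D0 D1 D2 D3 : ℕ) (e : Ex) : Bool :=
  fitR bits D0 D1 D2 D3 e && decide (valZ (packR bits (rad D0 D1 D2 D3)) e = 0)

lemma goodR_of_posR {bits D0 D1 D2 D3 : ℕ} {e : Ex} (h : posR bits D0 D1 D2 D3 e = true) :
    goodR (fun z => decide (0 ≤ z)) bits D0 D1 D2 D3 e = true := by
  simp only [posR, fitR, Bool.and_eq_true, decide_eq_true_eq] at h
  obtain ⟨⟨⟨⟨⟨⟨h5, h0⟩, h1⟩, h2⟩, h3⟩, hb⟩, hm⟩ := h
  simp only [goodR, Bool.and_eq_true, decide_eq_true_eq]
  refine ⟨⟨⟨⟨⟨h0, h1⟩, h2⟩, h3⟩, hb⟩, ?_⟩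
  generalize valZ (packR bits (rad D0 D1 D2 D3)) e = Z at hm ⊢
  cases Z with
  | negSucc m => simp [maskTestR] at hm
  | ofNat N =>
    simp only [maskTestR, Bool.and_eq_true, Nat.blt_eq, Nat.beq_eq] at hm
    refine (Pol.checkR_of_mask bits (rad D0 D1 D2 D3) h5 (fun i => ?_) 4 N hm.1 hm.2).1
    rcases i with _ | _ | _ | _ | i <;> simp only [rad] <;> omega

lemma goodR_of_nullR {bits D0 D1 D2 D3 : ℕ} {e : Ex} (h : nullR bits D0 D1 D2 D3 e = true) :
    goodR (fun z => decide (z = 0)) bits D0 D1 D2 D3 e = true := by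
  simp only [nullR, fitR, Bool.and_eq_true, decide_eq_true_eq] at h
  obtain ⟨⟨⟨⟨⟨⟨_, h0⟩, h1⟩, h2⟩, h3⟩, hb⟩, hz⟩ := h
  simp only [goodR, Bool.and_eq_true, decide_eq_true_eq]
  refine ⟨⟨⟨⟨⟨h0, h1⟩, h2⟩, h3⟩, hb⟩, ?_⟩
  rw [hz]
  exact Pol.checkR_zero _ (by simp) _ _ 4

end Ex

end Vale.Agent.P154
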