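import Vale.Agent.P154.Window.CertL1
import Vale.Agent.P154.Window.RadixMask

/-!
Kernel checks of the certificates for the extremal-direction inequality.
-/

namespace Vale.Agent.P154

namespace Window

theorem cert_l1IdLo : Ex.goodR (fun z => decide (z = 0)) 52 8 32 15 11
    (l1Id Ex.c (Ex.c 0) (Ex.c 1) quoLo (Ex.x 2) (Ex.x 1) (Ex.x 3) (Ex.x 0)) = true := by
  exact Ex.goodR_of_nullR (by decide +kernel)

theorem cert_l1LowLo : Ex.goodR (fun z => decide (0 ≤ z)) 142 6 26 29 10
    (evLow Ex.c (Ex.x 2) (Ex.x 1) (Ex.x 3) (Ex.x 0) quoLo) = true := by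
  exact Ex.goodR_of_posR (by decide +kernel)

theorem cert_l1HighLo : Ex.goodR (fun z => decide (0 ≤ z)) 142 6 26 29 10
    (evHigh Ex.c (Ex.x 2) (Ex.x 1) (Ex.x 3) (Ex.x 0) quoLo) = true := by
  exact Ex.goodR_of_posR (by decide +kernel)

end Window

end Vale.Agent.P154
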