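import Vale.Agent.P154.Window.CertL1CheckHiA
import Vale.Agent.P154.Window.CertL1CheckLo

/-!
Kernel checks of the certificates for the extremal-direction inequality.
-/

namespace Vale.Agent.P154

namespace Window

theorem cert_l1HighHi : Ex.goodR (fun z => decide (0 ≤ z)) 142 6 26 29 10
    (evHigh Ex.c (Ex.x 2) (Ex.x 1) (Ex.x 3) (Ex.x 0) quoHi) = true := by
  exact Ex.goodR_of_posR (by decide +kernel)

end Window

end Vale.Agent.P154
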