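import Vale.Agent.P154.Window.Forms

/-!
Tables for the convexity inequality, in the variables `A`, `cA`, `m`.
-/

namespace Vale.Agent.P154

namespace Window

/-- Numerator, coefficient 0 / 1. -/
def tabNZero : Terms :=
  [(32, [0, 0, 2]), (-64, [0, 1, 2]), (-64, [0, 1, 3]), (64, [0, 1, 4]), (-128, [0, 1, 5]),
    (256, [0, 2, 5]), (256, [0, 2, 6]), (-256, [0, 2, 7]), (128, [0, 2, 8]), (-256, [0, 3, 8]),
    (-256, [0, 3, 9]), (256, [0, 3, 10]), (32, [1, 0, 0]), (-32, [1, 0, 2]), (64, [1, 0, 3]),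
    (-224, [1, 0, 4]), (-128, [1, 1, 3]), (384, [1, 1, 4]), (512, [1, 1, 5]), (-640, [1, 1, 6]),
    (512, [1, 1, 7]), (128, [1, 2, 6]), (-768, [1, 2, 7]), (-896, [1, 2, 8]), (1024, [1, 2, 9]),
    (-128, [1, 2, 10]), (-224, [2, 0, 2]), (-64, [2, 0, 3]), (160, [2, 0, 4]), (-384, [2, 0, 5]),
    (480, [2, 0, 6]), (512, [2, 1, 5]), (-320, [2, 1, 6]), (-832, [2, 1, 7]), (1344, [2, 1, 8]),
    (-384, [2, 1, 9]), (-128, [2, 2, 8]), (-256, [2, 2, 9]), (-128, [2, 2, 10]),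
    (480, [3, 0, 4]), (384, [3, 0, 5]), (-96, [3, 0, 6]), (576, [3, 0, 7]), (-288, [3, 0, 8]),
    (-384, [3, 1, 7]), (-768, [3, 1, 8]), (-384, [3, 1, 9]), (-288, [4, 0, 6]),
    (-576, [4, 0, 7]), (-288, [4, 0, 8])]

/-- Convexity polynomial, coefficient 0 / 1. -/
def tabEZero : Terms :=
  [(-768, [0, 1, 2]), (2048, [0, 1, 3]), (3840, [0, 1, 4]), (-7680, [0, 2, 4]),
    (-4608, [0, 2, 5]), (-2560, [0, 2, 6]), (-13824, [0, 2, 7]), (27648, [0, 3, 7]),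
    (27648, [0, 3, 8]), (-15360, [0, 3, 9]), (9216, [0, 3, 10]), (-18432, [0, 4, 10]),
    (-30720, [0, 4, 11]), (26624, [0, 4, 12]), (6144, [0, 4, 13]), (-12288, [0, 5, 13]),
    (-4096, [0, 5, 15]), (768, [1, 0, 2]), (2048, [1, 0, 3]), (768, [1, 1, 2]),
    (-6144, [1, 1, 3]), (-3840, [1, 1, 4]), (-7680, [1, 1, 5]), (-33280, [1, 1, 6]),
    (4608, [1, 2, 5]), (69120, [1, 2, 6]), (73728, [1, 2, 7]), (-41472, [1, 2, 8]),
    (53760, [1, 2, 9]), (-27648, [1, 3, 8]), (-92160, [1, 3, 9]), (-138240, [1, 3, 10]),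
    (122880, [1, 3, 11]), (8192, [1, 3, 12]), (30720, [1, 4, 11]), (-43008, [1, 4, 12]),
    (12288, [1, 4, 13]), (-30720, [1, 4, 14]), (2048, [1, 4, 15]), (-768, [2, 0, 2]),
    (-4096, [2, 0, 3]), (-12288, [2, 0, 5]), (7680, [2, 1, 4]), (32256, [2, 1, 5]),
    (58880, [2, 1, 6]), (-41472, [2, 1, 7]), (73728, [2, 1, 8]), (-87552, [2, 2, 7]),
    (-105984, [2, 2, 8]), (-199680, [2, 2, 9]), (207360, [2, 2, 10]), (-23040, [2, 2, 11]),
    (147456, [2, 3, 10]), (-76800, [2, 3, 11]), (29696, [2, 3, 12]), (-82944, [2, 3, 13]),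
    (15360, [2, 3, 14]), (-6144, [2, 4, 13]), (2048, [2, 4, 15]), (6144, [3, 0, 3]),
    (24576, [3, 0, 5]), (-23040, [3, 0, 6]), (18432, [3, 0, 7]), (-92160, [3, 1, 6]),
    (4608, [3, 1, 7]), (-115200, [3, 1, 8]), (161280, [3, 1, 9]), (-32256, [3, 1, 10]),
    (253440, [3, 2, 9]), (-142848, [3, 2, 10]), (-105984, [3, 2, 12]), (32256, [3, 2, 13]),
    (-21504, [3, 3, 12]), (18432, [3, 3, 13]), (15360, [3, 3, 14]), (-36864, [4, 0, 5]),
    (23040, [4, 0, 6]), (-36864, [4, 0, 7]), (55296, [4, 0, 8]), (188928, [4, 1, 8]),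
    (-161280, [4, 1, 9]), (-25344, [4, 1, 10]), (-69120, [4, 1, 11]), (20736, [4, 1, 12]),
    (-23040, [4, 2, 11]), (64512, [4, 2, 12]), (32256, [4, 2, 13]), (55296, [5, 0, 7]),
    (-55296, [5, 0, 8]), (-20736, [5, 0, 10]), (-6912, [5, 1, 10]), (69120, [5, 1, 11]),
    (20736, [5, 1, 12]), (20736, [6, 0, 10])]

/-- Numerator, coefficient 1 / 4. -/
def tabNQuarter : Terms :=
  [(128, [0, 0, 2]), (32, [0, 0, 4]), (-128, [0, 1, 2]), (-192, [0, 1, 3]), (-512, [0, 1, 4]),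
    (-1088, [0, 1, 5]), (768, [0, 1, 6]), (448, [0, 1, 7]), (768, [0, 2, 4]), (2816, [0, 2, 5]),
    (-4096, [0, 2, 7]), (512, [0, 2, 8]), (768, [0, 2, 9]), (128, [0, 2, 10]), (768, [0, 3, 7]),
    (-512, [0, 3, 8]), (-1536, [0, 3, 9]), (1024, [0, 3, 10]), (128, [1, 0, 0]),
    (128, [1, 0, 3]), (-1152, [1, 0, 4]), (384, [1, 0, 5]), (96, [1, 0, 6]), (-384, [1, 1, 2]),
    (-1088, [1, 1, 3]), (3072, [1, 1, 4]), (2112, [1, 1, 5]), (-4352, [1, 1, 6]),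
    (3648, [1, 1, 7]), (384, [1, 1, 8]), (-192, [1, 1, 9]), (-1536, [1, 2, 5]),
    (-640, [1, 2, 6]), (-3840, [1, 2, 7]), (-4224, [1, 2, 8]), (5888, [1, 2, 9]),
    (-384, [1, 2, 10]), (32, [2, 0, 0]), (-1152, [2, 0, 2]), (512, [2, 0, 3]), (672, [2, 0, 4]),
    (-3072, [2, 0, 5]), (2304, [2, 0, 6]), (384, [2, 0, 7]), (288, [2, 0, 8]), (448, [2, 1, 3]),
    (-384, [2, 1, 4]), (3648, [2, 1, 5]), (256, [2, 1, 6]), (-5184, [2, 1, 7]),
    (4992, [2, 1, 8]), (-2304, [2, 1, 9]), (384, [2, 1, 10]), (128, [2, 2, 6]), (768, [2, 2, 7]),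
    (768, [2, 2, 8]), (-256, [2, 2, 9]), (-384, [2, 2, 10]), (96, [3, 0, 2]), (-768, [3, 0, 3]),
    (1536, [3, 0, 4]), (1536, [3, 0, 5]), (-480, [3, 0, 6]), (3840, [3, 0, 7]),
    (-576, [3, 0, 8]), (-288, [3, 0, 10]), (-192, [3, 1, 5]), (-768, [3, 1, 6]),
    (-3072, [3, 1, 7]), (-4224, [3, 1, 8]), (-1344, [3, 1, 9]), (384, [3, 1, 10]),
    (288, [4, 0, 4]), (1152, [4, 0, 5]), (576, [4, 0, 6]), (-1152, [4, 0, 7]),
    (-1440, [4, 0, 8]), (-1152, [4, 0, 9]), (-576, [4, 0, 10]), (-288, [5, 0, 6]),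
    (-1152, [5, 0, 7]), (-1728, [5, 0, 8]), (-1152, [5, 0, 9]), (-288, [5, 0, 10])]

/-- Convexity polynomial, coefficient 1 / 4. -/
def tabEQuarter : Terms :=
  [(-2304, [0, 1, 2]), (-16384, [0, 1, 3]), (-19200, [0, 1, 4]), (73728, [0, 1, 5]),
    (89600, [0, 1, 6]), (24576, [0, 2, 3]), (122880, [0, 2, 4]), (-87552, [0, 2, 5]),
    (-839680, [0, 2, 6]), (-373248, [0, 2, 7]), (617472, [0, 2, 8]), (250880, [0, 2, 9]),
    (506880, [0, 3, 6]), (1327104, [0, 3, 7]), (-534528, [0, 3, 8]), (-2088960, [0, 3, 9]),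
    (-184320, [0, 3, 10]), (460800, [0, 3, 11]), (168960, [0, 3, 12]), (829440, [0, 4, 9]),
    (847872, [0, 4, 10]), (-552960, [0, 4, 11]), (-286720, [0, 4, 12]), (24576, [0, 4, 13]),
    (-83968, [0, 4, 15]), (98304, [0, 5, 12]), (-24576, [0, 5, 13]), (-16384, [0, 5, 15]),
    (32768, [0, 5, 18]), (1536, [1, 0, 2]), (2048, [1, 0, 3]), (23040, [1, 0, 4]),
    (36864, [1, 0, 5]), (-3840, [1, 1, 2]), (61440, [1, 1, 3]), (57600, [1, 1, 4]),
    (-556032, [1, 1, 5]), (-270080, [1, 1, 6]), (506880, [1, 1, 7]), (-19200, [1, 1, 8]),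
    (-230400, [1, 2, 4]), (-59904, [1, 2, 5]), (1843200, [1, 2, 6]), (119808, [1, 2, 7]),
    (-1889280, [1, 2, 8]), (819200, [1, 2, 9]), (211968, [1, 2, 10]), (207360, [1, 2, 11]),
    (-1234944, [1, 3, 7]), (-488448, [1, 3, 8]), (737280, [1, 3, 9]), (-783360, [1, 3, 10]),
    (1075200, [1, 3, 11]), (103424, [1, 3, 12]), (-147456, [1, 3, 13]), (-506880, [1, 3, 14]),
    (-589824, [1, 4, 10]), (-245760, [1, 4, 11]), (-380928, [1, 4, 12]), (129024, [1, 4, 13]),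
    (-122880, [1, 4, 14]), (169984, [1, 4, 15]), (245760, [1, 4, 17]), (-65536, [1, 5, 18]),
    (6144, [2, 0, 2]), (20480, [2, 0, 3]), (-138240, [2, 0, 4]), (-141312, [2, 0, 5]),
    (192000, [2, 0, 6]), (7680, [2, 1, 2]), (-122880, [2, 1, 3]), (-172800, [2, 1, 4]),
    (1327104, [2, 1, 5]), (290560, [2, 1, 6]), (-1981440, [2, 1, 7]), (575232, [2, 1, 8]),
    (460800, [2, 1, 9]), (716544, [2, 1, 10]), (267264, [2, 2, 5]), (-1336320, [2, 2, 6]),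
    (-294912, [2, 2, 7]), (2414592, [2, 2, 8]), (-1722880, [2, 2, 9]), (-340992, [2, 2, 10]),
    (-1267200, [2, 2, 11]), (138240, [2, 2, 12]), (-1013760, [2, 2, 13]), (414720, [2, 3, 8]),
    (-368640, [2, 3, 9]), (1677312, [2, 3, 10]), (430080, [2, 3, 11]), (75776, [2, 3, 12]),
    (-737280, [2, 3, 13]), (1029120, [2, 3, 14]), (-6144, [2, 3, 15]), (737280, [2, 3, 16]),
    (30720, [2, 4, 11]), (98304, [2, 4, 12]), (36864, [2, 4, 13]), (-75776, [2, 4, 15]),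
    (-491520, [2, 4, 17]), (32768, [2, 5, 18]), (-9216, [3, 0, 2]), (-61440, [3, 0, 3]),
    (276480, [3, 0, 4]), (227328, [3, 0, 5]), (-499200, [3, 0, 6]), (405504, [3, 0, 7]),
    (105984, [3, 0, 8]), (184320, [3, 0, 9]), (288000, [3, 1, 4]), (-903168, [3, 1, 5]),
    (-979200, [3, 1, 6]), (1622016, [3, 1, 7]), (-869376, [3, 1, 8]), (1013760, [3, 1, 9]),
    (-836352, [3, 1, 10]), (-230400, [3, 1, 11]), (-1255680, [3, 1, 12]), (576000, [3, 2, 7]),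
    (-1336320, [3, 2, 8]), (576000, [3, 2, 9]), (-1124352, [3, 2, 10]), (576000, [3, 2, 11]),
    (138240, [3, 2, 12]), (2571264, [3, 2, 13]), (-46080, [3, 2, 14]), (1110528, [3, 2, 15]),
    (-64512, [3, 3, 10]), (-276480, [3, 3, 11]), (-559104, [3, 3, 12]), (-147456, [3, 3, 13]),
    (-445440, [3, 3, 14]), (-6144, [3, 3, 15]), (-1474560, [3, 3, 16]), (245760, [3, 4, 17]),
    (92160, [4, 0, 3]), (-207360, [4, 0, 4]), (-350208, [4, 0, 5]), (668160, [4, 0, 6]),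
    (-313344, [4, 0, 7]), (23040, [4, 0, 8]), (-737280, [4, 0, 9]), (-13824, [4, 0, 10]),
    (-276480, [4, 0, 11]), (495360, [4, 1, 6]), (-635904, [4, 1, 7]), (1338624, [4, 1, 8]),
    (-46080, [4, 1, 9]), (338688, [4, 1, 10]), (-1059840, [4, 1, 11]), (1953792, [4, 1, 12]),
    (110592, [4, 1, 13]), (864000, [4, 1, 14]), (92160, [4, 2, 9]), (359424, [4, 2, 10]),
    (506880, [4, 2, 11]), (737280, [4, 2, 12]), (-995328, [4, 2, 13]), (-46080, [4, 2, 14]),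
    (-2202624, [4, 2, 15]), (737280, [4, 3, 16]), (165888, [5, 0, 5]), (-161280, [5, 0, 6]),
    (276480, [5, 0, 7]), (-317952, [5, 0, 8]), (184320, [5, 0, 9]), (110592, [5, 0, 10]),
    (1105920, [5, 0, 11]), (165888, [5, 0, 13]), (34560, [5, 1, 8]), (-184320, [5, 1, 9]),
    (-635904, [5, 1, 10]), (-276480, [5, 1, 11]), (-1006848, [5, 1, 12]), (359424, [5, 1, 13]),
    (-1589760, [5, 1, 14]), (-69120, [5, 2, 11]), (-147456, [5, 2, 12]), (-82944, [5, 2, 13]),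
    (1110528, [5, 2, 15]), (-69120, [6, 0, 8]), (290304, [6, 0, 10]), (-276480, [6, 0, 11]),
    (-124416, [6, 0, 12]), (-663552, [6, 0, 13]), (-20736, [6, 1, 10]), (138240, [6, 1, 11]),
    (373248, [6, 1, 12]), (248832, [6, 1, 13]), (864000, [6, 1, 14]), (41472, [7, 0, 10]),
    (-124416, [7, 0, 12]), (165888, [7, 0, 13])]

/-- Numerator, coefficient 3 / 10. -/
def tabNMid : Terms :=
  [(320, [0, 0, 2]), (96, [0, 0, 4]), (-256, [0, 1, 2]), (-448, [0, 1, 3]), (-1664, [0, 1, 4]),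
    (-3008, [0, 1, 5]), (2304, [0, 1, 6]), (1344, [0, 1, 7]), (2304, [0, 2, 4]),
    (7936, [0, 2, 5]), (-512, [0, 2, 6]), (-11776, [0, 2, 7]), (1280, [0, 2, 8]),
    (2304, [0, 2, 9]), (384, [0, 2, 10]), (2304, [0, 3, 7]), (-1024, [0, 3, 8]),
    (-4096, [0, 3, 9]), (2560, [0, 3, 10]), (320, [1, 0, 0]), (64, [1, 0, 2]), (256, [1, 0, 3]),
    (-3008, [1, 0, 4]), (1152, [1, 0, 5]), (288, [1, 0, 6]), (-1152, [1, 1, 2]),
    (-3008, [1, 1, 3]), (8448, [1, 1, 4]), (5312, [1, 1, 5]), (-11776, [1, 1, 6]),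
    (9920, [1, 1, 7]), (1152, [1, 1, 8]), (-576, [1, 1, 9]), (-4608, [1, 2, 5]),
    (-2176, [1, 2, 6]), (-9984, [1, 2, 7]), (-10880, [1, 2, 8]), (15616, [1, 2, 9]),
    (-896, [1, 2, 10]), (96, [2, 0, 0]), (-3008, [2, 0, 2]), (1664, [2, 0, 3]),
    (1696, [2, 0, 4]), (-8448, [2, 0, 5]), (5952, [2, 0, 6]), (1152, [2, 0, 7]),
    (864, [2, 0, 8]), (1344, [2, 1, 3]), (-1152, [2, 1, 4]), (9920, [2, 1, 5]),
    (1408, [2, 1, 6]), (-13888, [2, 1, 7]), (12288, [2, 1, 8]), (-6144, [2, 1, 9]),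
    (1152, [2, 1, 10]), (384, [2, 2, 6]), (2304, [2, 2, 7]), (2560, [2, 2, 8]),
    (-256, [2, 2, 9]), (-896, [2, 2, 10]), (288, [3, 0, 2]), (-2304, [3, 0, 3]),
    (3648, [3, 0, 4]), (3840, [3, 0, 5]), (-1248, [3, 0, 6]), (10368, [3, 0, 7]),
    (-1152, [3, 0, 8]), (-864, [3, 0, 10]), (-576, [3, 1, 5]), (-2304, [3, 1, 6]),
    (-8448, [3, 1, 7]), (-11136, [3, 1, 8]), (-3264, [3, 1, 9]), (1152, [3, 1, 10]),
    (864, [4, 0, 4]), (3456, [4, 0, 5]), (2304, [4, 0, 6]), (-2304, [4, 0, 7]),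
    (-3744, [4, 0, 8]), (-3456, [4, 0, 9]), (-1728, [4, 0, 10]), (-864, [5, 0, 6]),
    (-3456, [5, 0, 7]), (-5184, [5, 0, 8]), (-3456, [5, 0, 9]), (-864, [5, 0, 10])]

/-- Convexity polynomial, coefficient 3 / 10. -/
def tabEMid : Terms :=
  [(-5376, [0, 1, 2]), (-53248, [0, 1, 3]), (-65280, [0, 1, 4]), (221184, [0, 1, 5]),
    (268800, [0, 1, 6]), (73728, [0, 2, 3]), (384000, [0, 2, 4]), (-253440, [0, 2, 5]),
    (-2513920, [0, 2, 6]), (-1092096, [0, 2, 7]), (1852416, [0, 2, 8]), (752640, [0, 2, 9]),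
    (1520640, [0, 3, 6]), (3926016, [0, 3, 7]), (-1658880, [0, 3, 8]), (-6236160, [0, 3, 9]),
    (-571392, [0, 3, 10]), (1382400, [0, 3, 11]), (506880, [0, 3, 12]), (2488320, [0, 4, 9]),
    (2580480, [0, 4, 10]), (-1597440, [0, 4, 11]), (-913408, [0, 4, 12]), (61440, [0, 4, 13]),
    (-251904, [0, 4, 15]), (294912, [0, 5, 12]), (-49152, [0, 5, 13]), (-40960, [0, 5, 15]),
    (98304, [0, 5, 18]), (3072, [1, 0, 2]), (2048, [1, 0, 3]), (69120, [1, 0, 4]),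
    (110592, [1, 0, 5]), (-13056, [1, 1, 2]), (196608, [1, 1, 3]), (180480, [1, 1, 4]),
    (-1652736, [1, 1, 5]), (-743680, [1, 1, 6]), (1520640, [1, 1, 7]), (-57600, [1, 1, 8]),
    (-691200, [1, 2, 4]), (-188928, [1, 2, 5]), (5391360, [1, 2, 6]), (211968, [1, 2, 7]),
    (-5584896, [1, 2, 8]), (2350080, [1, 2, 9]), (635904, [1, 2, 10]), (622080, [1, 2, 11]),
    (-3704832, [1, 3, 7]), (-1410048, [1, 3, 8]), (2396160, [1, 3, 9]), (-2073600, [1, 3, 10]),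
    (2979840, [1, 3, 11]), (293888, [1, 3, 12]), (-442368, [1, 3, 13]), (-1520640, [1, 3, 14]),
    (-1769472, [1, 4, 10]), (-798720, [1, 4, 11]), (-1056768, [1, 4, 12]), (362496, [1, 4, 13]),
    (-307200, [1, 4, 14]), (505856, [1, 4, 15]), (737280, [1, 4, 17]), (-196608, [1, 5, 18]),
    (19968, [2, 0, 2]), (69632, [2, 0, 3]), (-414720, [2, 0, 4]), (-399360, [2, 0, 5]),
    (576000, [2, 0, 6]), (23040, [2, 1, 2]), (-368640, [2, 1, 3]), (-533760, [2, 1, 4]),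
    (3916800, [2, 1, 5]), (753920, [2, 1, 6]), (-5861376, [2, 1, 7]), (1578240, [2, 1, 8]),
    (1382400, [2, 1, 9]), (2149632, [2, 1, 10]), (801792, [2, 2, 5]), (-4008960, [2, 2, 6]),
    (-709632, [2, 2, 7]), (7455744, [2, 2, 8]), (-4769280, [2, 2, 9]), (-1437696, [2, 2, 10]),
    (-3755520, [2, 2, 11]), (414720, [2, 2, 12]), (-3041280, [2, 2, 13]), (1244160, [2, 3, 8]),
    (-1105920, [2, 3, 9]), (4737024, [2, 3, 10]), (1443840, [2, 3, 11]), (167936, [2, 3, 12]),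
    (-2045952, [2, 3, 13]), (3056640, [2, 3, 14]), (-18432, [2, 3, 15]), (2211840, [2, 3, 16]),
    (92160, [2, 4, 11]), (294912, [2, 4, 12]), (122880, [2, 4, 13]), (-231424, [2, 4, 15]),
    (-1474560, [2, 4, 17]), (98304, [2, 5, 18]), (-27648, [3, 0, 2]), (-196608, [3, 0, 3]),
    (829440, [3, 0, 4]), (632832, [3, 0, 5]), (-1451520, [3, 0, 6]), (1179648, [3, 0, 7]),
    (317952, [3, 0, 8]), (552960, [3, 0, 9]), (864000, [3, 1, 4]), (-2709504, [3, 1, 5]),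
    (-2753280, [3, 1, 6]), (4856832, [3, 1, 7]), (-2377728, [3, 1, 8]), (2718720, [3, 1, 9]),
    (-2444544, [3, 1, 10]), (-691200, [3, 1, 11]), (-3767040, [3, 1, 12]), (1728000, [3, 2, 7]),
    (-4008960, [3, 2, 8]), (1221120, [3, 2, 9]), (-3087360, [3, 2, 10]), (1728000, [3, 2, 11]),
    (626688, [3, 2, 12]), (7649280, [3, 2, 13]), (-138240, [3, 2, 14]), (3331584, [3, 2, 15]),
    (-193536, [3, 3, 10]), (-829440, [3, 3, 11]), (-1634304, [3, 3, 12]), (-479232, [3, 3, 13]),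
    (-1367040, [3, 3, 14]), (-18432, [3, 3, 15]), (-4423680, [3, 3, 16]), (737280, [3, 4, 17]),
    (276480, [4, 0, 3]), (-622080, [4, 0, 4]), (-976896, [4, 0, 5]), (1958400, [4, 0, 6]),
    (-866304, [4, 0, 7]), (-41472, [4, 0, 8]), (-2211840, [4, 0, 9]), (-41472, [4, 0, 10]),
    (-829440, [4, 0, 11]), (1486080, [4, 1, 6]), (-1907712, [4, 1, 7]), (3638016, [4, 1, 8]),
    (184320, [4, 1, 9]), (1066752, [4, 1, 10]), (-3041280, [4, 1, 11]), (5819904, [4, 1, 12]),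
    (331776, [4, 1, 13]), (2592000, [4, 1, 14]), (276480, [4, 2, 9]), (1078272, [4, 2, 10]),
    (1566720, [4, 2, 11]), (2082816, [4, 2, 12]), (-3050496, [4, 2, 13]), (-138240, [4, 2, 14]),
    (-6607872, [4, 2, 15]), (2211840, [4, 3, 16]), (497664, [5, 0, 5]), (-483840, [5, 0, 6]),
    (718848, [5, 0, 7]), (-843264, [5, 0, 8]), (552960, [5, 0, 9]), (373248, [5, 0, 10]),
    (3317760, [5, 0, 11]), (497664, [5, 0, 13]), (103680, [5, 1, 8]), (-552960, [5, 1, 9]),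
    (-1893888, [5, 1, 10]), (-967680, [5, 1, 11]), (-3062016, [5, 1, 12]), (1078272, [5, 1, 13]),
    (-4769280, [5, 1, 14]), (-207360, [5, 2, 11]), (-442368, [5, 2, 12]), (-248832, [5, 2, 13]),
    (3331584, [5, 2, 15]), (-207360, [6, 0, 8]), (829440, [6, 0, 10]), (-829440, [6, 0, 11]),
    (-373248, [6, 0, 12]), (-1990656, [6, 0, 13]), (-62208, [6, 1, 10]), (414720, [6, 1, 11]),
    (1119744, [6, 1, 12]), (746496, [6, 1, 13]), (2592000, [6, 1, 14]), (124416, [7, 0, 10]),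
    (-373248, [7, 0, 12]), (497664, [7, 0, 13])]

/-- Numerator, coefficient 12 / 25. -/
def tabNTop : Terms :=
  [(800, [0, 0, 2]), (384, [0, 0, 4]), (-64, [0, 1, 2]), (-832, [0, 1, 3]), (-7616, [0, 1, 4]),
    (-10112, [0, 1, 5]), (9216, [0, 1, 6]), (5376, [0, 1, 7]), (9216, [0, 2, 4]),
    (27904, [0, 2, 5]), (-5888, [0, 2, 6]), (-43264, [0, 2, 7]), (3200, [0, 2, 8]),
    (9216, [0, 2, 9]), (1536, [0, 2, 10]), (9216, [0, 3, 7]), (-256, [0, 3, 8]),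
    (-12544, [0, 3, 9]), (6400, [0, 3, 10]), (800, [1, 0, 0]), (736, [1, 0, 2]), (64, [1, 0, 3]),
    (-8672, [1, 0, 4]), (4608, [1, 0, 5]), (1152, [1, 0, 6]), (-4608, [1, 1, 2]),
    (-10112, [1, 1, 3]), (28032, [1, 1, 4]), (13568, [1, 1, 5]), (-37504, [1, 1, 6]),
    (32000, [1, 1, 7]), (4608, [1, 1, 8]), (-2304, [1, 1, 9]), (-18432, [1, 2, 5]),
    (-10624, [1, 2, 6]), (-28416, [1, 2, 7]), (-30080, [1, 2, 8]), (47104, [1, 2, 9]),
    (-1664, [1, 2, 10]), (384, [2, 0, 0]), (-8672, [2, 0, 2]), (7616, [2, 0, 3]),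
    (4384, [2, 0, 4]), (-28032, [2, 0, 5]), (16608, [2, 0, 6]), (4608, [2, 0, 7]),
    (3456, [2, 0, 8]), (5376, [2, 1, 3]), (-4608, [2, 1, 4]), (32000, [2, 1, 5]),
    (10432, [2, 1, 6]), (-43072, [2, 1, 7]), (28992, [2, 1, 8]), (-18816, [2, 1, 9]),
    (4608, [2, 1, 10]), (1536, [2, 2, 6]), (9216, [2, 2, 7]), (12160, [2, 2, 8]),
    (2816, [2, 2, 9]), (-1664, [2, 2, 10]), (1152, [3, 0, 2]), (-9216, [3, 0, 3]),
    (7392, [3, 0, 4]), (9600, [3, 0, 5]), (-3552, [3, 0, 6]), (32832, [3, 0, 7]),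
    (-288, [3, 0, 8]), (-3456, [3, 0, 10]), (-2304, [3, 1, 5]), (-9216, [3, 1, 6]),
    (-28032, [3, 1, 7]), (-33024, [3, 1, 8]), (-7296, [3, 1, 9]), (4608, [3, 1, 10]),
    (3456, [4, 0, 4]), (13824, [4, 0, 5]), (13536, [4, 0, 6]), (-576, [4, 0, 7]),
    (-10656, [4, 0, 8]), (-13824, [4, 0, 9]), (-6912, [4, 0, 10]), (-3456, [5, 0, 6]),
    (-13824, [5, 0, 7]), (-20736, [5, 0, 8]), (-13824, [5, 0, 9]), (-3456, [5, 0, 10])]

/-- Convexity polynomial, coefficient 12 / 25. -/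
def tabETop : Terms :=
  [(2048, [0, 0, 3]), (-9984, [0, 1, 2]), (-243712, [0, 1, 3]), (-318720, [0, 1, 4]),
    (884736, [0, 1, 5]), (1054720, [0, 1, 6]), (294912, [0, 2, 3]), (1651200, [0, 2, 4]),
    (-944640, [0, 2, 5]), (-10017280, [0, 2, 6]), (-4161024, [0, 2, 7]), (7409664, [0, 2, 8]),
    (3092480, [0, 2, 9]), (6082560, [0, 3, 6]), (15289344, [0, 3, 7]), (-7050240, [0, 3, 8]),
    (-24714240, [0, 3, 9]), (-2423808, [0, 3, 10]), (5529600, [0, 3, 11]), (1863680, [0, 3, 12]),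
    (9953280, [0, 4, 9]), (10598400, [0, 4, 10]), (-5928960, [0, 4, 11]), (-4052992, [0, 4, 12]),
    (153600, [0, 4, 13]), (-843776, [0, 4, 15]), (1179648, [0, 5, 12]), (-12288, [0, 5, 13]),
    (-102400, [0, 5, 15]), (327680, [0, 5, 18]), (768, [1, 0, 2]), (-26624, [1, 0, 3]),
    (276480, [1, 0, 4]), (411648, [1, 0, 5]), (-63744, [1, 1, 2]), (878592, [1, 1, 3]),
    (779520, [1, 1, 4]), (-6495744, [1, 1, 5]), (-2434560, [1, 1, 6]), (6082560, [1, 1, 7]),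
    (15360, [1, 1, 8]), (-2764800, [1, 2, 4]), (-824832, [1, 2, 5]), (20528640, [1, 2, 6]),
    (-258048, [1, 2, 7]), (-21717504, [1, 2, 8]), (8430080, [1, 2, 9]), (2543616, [1, 2, 10]),
    (1751040, [1, 2, 11]), (-14819328, [1, 3, 7]), (-5225472, [1, 3, 8]), (10967040, [1, 3, 9]),
    (-6220800, [1, 3, 10]), (10076160, [1, 3, 11]), (1380352, [1, 3, 12]),
    (-1769472, [1, 3, 13]), (-5099520, [1, 3, 14]), (-7077888, [1, 4, 10]),
    (-3655680, [1, 4, 11]), (-3581952, [1, 4, 12]), (1265664, [1, 4, 13]), (-768000, [1, 4, 14]),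
    (1665024, [1, 4, 15]), (2457600, [1, 4, 17]), (-655360, [1, 5, 18]), (91392, [2, 0, 2]),
    (342016, [2, 0, 3]), (-1658880, [2, 0, 4]), (-1351680, [2, 0, 5]), (2304000, [2, 0, 6]),
    (184320, [2, 0, 7]), (92160, [2, 1, 2]), (-1474560, [2, 1, 3]), (-2250240, [2, 1, 4]),
    (15183360, [2, 1, 5]), (2112000, [2, 1, 6]), (-22823424, [2, 1, 7]), (4715520, [2, 1, 8]),
    (5529600, [2, 1, 9]), (7492608, [2, 1, 10]), (3207168, [2, 2, 5]), (-16035840, [2, 2, 6]),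
    (-1525248, [2, 2, 7]), (31412736, [2, 2, 8]), (-16000000, [2, 2, 9]), (-8861184, [2, 2, 10]),
    (-13201920, [2, 2, 11]), (1658880, [2, 2, 12]), (-9953280, [2, 2, 13]), (4976640, [2, 3, 8]),
    (-4423680, [2, 3, 9]), (16736256, [2, 3, 10]), (6927360, [2, 3, 11]), (62464, [2, 3, 12]),
    (-6939648, [2, 3, 13]), (10030080, [2, 3, 14]), (-73728, [2, 3, 15]), (7372800, [2, 3, 16]),
    (368640, [2, 4, 11]), (1179648, [2, 4, 12]), (583680, [2, 4, 13]), (-792576, [2, 4, 15]),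
    (-4915200, [2, 4, 17]), (327680, [2, 5, 18]), (-110592, [3, 0, 2]), (-878592, [3, 0, 3]),
    (3317760, [3, 0, 4]), (2131968, [3, 0, 5]), (-5460480, [3, 0, 6]), (4073472, [3, 0, 7]),
    (1271808, [3, 0, 8]), (1658880, [3, 0, 9]), (3456000, [3, 1, 4]), (-10838016, [3, 1, 5]),
    (-9630720, [3, 1, 6]), (19358208, [3, 1, 7]), (-7537152, [3, 1, 8]), (8455680, [3, 1, 9]),
    (-7082496, [3, 1, 10]), (-2764800, [3, 1, 11]), (-12856320, [3, 1, 12]),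
    (6912000, [3, 2, 7]), (-16035840, [3, 2, 8]), (1082880, [3, 2, 9]), (-10206720, [3, 2, 10]),
    (6174720, [3, 2, 11]), (4096512, [3, 2, 12]), (25689600, [3, 2, 13]), (-552960, [3, 2, 14]),
    (11114496, [3, 2, 15]), (-774144, [3, 3, 10]), (-3317760, [3, 3, 11]),
    (-6214656, [3, 3, 12]), (-2193408, [3, 3, 13]), (-4715520, [3, 3, 14]), (-73728, [3, 3, 15]),
    (-14745600, [3, 3, 16]), (2457600, [3, 4, 17]), (1105920, [4, 0, 3]), (-2488320, [4, 0, 4]),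
    (-3354624, [4, 0, 5]), (7488000, [4, 0, 6]), (-2727936, [4, 0, 7]), (-995328, [4, 0, 8]),
    (-7741440, [4, 0, 9]), (-165888, [4, 0, 10]), (-2488320, [4, 0, 11]), (5944320, [4, 1, 6]),
    (-7630848, [4, 1, 7]), (11718144, [4, 1, 8]), (3156480, [4, 1, 9]), (3541248, [4, 1, 10]),
    (-11128320, [4, 1, 11]), (18544896, [4, 1, 12]), (1327104, [4, 1, 13]),
    (8709120, [4, 1, 14]), (1105920, [4, 2, 9]), (4313088, [4, 2, 10]), (6612480, [4, 2, 11]),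
    (7363584, [4, 2, 12]), (-10473984, [4, 2, 13]), (-552960, [4, 2, 14]),
    (-22007808, [4, 2, 15]), (7372800, [4, 3, 16]), (1990656, [5, 0, 5]), (-1935360, [5, 0, 6]),
    (2045952, [5, 0, 7]), (-2543616, [5, 0, 8]), (1658880, [5, 0, 9]), (1804032, [5, 0, 10]),
    (11612160, [5, 0, 11]), (1492992, [5, 0, 13]), (414720, [5, 1, 8]), (-2211840, [5, 1, 9]),
    (-7471872, [5, 1, 10]), (-4907520, [5, 1, 11]), (-10347264, [5, 1, 12]),
    (4313088, [5, 1, 13]), (-15759360, [5, 1, 14]), (-829440, [5, 2, 11]),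
    (-1769472, [5, 2, 12]), (-995328, [5, 2, 13]), (11114496, [5, 2, 15]), (-829440, [6, 0, 8]),
    (3006720, [6, 0, 10]), (-2488320, [6, 0, 11]), (-1492992, [6, 0, 12]),
    (-6967296, [6, 0, 13]), (-248832, [6, 1, 10]), (1658880, [6, 1, 11]), (4478976, [6, 1, 12]),
    (2985984, [6, 1, 13]), (8709120, [6, 1, 14]), (497664, [7, 0, 10]), (-1492992, [7, 0, 12]),
    (1492992, [7, 0, 13])]

end Window

end Vale.Agent.P154
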