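import Vale.Agent.P154.Window.CertL1
import Vale.Agent.P154.Window.DataL2

/-!
Certificates for the convexity of a moment sum in the squared length of the second factor.
-/

namespace Vale.Agent.P154

namespace Window

/-- The derivative in the last variable of a table in three variables. -/
def derT : Terms → Terms :=
  List.map fun t => (t.1 * (t.2.getD 2 0 : ℤ),
    [t.2.getD 0 0, t.2.getD 1 0, t.2.getD 2 0 - 1])

/-- Twice the denominator at a Potts second factor, as a table in `A`, `cA`, `m`. -/
def tabD : Terms := [(2, [0, 0, 0]), (-6, [1, 0, 2]), (-4, [0, 1, 3])]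

section generic

variable {α : Type} [Add α] [Mul α] (k : ℤ → α)

/-- The numerator at a Potts second factor, from the closed form. -/
def nPotts (num den A cA m : α) : α :=
  let B := m * m
  let V0 := k (-4) * (cA * (m * m * m))
  numT k num den A B (k 2 * cA) (k (-2) * (m * m * m)) V0

/-- The identity defining the numerator table. -/
def nId (num den : α) (N : Terms) (A cA m : α) : α :=
  dif k (nPotts k num den A cA m) (evT k [A, cA, m] N)

/-- The identity defining the convexity polynomial. -/
def l2Id (cnum : α) (N E : Terms) (A cA m : α) : α :=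
  let v := [A, cA, m]
  let f := evT k v N
  let f1 := evT k v (derT N)
  let f2 := evT k v (derT (derT N))
  let g := evT k v tabD
  let g1 := evT k v (derT tabD)
  let g2 := evT k v (derT (derT tabD))
  let n1 := dif k (f1 * g) (k 3 * (f * g1))
  let n1' := dif k (f2 * g) (k 2 * (f1 * g1) + k 3 * (f * g2))
  let n2 := dif k (n1' * g) (k 4 * (n1 * g1))
  let o := dif k (k 1) A
  dif k (dif k (m * n2) (n1 * g + k 32 * (cnum * (o * o * (m * m * m) * pw k g 5))))
    (evT k v E)

/-- A table after the substitution `A = (r / q) ^ 2`, `cA = c / (w * q ^ 3)`, `m = u / v`,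
cleared. -/
def evSub (P S Q : ℕ) (r q c w u v : α) : Terms → α
  | [] => k 0
  | t :: ts => k t.1 * (pw k r (2 * t.2.getD 0 0)
      * pw k q (P - 2 * t.2.getD 0 0 - 3 * t.2.getD 1 0)
      * (pw k c (t.2.getD 1 0) * pw k w (S - t.2.getD 1 0))
      * (pw k u (t.2.getD 2 0) * pw k v (Q - t.2.getD 2 0)))
    + evSub P S Q r q c w u v ts

/-- The table on the part with small first invariant. -/
def subLow (P S Q : ℕ) (a m b : α) (ts : Terms) : α :=
  evSub k P S Q a (k 2 * (k 1 + a)) (a * a * a * (b + k (-1))) (k 1 + b) m (k 2 * (k 1 + m)) ts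

/-- The numerator of the cubic invariant on the part with large first invariant. -/
def topC (a b : α) : α :=
  k 2 * (k 1 + a) * dif k (k 3 * ((k 1 + k 2 * a) * (k 1 + k 2 * a)))
      ((k 2 * (k 1 + a)) * (k 2 * (k 1 + a)))
    + k 2 * b * ((k 1 + k 2 * a) * (k 1 + k 2 * a) * (k 1 + k 2 * a))

/-- The table on the part with large first invariant. -/
def subHigh (P S Q : ℕ) (a m b : α) (ts : Terms) : α :=
  evSub k P S Q (k 1 + k 2 * a) (k 2 * (k 1 + a)) (topC k a b) (k 2 * (k 1 + b))
    m (k 2 * (k 1 + m)) ts

end generic

end Window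

end Vale.Agent.P154
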