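import Vale.Agent.P154.Window.CertL2
import Vale.Agent.P154.Window.RadixMask

/-!
Kernel checks of the certificates for the convexity inequality.
-/

namespace Vale.Agent.P154

namespace Window

theorem cert_nIdZero : Ex.goodR (fun z => decide (z = 0)) 17 6 4 11 1
    (nId Ex.c (Ex.c 0) (Ex.c 1) tabNZero (Ex.x 0) (Ex.x 1) (Ex.x 2)) = true := by
  exact Ex.goodR_of_nullR (by decide +kernel)

theorem cert_nIdQuarter : Ex.goodR (fun z => decide (z = 0)) 20 6 4 11 1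
    (nId Ex.c (Ex.c 1) (Ex.c 4) tabNQuarter (Ex.x 0) (Ex.x 1) (Ex.x 2)) = true := by
  exact Ex.goodR_of_nullR (by decide +kernel)

theorem cert_nIdTop : Ex.goodR (fun z => decide (z = 0)) 23 6 4 11 1
    (nId Ex.c (Ex.c 12) (Ex.c 25) tabNTop (Ex.x 0) (Ex.x 1) (Ex.x 2)) = true := by
  exact Ex.goodR_of_nullR (by decide +kernel)

theorem cert_l2IdZero : Ex.goodR (fun z => decide (z = 0)) 30 8 6 19 1
    (l2Id Ex.c (Ex.c 0) tabNZero tabEZero (Ex.x 0) (Ex.x 1) (Ex.x 2)) = true := by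
  exact Ex.goodR_of_nullR (by decide +kernel)

theorem cert_l2IdQuarter : Ex.goodR (fun z => decide (z = 0)) 33 8 6 19 1
    (l2Id Ex.c (Ex.c 1) tabNQuarter tabEQuarter (Ex.x 0) (Ex.x 1) (Ex.x 2)) = true := by
  exact Ex.goodR_of_nullR (by decide +kernel)

theorem cert_l2IdTop : Ex.goodR (fun z => decide (z = 0)) 36 8 6 19 1
    (l2Id Ex.c (Ex.c 10) tabNTop tabETop (Ex.x 0) (Ex.x 1) (Ex.x 2)) = true := by
  exact Ex.goodR_of_nullR (by decide +kernel)

theorem cert_l2LowZero : Ex.goodR (fun z => decide (0 ≤ z)) 72 17 16 6 1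
    (subLow Ex.c 16 5 15 (Ex.x 0) (Ex.x 1) (Ex.x 2) tabEZero) = true := by
  exact Ex.goodR_of_posR (by decide +kernel)

theorem cert_l2HighZero : Ex.goodR (fun z => decide (0 ≤ z)) 83 17 16 6 1
    (subHigh Ex.c 16 5 15 (Ex.x 0) (Ex.x 1) (Ex.x 2) tabEZero) = true := by
  exact Ex.goodR_of_posR (by decide +kernel)

theorem cert_l2LowQuarter : Ex.goodR (fun z => decide (0 ≤ z)) 87 20 19 6 1
    (subLow Ex.c 19 5 18 (Ex.x 0) (Ex.x 1) (Ex.x 2) tabEQuarter) = true := by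
  exact Ex.goodR_of_posR (by decide +kernel)

theorem cert_l2HighQuarter : Ex.goodR (fun z => decide (0 ≤ z)) 99 20 19 6 1
    (subHigh Ex.c 19 5 18 (Ex.x 0) (Ex.x 1) (Ex.x 2) tabEQuarter) = true := by
  exact Ex.goodR_of_posR (by decide +kernel)

theorem cert_l2LowTop : Ex.goodR (fun z => decide (0 ≤ z)) 90 20 19 6 1
    (subLow Ex.c 19 5 18 (Ex.x 0) (Ex.x 1) (Ex.x 2) tabETop) = true := by
  exact Ex.goodR_of_posR (by decide +kernel)

theorem cert_l2HighTopFst : Ex.goodR (fun z => decide (0 ≤ z)) 115 20 38 6 1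
    (subHigh Ex.c 19 5 18 (Ex.x 0 + Ex.x 1) (Ex.x 1) (Ex.x 2) tabETop) = true := by
  exact Ex.goodR_of_posR (by decide +kernel)

theorem cert_l2HighTopSnd : Ex.goodR (fun z => decide (0 ≤ z)) 115 38 19 6 1
    (subHigh Ex.c 19 5 18 (Ex.x 0) (Ex.x 0 + Ex.x 1) (Ex.x 2) tabETop) = true := by
  exact Ex.goodR_of_posR (by decide +kernel)

theorem cert_nIdMid : Ex.goodR (fun z => decide (z = 0)) 21 6 4 11 1
    (nId Ex.c (Ex.c 3) (Ex.c 10) tabNMid (Ex.x 0) (Ex.x 1) (Ex.x 2)) = true := by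
  exact Ex.goodR_of_nullR (by decide +kernel)

theorem cert_l2IdMid : Ex.goodR (fun z => decide (z = 0)) 34 8 6 19 1
    (l2Id Ex.c (Ex.c 3) tabNMid tabEMid (Ex.x 0) (Ex.x 1) (Ex.x 2)) = true := by
  exact Ex.goodR_of_nullR (by decide +kernel)

theorem cert_l2LowMid : Ex.goodR (fun z => decide (0 ≤ z)) 88 20 19 6 1
    (subLow Ex.c 19 5 18 (Ex.x 0) (Ex.x 1) (Ex.x 2) tabEMid) = true := by
  exact Ex.goodR_of_posR (by decide +kernel)

theorem cert_l2HighMidFst : Ex.goodR (fun z => decide (0 ≤ z)) 113 20 38 6 1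
    (subHigh Ex.c 19 5 18 (Ex.x 0 + Ex.x 1) (Ex.x 1) (Ex.x 2) tabEMid) = true := by
  exact Ex.goodR_of_posR (by decide +kernel)

theorem cert_l2HighMidSnd : Ex.goodR (fun z => decide (0 ≤ z)) 113 38 19 6 1
    (subHigh Ex.c 19 5 18 (Ex.x 0) (Ex.x 0 + Ex.x 1) (Ex.x 2) tabEMid) = true := by
  exact Ex.goodR_of_posR (by decide +kernel)

end Window

end Vale.Agent.P154
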