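import Vale.Agent.P154.Window.Convexity

/-!
Convexity in the child for every nonnegative vector and every admissible coefficient pair.
-/

namespace Vale.Agent.P154

namespace Window

open Filter Topology

/-- Convexity in the squared length of the child, up to the quadratic correction. -/
def CC (κ κ' : ℝ) : Prop :=
  ∀ x1 x2 x3 : ℝ, 0 ≤ x1 → 0 ≤ x2 → 0 ≤ x3 →
    ConvexOn ℝ (Set.Icc 0 (1 / 4))
      fun s => childT κ x1 x2 x3 (Real.sqrt s) - κ' * mO x1 x2 x3 * s ^ 2

lemma cc_of {num den cn : ℕ} {N E : Terms} (hC : L2Cert num den cn N E) :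
    CC (num / den) (cn / den) := by
  set κ : ℝ := num / den
  set κ' : ℝ := cn / den
  have pos : ∀ x1 x2 x3 : ℝ, 0 < x1 → 0 < x2 → 0 < x3 →
      ConvexOn ℝ (Set.Icc 0 (1 / 4))
        fun s => childT κ x1 x2 x3 (Real.sqrt s) - κ' * mO x1 x2 x3 * s ^ 2 := by
    intro x1 x2 x3 a b c
    set S := tot x1 x2 x3 with hSdef
    have hS : 0 < S := by simp only [hSdef, tot]; linarith
    have hn : tot (S⁻¹ * x1) (S⁻¹ * x2) (S⁻¹ * x3) = 1 := by
      rw [tot_hom, ← hSdef]; field_simp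
    have h := (convex_norm hC (by positivity) (by positivity) (by positivity) hn).smul hS.le
    refine h.congr fun s _ => ?_
    have e : ∀ m : ℝ, childT κ (S⁻¹ * x1) (S⁻¹ * x2) (S⁻¹ * x3) m = S⁻¹ * childT κ x1 x2 x3 m := by
      intro m
      have := rot6_scale κ S⁻¹ 1 x1 x2 x3 ((1 - 2 * m) / 3) ((1 + m) / 3) ((1 + m) / 3)
      simpa [childT] using this
    simp only [smul_eq_mul]
    rw [e, quad_hom, mO, mA, mQ, mS, ← hSdef]
    field_simp
    ring
  intro x1 x2 x3 a b c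
  have sh : ∀ {z : ℝ}, 0 ≤ z → ∀ t : ℝ, 0 ≤ t → 0 ≤ z + t := fun hz t ht => add_nonneg hz ht
  have lim : ∀ s ∈ Set.Icc (0 : ℝ) (1 / 4), Tendsto
      (fun t => childT κ (x1 + t) (x2 + t) (x3 + t) (Real.sqrt s)
        - κ' * mO (x1 + t) (x2 + t) (x3 + t) * s ^ 2) (𝓝[>] (0 : ℝ))
      (𝓝 (childT κ x1 x2 x3 (Real.sqrt s) - κ' * mO x1 x2 x3 * s ^ 2)) := by
    intro s hs
    have hr : Real.sqrt s ≤ 1 / 2 := by
      rw [Real.sqrt_le_iff]; exact ⟨by norm_num, by linarith [hs.2]⟩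
    have h0 := Real.sqrt_nonneg s
    have h1 := tendsto_rot6 κ a b c (show 0 ≤ (1 - 2 * Real.sqrt s) / 3 by linarith)
      (show 0 ≤ (1 + Real.sqrt s) / 3 by linarith) (show 0 ≤ (1 + Real.sqrt s) / 3 by linarith)
    have hA := tendsto_mA (x1 + ·) (x2 + ·) (x3 + ·) (by fun_prop) (by fun_prop) (by fun_prop)
      (sh a) (sh b) (sh c)
    have hQ := tendsto_mQ (x1 + ·) (x2 + ·) (x3 + ·) (by fun_prop) (by fun_prop) (by fun_prop)
      (sh a) (sh b) (sh c)
    have hS := tendsto_mS (x1 + ·) (x2 + ·) (x3 + ·) (by fun_prop) (by fun_prop) (by fun_prop)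
      (sh a) (sh b) (sh c)
    have h2 := ((hS.sub (hA.const_mul 2)).add hQ).const_mul κ' |>.mul_const (s ^ 2)
    simpa [childT, mO] using h1.sub h2
  refine ⟨convex_Icc _ _, fun u hu v hv p q hp hq hpq => ?_⟩
  refine le_of_tendsto_of_tendsto (lim _ (convex_Icc _ _ hu hv hp hq hpq))
    (((lim u hu).const_mul p).add ((lim v hv).const_mul q)) ?_
  filter_upwards [self_mem_nhdsWithin] with t ht
  have ht' : (0 : ℝ) < t := ht
  exact (pos _ _ _ (by linarith) (by linarith) (by linarith)).2 hu hv hp hq hpq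

lemma cc_combine {κ κ' ν ν' p q : ℝ} (h : CC κ κ') (g : CC ν ν') (hp : 0 ≤ p) (hq : 0 ≤ q)
    (hpq : p + q = 1) : CC (p * κ + q * ν) (p * κ' + q * ν') := by
  intro x1 x2 x3 a b c
  refine (((h x1 x2 x3 a b c).smul hp).add ((g x1 x2 x3 a b c).smul hq)).congr fun s _ => ?_
  have hq' : q = 1 - p := by linarith
  simp only [Pi.add_apply, smul_eq_mul, childT, rot6, mPhi, hq']
  ring

theorem cc_zero : CC 0 0 := by simpa using cc_of l2cert_zero

theorem cc_quarter : CC (1 / 4) (1 / 4) := by simpa using cc_of l2cert_quarter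

theorem cc_mid : CC (3 / 10) (3 / 10) := by simpa using cc_of l2cert_mid

theorem cc_top : CC (12 / 25) (2 / 5) := by
  have := cc_of l2cert_top
  norm_num at this
  exact this

/-- Pairs with equal coefficients. -/
theorem cc_diag {κ : ℝ} (h0 : 0 ≤ κ) (h1 : κ ≤ 1 / 4) : CC κ κ := by
  have := cc_combine cc_zero cc_quarter (p := 1 - 4 * κ) (q := 4 * κ) (by linarith) (by linarith)
    (by ring)
  convert this using 1 <;> ring

/-- Pairs between the last two certified ones. -/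
theorem cc_upper {κ : ℝ} (h0 : 3 / 10 ≤ κ) (h1 : κ ≤ 12 / 25) :
    CC κ (3 / 10 + 5 / 9 * (κ - 3 / 10)) := by
  have := cc_combine cc_mid cc_top (p := 1 - 50 / 9 * (κ - 3 / 10))
    (q := 50 / 9 * (κ - 3 / 10)) (by linarith) (by linarith) (by ring)
  convert this using 1 <;> ring

end Window

end Vale.Agent.P154
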