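import Mathlib.Analysis.SpecialFunctions.Exp
import Mathlib.Analysis.SpecialFunctions.Exponential
import Mathlib.Analysis.Normed.Field.Lemmas
import Mathlib.Analysis.Normed.Ring.InfiniteSum
import Mathlib.Topology.Algebra.InfiniteSum.Ring
import Mathlib.Algebra.BigOperators.NatAntidiagonal
import Mathlib.Analysis.SpecificLimits.Normed

/-!
Exponential convolutions of sequences.
-/

namespace Vale.Agent.P154

namespace Window

open Finset

/-- The terms of an exponential series. -/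
noncomputable def ew (w : ℝ) (n : ℕ) : ℝ := w ^ n / (n.factorial : ℝ)

lemma ew_succ (w : ℝ) (n : ℕ) : ((n : ℝ) + 1) * ew w (n + 1) = w * ew w n := by
  simp only [ew, Nat.factorial_succ, Nat.cast_mul, Nat.cast_succ, pow_succ]
  field_simp

lemma ew_nonneg {w : ℝ} (h : 0 ≤ w) (n : ℕ) : 0 ≤ ew w n := by rw [ew]; positivity

/-- Convolution with an exponential series. -/
noncomputable def econv (w : ℝ) (u : ℕ → ℝ) (N : ℕ) : ℝ :=
  ∑ z ∈ antidiagonal N, ew w z.1 * u z.2

lemma econv_succ (w : ℝ) (u : ℕ → ℝ) (N : ℕ) :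
    ((N : ℝ) + 1) * econv w u (N + 1)
      = w * econv w u N + econv w (fun r => ((r : ℝ) + 1) * u (r + 1)) N := by
  simp only [econv, mul_sum]
  have h : ∀ z ∈ antidiagonal (N + 1), ((N : ℝ) + 1) * (ew w z.1 * u z.2)
      = (z.1 : ℝ) * ew w z.1 * u z.2 + ew w z.1 * ((z.2 : ℝ) * u z.2) := fun z hz => by
    have : ((N : ℝ) + 1) = (z.1 : ℝ) + z.2 := by
      exact_mod_cast (mem_antidiagonal.mp hz).symm
    rw [this]; ring
  rw [sum_congr rfl h, sum_add_distrib]
  congr 1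
  · rw [Nat.sum_antidiagonal_succ]
    simp only [Nat.cast_zero, zero_mul, zero_add]
    refine sum_congr rfl fun z _ => ?_
    push_cast
    rw [ew_succ]; ring
  · rw [Nat.sum_antidiagonal_succ']
    simp only [Nat.cast_zero, zero_mul, mul_zero, zero_add]
    refine sum_congr rfl fun z _ => ?_
    push_cast
    ring

/-- The inner convolution. -/
noncomputable def duo (w1 w2 : ℝ) (F : ℕ → ℕ → ℝ) (i j r : ℕ) : ℝ :=
  ∑ z ∈ antidiagonal r, ew w1 z.1 * (ew w2 z.2 * F (i + z.1) (j + z.2))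

lemma duo_succ (w1 w2 : ℝ) (F : ℕ → ℕ → ℝ) (i j r : ℕ) :
    ((r : ℝ) + 1) * duo w1 w2 F i j (r + 1)
      = w1 * duo w1 w2 F (i + 1) j r + w2 * duo w1 w2 F i (j + 1) r := by
  simp only [duo, mul_sum]
  have h : ∀ z ∈ antidiagonal (r + 1),
      ((r : ℝ) + 1) * (ew w1 z.1 * (ew w2 z.2 * F (i + z.1) (j + z.2)))
      = ((z.1 : ℝ) * ew w1 z.1) * (ew w2 z.2 * F (i + z.1) (j + z.2))
        + ew w1 z.1 * (((z.2 : ℝ) * ew w2 z.2) * F (i + z.1) (j + z.2)) := fun z hz => by
    have : ((r : ℝ) + 1) = (z.1 : ℝ) + z.2 := by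
      exact_mod_cast (mem_antidiagonal.mp hz).symm
    rw [this]; ring
  rw [sum_congr rfl h, sum_add_distrib]
  congr 1
  · rw [Nat.sum_antidiagonal_succ]
    simp only [Nat.cast_zero, zero_mul, zero_add]
    refine sum_congr rfl fun z _ => ?_
    push_cast
    rw [ew_succ, show i + (z.1 + 1) = i + 1 + z.1 by omega]; ring
  · rw [Nat.sum_antidiagonal_succ']
    simp only [Nat.cast_zero, zero_mul, mul_zero, zero_add]
    refine sum_congr rfl fun z _ => ?_
    push_cast
    rw [ew_succ, show j + (z.2 + 1) = j + 1 + z.2 by omega]; ring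

/-- The triple convolution. -/
noncomputable def trio (w0 w1 w2 : ℝ) (F : ℕ → ℕ → ℝ) (i j N : ℕ) : ℝ :=
  econv w0 (duo w1 w2 F i j) N

lemma trio_zero (w0 w1 w2 : ℝ) (F : ℕ → ℕ → ℝ) (i j : ℕ) : trio w0 w1 w2 F i j 0 = F i j := by
  simp [trio, econv, duo, ew]

lemma trio_succ (w0 w1 w2 : ℝ) (F : ℕ → ℕ → ℝ) (i j N : ℕ) :
    ((N : ℝ) + 1) * trio w0 w1 w2 F i j (N + 1)
      = w0 * trio w0 w1 w2 F i j N + w1 * trio w0 w1 w2 F (i + 1) j N
        + w2 * trio w0 w1 w2 F i (j + 1) N := by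
  rw [trio, econv_succ]
  simp only [trio, duo_succ, econv, mul_sum, ← sum_add_distrib]
  refine sum_congr rfl fun z _ => ?_
  ring

/-- A three-term recursion is solved by the triple convolution. -/
theorem solve_rec {w0 w1 w2 : ℝ} (f : ℕ → ℕ → ℕ → ℝ) (F : ℕ → ℕ → ℝ) (h0 : ∀ i j, f 0 i j = F i j)
    (hs : ∀ N i j, f (N + 1) i j = w0 * f N i j + w1 * f N (i + 1) j + w2 * f N i (j + 1)) :
    ∀ N i j, f N i j = (N.factorial : ℝ) * trio w0 w1 w2 F i j N
  | 0, i, j => by simp [h0, trio_zero]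
  | N + 1, i, j => by
    rw [hs, solve_rec f F h0 hs N i j, solve_rec f F h0 hs N (i + 1) j,
      solve_rec f F h0 hs N i (j + 1), Nat.factorial_succ, Nat.cast_mul, Nat.cast_succ]
    have := trio_succ w0 w1 w2 F i j N
    linear_combination (-(N.factorial : ℝ)) * this

lemma pow_mul_econv (d w : ℝ) (u : ℕ → ℝ) (N : ℕ) :
    d ^ N * econv w u N = econv (d * w) (fun r => d ^ r * u r) N := by
  simp only [econv, mul_sum]
  refine sum_congr rfl fun z hz => ?_
  rw [← mem_antidiagonal.mp hz]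
  simp only [ew, mul_pow, pow_add]
  ring

lemma pow_mul_duo (d w1 w2 : ℝ) (F : ℕ → ℕ → ℝ) (r : ℕ) :
    d ^ r * duo w1 w2 F 0 0 r = duo (d * w1) (d * w2) F 0 0 r := by
  simp only [duo, mul_sum]
  refine sum_congr rfl fun z hz => ?_
  rw [← mem_antidiagonal.mp hz]
  simp only [ew, mul_pow, pow_add]
  ring

lemma summable_ew (w : ℝ) : Summable fun n => ‖ew w n‖ :=
  (Real.summable_pow_div_factorial w).abs

lemma tsum_ew (w : ℝ) : ∑' n, ew w n = Real.exp w := by
  rw [Real.exp_eq_exp_ℝ, NormedSpace.exp_eq_tsum_div]; rfl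

lemma summable_ew_pair {M b : ℝ} {F : ℕ → ℕ → ℝ} {C : ℝ} (hC : ∀ i j, |F i j| ≤ C) :
    Summable fun z : ℕ × ℕ => ew M z.1 * (ew b z.2 * F z.1 z.2) := by
  have h : Summable fun z : ℕ × ℕ => ‖ew M z.1‖ * (‖ew b z.2‖ * C) :=
    summable_mul_of_summable_norm (f := fun n => ‖ew M n‖) (g := fun n => ‖ew b n‖ * C)
      (by simpa using summable_ew M) (((summable_ew b).mul_right C).abs)
  refine Summable.of_norm_bounded h fun z => ?_
  rw [norm_mul, norm_mul]
  exact mul_le_mul_of_nonneg_left (mul_le_mul_of_nonneg_left (hC _ _) (norm_nonneg _))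
    (norm_nonneg _)

/-- The Poisson average of the triple convolution. -/
theorem hasSum_pow_trio {d w0 w1 w2 : ℝ} {F : ℕ → ℕ → ℝ} {C : ℝ} (hC : ∀ i j, |F i j| ≤ C) :
    HasSum (fun N => d ^ N * trio w0 w1 w2 F 0 0 N)
      (Real.exp (d * w0) * ∑' z : ℕ × ℕ, ew (d * w1) z.1 * (ew (d * w2) z.2 * F z.1 z.2)) := by
  set M := d * w1
  set b := d * w2
  have hs := summable_ew_pair (M := M) (b := b) hC
  set t : ℕ × ℕ → ℝ := fun z => ew M z.1 * (ew b z.2 * F z.1 z.2) with ht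
  have hσ : Summable (t ∘ HasAntidiagonal.sigmaAntidiagonalEquivProd) :=
    (Equiv.summable_iff _).mpr hs
  have hfib : ∀ r, HasSum (fun c : (antidiagonal r : Finset (ℕ × ℕ)) => t c) (duo M b F 0 0 r) := by
    intro r
    have hsum : ∑ c : (antidiagonal r : Finset (ℕ × ℕ)), t c = duo M b F 0 0 r := by
      rw [sum_coe_sort (antidiagonal r) t]
      simp only [duo, zero_add, ht]
    exact hsum ▸ hasSum_fintype _
  have h0 : HasSum (fun c : (r : ℕ) × (antidiagonal r : Finset (ℕ × ℕ)) => t c.2.1) (∑' z, t z) := by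
    have h := (Equiv.hasSum_iff (HasAntidiagonal.sigmaAntidiagonalEquivProd (A := ℕ))).mpr hs.hasSum
    exact h
  have h1 : HasSum (duo M b F 0 0) (∑' z, t z) := HasSum.sigma h0 hfib
  have hn : Summable fun r => ‖duo M b F 0 0 r‖ := by
    have hg : Summable fun c : (r : ℕ) × (antidiagonal r : Finset (ℕ × ℕ)) => |t c.2.1| :=
      h0.summable.abs
    refine Summable.of_nonneg_of_le (fun r => norm_nonneg _) (fun r => ?_) hg.sigma
    rw [tsum_fintype, Real.norm_eq_abs]
    refine le_trans (le_of_eq ?_) (Finset.abs_sum_le_sum_abs _ _)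
    congr 1
    exact (tsum_fintype _).symm.trans (hfib r).tsum_eq |>.symm
  have h2 := tsum_mul_tsum_eq_tsum_sum_antidiagonal_of_summable_norm (summable_ew (d * w0)) hn
  have h3 := summable_norm_sum_mul_antidiagonal_of_summable_norm (summable_ew (d * w0)) hn
  have e : ∀ N, d ^ N * trio w0 w1 w2 F 0 0 N = econv (d * w0) (duo M b F 0 0) N := fun N => by
    rw [trio, pow_mul_econv]
    simp only [pow_mul_duo, M, b]
  simp only [e]
  rw [← tsum_ew, ← h1.tsum_eq, h2]
  exact h3.of_norm.hasSum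

end Window

end Vale.Agent.P154
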