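import Vale.Agent.P154.Window.CertL1
import Mathlib.Analysis.RCLike.Basic

/-!
Evaluation of grouped tables at real arguments.
-/

namespace Vale.Agent.P154

namespace Window

lemma pw_eq (z : ℝ) : ∀ n, pw rc z n = z ^ n
  | 0 => by simp [pw]
  | n + 1 => by rw [pw, pw_eq z n, pow_succ]

lemma val_add (ρ : ℕ → ℝ) (a b : Ex) : Ex.val ρ (a + b) = Ex.val ρ a + Ex.val ρ b := rfl

lemma val_mul (ρ : ℕ → ℝ) (a b : Ex) : Ex.val ρ (a * b) = Ex.val ρ a * Ex.val ρ b := rfl

lemma val_c (ρ : ℕ → ℝ) (z : ℤ) : Ex.val ρ (Ex.c z) = rc z := rfl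

lemma val_x (ρ : ℕ → ℝ) (i : ℕ) : Ex.val ρ (Ex.x i) = ρ i := rfl

lemma val_dif (ρ : ℕ → ℝ) (a b : Ex) :
    Ex.val ρ (dif Ex.c a b) = dif rc (Ex.val ρ a) (Ex.val ρ b) := rfl

lemma val_evG (ρ : ℕ → ℝ) (A m C y : Ex) : ∀ gs : List ((ℕ × ℕ) × Terms),
    Ex.val ρ (evG Ex.c A m C y gs)
      = evG rc (Ex.val ρ A) (Ex.val ρ m) (Ex.val ρ C) (Ex.val ρ y) gs
  | [] => rfl
  | g :: gs => by
    simp only [evG, val_add, val_mul, val_pw, val_evT, val_evG ρ A m C y gs, List.map]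

lemma val_evIn (ρ : ℕ → ℝ) (u v e f : Ex) : ∀ ts : Terms,
    Ex.val ρ (evIn Ex.c u v e f ts)
      = evIn rc (Ex.val ρ u) (Ex.val ρ v) (Ex.val ρ e) (Ex.val ρ f) ts
  | [] => rfl
  | t :: ts => by
    simp only [evIn, val_add, val_mul, val_pw, val_c, val_evIn ρ u v e f ts]

lemma val_evOut (ρ : ℕ → ℝ) (r q c w u v e f : Ex) : ∀ gs : List ((ℕ × ℕ) × Terms),
    Ex.val ρ (evOut Ex.c r q c w u v e f gs)
      = evOut rc (Ex.val ρ r) (Ex.val ρ q) (Ex.val ρ c) (Ex.val ρ w) (Ex.val ρ u) (Ex.val ρ v)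
          (Ex.val ρ e) (Ex.val ρ f) gs
  | [] => rfl
  | g :: gs => by
    simp only [evOut, val_add, val_mul, val_pw, val_evIn, val_evOut ρ r q c w u v e f gs]

/-- Exponent bounds of a grouped table. -/
def fitsG (gs : List ((ℕ × ℕ) × Terms)) : Bool :=
  gs.all fun g => decide (2 * g.1.1 + 3 * g.1.2 ≤ 28) && decide (g.1.2 ≤ 9) && g.2.all fun t =>
    decide (t.2.length = 2) && decide (t.2.getD 0 0 + 3 * t.2.getD 1 0 ≤ 25)
      && decide (t.2.getD 1 0 ≤ 5)

lemma evIn_eq {u v e f : ℝ} (hv : v ≠ 0) (hf : f ≠ 0) : ∀ ts : Terms,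
    (ts.all fun t => decide (t.2.length = 2) && decide (t.2.getD 0 0 + 3 * t.2.getD 1 0 ≤ 25)
      && decide (t.2.getD 1 0 ≤ 5)) = true →
    evIn rc u v e f ts = v ^ 25 * f ^ 5 * evT rc [u / v, (u / v) ^ 3 * (e / f)] ts
  | [], _ => by simp [evIn, evT]
  | ⟨z, es⟩ :: ts, h => by
    simp only [List.all_cons, Bool.and_eq_true, decide_eq_true_eq] at h
    obtain ⟨⟨⟨hl, h1⟩, h2⟩, hts⟩ := h
    obtain ⟨a, b, rfl⟩ : ∃ a b, es = [a, b] := List.length_eq_two.mp hl
    simp only [List.getD_cons_zero, List.getD_cons_succ] at h1 h2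
    simp only [evIn, evT, mon, pw_eq, List.getD_cons_zero, List.getD_cons_succ,
      evIn_eq hv hf ts hts]
    obtain ⟨p, hp⟩ : ∃ p, 25 = a + 3 * b + p := ⟨25 - (a + 3 * b), by omega⟩
    obtain ⟨q, hq⟩ : ∃ q, 5 = b + q := ⟨5 - b, by omega⟩
    have e1 : 25 - a - 3 * b = p := by omega
    have e2 : 5 - b = q := by omega
    rw [e1, e2]
    generalize evT rc _ ts = R
    rw [mul_add, hp, hq]
    simp only [pow_add, pow_mul, div_pow, mul_pow]
    field_simp
    simp only [Int.cast_one, mul_one]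

lemma evOut_eq {r q c w u v e f : ℝ} (hq : q ≠ 0) (hw : w ≠ 0) (hv : v ≠ 0) (hf : f ≠ 0) :
    ∀ gs, fitsG gs = true →
    evOut rc r q c w u v e f gs
      = q ^ 28 * w ^ 9 * v ^ 25 * f ^ 5
        * evG rc ((r / q) ^ 2) (u / v) (c / (w * q ^ 3)) ((u / v) ^ 3 * (e / f)) gs
  | [], _ => by simp [evOut, evG]
  | ⟨⟨i, j⟩, ts⟩ :: gs, h => by
    simp only [fitsG, List.all_cons, Bool.and_eq_true, decide_eq_true_eq] at h
    obtain ⟨⟨⟨h1, h2⟩, hts⟩, hgs⟩ := h
    have ih := evOut_eq (r := r) (c := c) (u := u) (e := e) hq hw hv hf gs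
      (by simpa [fitsG] using hgs)
    simp only [evOut, evG, pw_eq, ih, evIn_eq hv hf ts (by simpa using hts)]
    obtain ⟨p, hp⟩ : ∃ p, 28 = 2 * i + 3 * j + p := ⟨28 - (2 * i + 3 * j), by omega⟩
    obtain ⟨s, hs⟩ : ∃ s, 9 = j + s := ⟨9 - j, by omega⟩
    have e1 : 28 - 2 * i - 3 * j = p := by omega
    have e2 : 9 - j = s := by omega
    rw [e1, e2]
    generalize evG rc _ _ _ _ gs = R
    generalize evT rc _ ts = T
    rw [mul_add, hp, hs]
    simp only [pow_add, pow_mul, div_pow, mul_pow]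
    field_simp

lemma continuous_evT : ∀ (fs : List (ℝ → ℝ)), (∀ f ∈ fs, Continuous f) → ∀ ts : Terms,
    Continuous fun t => evT rc (fs.map fun f => f t) ts := by
  have hm : ∀ fs : List (ℝ → ℝ), (∀ f ∈ fs, Continuous f) → ∀ es : List ℕ,
      Continuous fun t => mon rc (fs.map fun f => f t) es := by
    intro fs
    induction fs with
    | nil => intro _ es; simpa [mon] using continuous_const
    | cons f fs ih =>
      intro h es
      cases es with
      | nil => simpa [mon] using continuous_const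
      | cons e es =>
        simp only [List.map_cons, mon, pw_eq]
        exact ((h f List.mem_cons_self).pow e).mul
          (ih (fun g hg => h g (List.mem_cons_of_mem _ hg)) es)
  intro fs h ts
  induction ts with
  | nil => simpa [evT] using continuous_const
  | cons t ts ih => simp only [evT]; exact (continuous_const.mul (hm fs h t.2)).add ih

lemma continuous_evG {A m C y : ℝ → ℝ} (hA : Continuous A) (hm : Continuous m)
    (hC : Continuous C) (hy : Continuous y) : ∀ gs,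
    Continuous fun t => evG rc (A t) (m t) (C t) (y t) gs
  | [] => by simpa [evG] using continuous_const
  | g :: gs => by
    simp only [evG, pw_eq]
    exact (((hA.pow g.1.1).mul (hC.pow g.1.2)).mul
      (continuous_evT [m, y] (by simp [hm, hy]) g.2)).add (continuous_evG hA hm hC hy gs)

lemma nonneg_at_one {f : ℝ → ℝ} (hf : Continuous f) (h : ∀ t, 0 ≤ t → t < 1 → 0 ≤ f t) :
    0 ≤ f 1 := by
  refine ge_of_tendsto ((hf.tendsto 1).mono_left (nhdsWithin_le_nhds (s := Set.Iio (1 : ℝ)))) ?_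
  filter_upwards [Ioo_mem_nhdsLT (show (0 : ℝ) < 1 by norm_num)] with t ht
  exact h t ht.1.le ht.2

end Window

end Vale.Agent.P154
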