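import Vale.Agent.P154.Window.Rot
import Mathlib.Analysis.SpecialFunctions.Pow.Real

/-!
Range of the invariants of a normalised likelihood vector.
-/

namespace Vale.Agent.P154

namespace Window

/-- The admissible pairs of invariants. -/
structure Dm (A c : ℝ) : Prop where
  nonneg : 0 ≤ A
  le_one : A ≤ 1
  disc : c ^ 2 ≤ A ^ 3
  sign : 0 ≤ 1 - 3 * A + 2 * c

lemma vand_sq (p q r : ℝ) :
    27 * vand rc p q r ^ 2 = 4 * quad rc p q r ^ 3 - cub rc p q r ^ 2 := by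
  simp only [vand, quad, cub, dif, rc]; push_cast; ring

lemma dm_of {p q r : ℝ} (hp : 0 ≤ p) (hq : 0 ≤ q) (hr : 0 ≤ r) (h : tot p q r = 1) :
    Dm (quad rc p q r) (cub rc p q r / 2) := by
  refine ⟨quad_nonneg, ?_, ?_, ?_⟩
  · have := quad_le hp hq hr; rw [h] at this; linarith
  · have := vand_sq p q r
    have := sq_nonneg (vand rc p q r)
    rw [div_pow]; linarith
  · have e := phi_eq (p := p) (q := q) (r := r)
    have : 0 ≤ 27 * (p * q * r) := by positivity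
    simp only [phi, dif, rc, h] at e
    push_cast at e
    linarith

lemma Dm.abs_le {A c : ℝ} (h : Dm A c) : |c| ≤ Real.sqrt A ^ 3 := by
  have e : (Real.sqrt A ^ 3) ^ 2 = A ^ 3 := by
    rw [← pow_mul, show 3 * 2 = 2 * 3 from rfl, pow_mul, Real.sq_sqrt h.nonneg]
  have := h.disc
  rw [← e, sq_le_sq] at this
  rwa [abs_of_nonneg (show 0 ≤ Real.sqrt A ^ 3 from pow_nonneg (Real.sqrt_nonneg A) 3)] at this

lemma sigma_exists {z R : ℝ} (hz : |z| ≤ R) :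
    ∃ σ : ℝ, 0 ≤ σ ∧ σ ≤ 1 ∧ z = R * (2 * σ - 1) := by
  obtain ⟨h1, h2⟩ := abs_le.mp hz
  rcases eq_or_lt_of_le (le_trans (abs_nonneg z) hz) with h | h
  · exact ⟨0, le_rfl, zero_le_one, by rw [← h] at h1 h2 ⊢; linarith⟩
  · exact ⟨(z + R) / (2 * R), div_nonneg (by linarith) (by linarith),
      (div_le_one (by linarith)).mpr (by linarith), by field_simp; ring⟩

/-- The two charts covering the admissible pairs. -/
lemma Dm.chart {A c : ℝ} (h : Dm A c) :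
    (∃ τ β : ℝ, 0 ≤ τ ∧ τ ≤ 1 ∧ 0 ≤ β ∧ β ≤ 1 ∧ A = (τ / 2) ^ 2
        ∧ c = (τ / 2) ^ 3 * (2 * β - 1)) ∨
    (∃ τ β : ℝ, 0 ≤ τ ∧ τ ≤ 1 ∧ 0 ≤ β ∧ β ≤ 1 ∧ A = ((1 + τ) / 2) ^ 2
        ∧ c = (1 - β) * ((3 * ((1 + τ) / 2) ^ 2 - 1) / 2) + β * ((1 + τ) / 2) ^ 3) := by
  set ρ := Real.sqrt A with hρ
  have hA : A = ρ ^ 2 := (Real.sq_sqrt h.nonneg).symm
  have h0 : 0 ≤ ρ := Real.sqrt_nonneg A
  have h1 : ρ ≤ 1 := by rw [hρ, Real.sqrt_le_one]; exact h.le_one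
  rcases le_total ρ (1 / 2) with hh | hh
  · left
    obtain ⟨σ, s0, s1, e⟩ := sigma_exists h.abs_le
    exact ⟨2 * ρ, σ, by linarith, by linarith, s0, s1, by rw [hA]; ring, by rw [e]; ring⟩
  · right
    refine ⟨2 * ρ - 1, ?_⟩
    have e1 : (1 + (2 * ρ - 1)) / 2 = ρ := by ring
    rw [e1]
    have hlo : (3 * ρ ^ 2 - 1) / 2 ≤ c := by have := h.sign; rw [hA] at this; linarith
    have hhi : c ≤ ρ ^ 3 := le_trans (le_abs_self c) h.abs_le
    rcases eq_or_lt_of_le (le_trans hlo hhi) with he | he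
    · exact ⟨0, by linarith, by linarith, le_rfl, zero_le_one, hA, by linarith⟩
    · refine ⟨(c - (3 * ρ ^ 2 - 1) / 2) / (ρ ^ 3 - (3 * ρ ^ 2 - 1) / 2), by linarith, by linarith,
        div_nonneg (by linarith) (by linarith), (div_le_one (by linarith)).mpr (by linarith), hA, ?_⟩
      set L := (3 * ρ ^ 2 - 1) / 2
      have hne : ρ ^ 3 - L ≠ 0 := by linarith
      field_simp
      ring

end Window

end Vale.Agent.P154
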