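import Vale.Agent.P154.Window.CertL2Check
import Vale.Agent.P154.Window.Eval
import Vale.Agent.P154.Window.Invariants

/-!
The convexity tables are nonnegative on the admissible region.
-/

namespace Vale.Agent.P154

namespace Window

/-- Exponent bounds of a table in `A`, `cA`, `m`. -/
def fitsE (P S Q : ℕ) (ts : Terms) : Bool :=
  ts.all fun t => decide (t.2.length = 3) && decide (2 * t.2.getD 0 0 + 3 * t.2.getD 1 0 ≤ P)
    && decide (t.2.getD 1 0 ≤ S) && decide (t.2.getD 2 0 ≤ Q)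

lemma evSub_eq {P S Q : ℕ} {r q c w u v : ℝ} (hq : q ≠ 0) (hw : w ≠ 0) (hv : v ≠ 0) :
    ∀ ts : Terms, fitsE P S Q ts = true →
    evSub rc P S Q r q c w u v ts
      = q ^ P * w ^ S * v ^ Q * evT rc [(r / q) ^ 2, c / (w * q ^ 3), u / v] ts
  | [], _ => by simp [evSub, evT]
  | ⟨z, es⟩ :: ts, h => by
    simp only [fitsE, List.all_cons, Bool.and_eq_true, decide_eq_true_eq] at h
    obtain ⟨⟨⟨⟨hl, h1⟩, h2⟩, h3⟩, hts⟩ := h
    obtain ⟨i, j, l, rfl⟩ : ∃ i j l, es = [i, j, l] := List.length_eq_three.mp hl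
    simp only [List.getD_cons_zero, List.getD_cons_succ] at h1 h2 h3
    have ih := evSub_eq (r := r) (c := c) (u := u) hq hw hv ts (by simpa [fitsE] using hts)
    simp only [evSub, evT, mon, pw_eq, List.getD_cons_zero, List.getD_cons_succ, ih]
    obtain ⟨p, rfl⟩ : ∃ p, P = 2 * i + 3 * j + p := ⟨P - (2 * i + 3 * j), by omega⟩
    obtain ⟨s, rfl⟩ : ∃ s, S = j + s := ⟨S - j, by omega⟩
    obtain ⟨o, rfl⟩ : ∃ o, Q = l + o := ⟨Q - l, by omega⟩
    have e1 : 2 * i + 3 * j + p - 2 * i - 3 * j = p := by omega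
    rw [e1, Nat.add_sub_cancel_left, Nat.add_sub_cancel_left]
    generalize evT rc _ ts = R
    simp only [pow_add, pow_mul, div_pow, mul_pow]
    field_simp
    simp only [Int.cast_one, mul_one]

lemma val_subLow (ρ : ℕ → ℝ) (P S Q : ℕ) (a m b : Ex) : ∀ ts : Terms,
    Ex.val ρ (subLow Ex.c P S Q a m b ts)
      = subLow rc P S Q (Ex.val ρ a) (Ex.val ρ m) (Ex.val ρ b) ts := by
  intro ts
  simp only [subLow]
  induction ts with
  | nil => rfl
  | cons t ts ih => simp only [evSub, val_add, val_mul, val_pw, val_c, ih]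

lemma val_subHigh (ρ : ℕ → ℝ) (P S Q : ℕ) (a m b : Ex) : ∀ ts : Terms,
    Ex.val ρ (subHigh Ex.c P S Q a m b ts)
      = subHigh rc P S Q (Ex.val ρ a) (Ex.val ρ m) (Ex.val ρ b) ts := by
  intro ts
  simp only [subHigh, topC]
  induction ts with
  | nil => rfl
  | cons t ts ih => simp only [evSub, val_add, val_mul, val_pw, val_c, val_dif, ih]

/-- The certified properties of a convexity table. -/
structure ECert (P S Q : ℕ) (ts : Terms) : Prop where
  fits : fitsE P S Q ts = true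
  low : ∀ a m b : ℝ, 0 ≤ a → 0 ≤ m → 0 ≤ b → 0 ≤ subLow rc P S Q a m b ts
  high : ∀ a m b : ℝ, 0 ≤ a → 0 ≤ m → 0 ≤ b → 0 ≤ subHigh rc P S Q a m b ts

lemma low_of {bits D0 D1 D2 P S Q : ℕ} {ts : Terms}
    (h : Ex.goodR (fun z => decide (0 ≤ z)) bits D0 D1 D2 1
      (subLow Ex.c P S Q (Ex.x 0) (Ex.x 1) (Ex.x 2) ts) = true)
    (a m b : ℝ) (ha : 0 ≤ a) (hm : 0 ≤ m) (hb : 0 ≤ b) : 0 ≤ subLow rc P S Q a m b ts := by
  have := Ex.nonneg_of_goodR h (four a m b 0) (four_nonneg ha hm hb le_rfl) (four_zero a m b 0)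
  rwa [val_subLow] at this

lemma high_of {bits D0 D1 D2 P S Q : ℕ} {ts : Terms}
    (h : Ex.goodR (fun z => decide (0 ≤ z)) bits D0 D1 D2 1
      (subHigh Ex.c P S Q (Ex.x 0) (Ex.x 1) (Ex.x 2) ts) = true)
    (a m b : ℝ) (ha : 0 ≤ a) (hm : 0 ≤ m) (hb : 0 ≤ b) : 0 ≤ subHigh rc P S Q a m b ts := by
  have := Ex.nonneg_of_goodR h (four a m b 0) (four_nonneg ha hm hb le_rfl) (four_zero a m b 0)
  rwa [val_subHigh] at this

lemma high_of_split {bits D0 D1 D2 bits' D0' D1' D2' P S Q : ℕ} {ts : Terms}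
    (h : Ex.goodR (fun z => decide (0 ≤ z)) bits D0 D1 D2 1
      (subHigh Ex.c P S Q (Ex.x 0 + Ex.x 1) (Ex.x 1) (Ex.x 2) ts) = true)
    (h' : Ex.goodR (fun z => decide (0 ≤ z)) bits' D0' D1' D2' 1
      (subHigh Ex.c P S Q (Ex.x 0) (Ex.x 0 + Ex.x 1) (Ex.x 2) ts) = true)
    (a m b : ℝ) (ha : 0 ≤ a) (hm : 0 ≤ m) (hb : 0 ≤ b) : 0 ≤ subHigh rc P S Q a m b ts := by
  rcases le_total m a with hle | hle
  · have := Ex.nonneg_of_goodR h (four (a - m) m b 0) (four_nonneg (by linarith) hm hb le_rfl)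
      (four_zero (a - m) m b 0)
    rw [val_subHigh] at this
    simpa [val_add, val_x, four] using this
  · have := Ex.nonneg_of_goodR h' (four a (m - a) b 0) (four_nonneg ha (by linarith) hb le_rfl)
      (four_zero a (m - a) b 0)
    rw [val_subHigh] at this
    simpa [val_add, val_x, four] using this

theorem ecert_zero : ECert 16 5 15 tabEZero :=
  ⟨by decide +kernel, low_of cert_l2LowZero, high_of cert_l2HighZero⟩

theorem ecert_quarter : ECert 19 5 18 tabEQuarter :=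
  ⟨by decide +kernel, low_of cert_l2LowQuarter, high_of cert_l2HighQuarter⟩

theorem ecert_mid : ECert 19 5 18 tabEMid :=
  ⟨by decide +kernel, low_of cert_l2LowMid, high_of_split cert_l2HighMidFst cert_l2HighMidSnd⟩

theorem ecert_top : ECert 19 5 18 tabETop :=
  ⟨by decide +kernel, low_of cert_l2LowTop, high_of_split cert_l2HighTopFst cert_l2HighTopSnd⟩

variable {P S Q : ℕ} {ts : Terms}

lemma e_low_open (h : ECert P S Q ts) {τ η β : ℝ} (t0 : 0 ≤ τ) (t1 : τ < 1) (e0 : 0 ≤ η)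
    (e1 : η < 1) (b0 : 0 ≤ β) (b1 : β < 1) :
    0 ≤ evT rc [(τ / 2) ^ 2, (τ / 2) ^ 3 * (2 * β - 1), η / 2] ts := by
  have ht : 0 < 1 - τ := by linarith
  have he : 0 < 1 - η := by linarith
  have hb : 0 < 1 - β := by linarith
  have hh := h.low (τ / (1 - τ)) (η / (1 - η)) (β / (1 - β)) (by positivity) (by positivity)
    (by positivity)
  simp only [subLow, rc] at hh
  push_cast at hh
  rw [evSub_eq (by positivity) (by positivity) (by positivity) ts h.fits] at hh
  have key := nonneg_of_mul_nonneg_right hh (by positivity)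
  have q1 : τ / (1 - τ) / (2 * (1 + τ / (1 - τ))) = τ / 2 := by field_simp; ring
  have q2 : η / (1 - η) / (2 * (1 + η / (1 - η))) = η / 2 := by field_simp; ring
  have q3 : τ / (1 - τ) * (τ / (1 - τ)) * (τ / (1 - τ)) * (β / (1 - β) + -1)
      / ((1 + β / (1 - β)) * (2 * (1 + τ / (1 - τ))) ^ 3) = (τ / 2) ^ 3 * (2 * β - 1) := by
    field_simp; ring
  rwa [q1, q2, q3] at key

lemma e_high_open (h : ECert P S Q ts) {τ η β : ℝ} (t0 : 0 ≤ τ) (t1 : τ < 1) (e0 : 0 ≤ η)
    (e1 : η < 1) (b0 : 0 ≤ β) (b1 : β < 1) :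
    0 ≤ evT rc [((1 + τ) / 2) ^ 2,
      (1 - β) * ((3 * ((1 + τ) / 2) ^ 2 - 1) / 2) + β * ((1 + τ) / 2) ^ 3, η / 2] ts := by
  have ht : 0 < 1 - τ := by linarith
  have he : 0 < 1 - η := by linarith
  have hb : 0 < 1 - β := by linarith
  have hh := h.high (τ / (1 - τ)) (η / (1 - η)) (β / (1 - β)) (by positivity) (by positivity)
    (by positivity)
  simp only [subHigh, topC, dif, rc] at hh
  push_cast at hh
  rw [evSub_eq (by positivity) (by positivity) (by positivity) ts h.fits] at hh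
  have key := nonneg_of_mul_nonneg_right hh (by positivity)
  have q1 : (1 + 2 * (τ / (1 - τ))) / (2 * (1 + τ / (1 - τ))) = (1 + τ) / 2 := by field_simp; ring
  have q2 : η / (1 - η) / (2 * (1 + η / (1 - η))) = η / 2 := by field_simp; ring
  have q3 : (2 * (1 + τ / (1 - τ))
            * (3 * ((1 + 2 * (τ / (1 - τ))) * (1 + 2 * (τ / (1 - τ))))
              + -1 * (2 * (1 + τ / (1 - τ)) * (2 * (1 + τ / (1 - τ)))))
          + 2 * (β / (1 - β))
            * ((1 + 2 * (τ / (1 - τ))) * (1 + 2 * (τ / (1 - τ))) * (1 + 2 * (τ / (1 - τ)))))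
        / (2 * (1 + β / (1 - β)) * (2 * (1 + τ / (1 - τ))) ^ 3)
      = (1 - β) * ((3 * ((1 + τ) / 2) ^ 2 - 1) / 2) + β * ((1 + τ) / 2) ^ 3 := by
    field_simp; ring
  rwa [q1, q2, q3] at key

/-- A convexity table is nonnegative on the whole region. -/
theorem tabE_nonneg (h : ECert P S Q ts) {A c m : ℝ} (hd : Dm A c) (hm : 0 ≤ m)
    (hm1 : m ≤ 1 / 2) : 0 ≤ evT rc [A, c, m] ts := by
  have em : m = 2 * m / 2 := by ring
  rw [em]
  have e0 : (0 : ℝ) ≤ 2 * m := by linarith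
  have e1 : 2 * m ≤ 1 := by linarith
  generalize 2 * m = η at e0 e1 ⊢
  rcases hd.chart with ⟨τ, β, t0, t1, b0, b1, eA, ec⟩ | ⟨τ, β, t0, t1, b0, b1, eA, ec⟩
  · rw [eA, ec]
    have := nonneg_at_one (f := fun t => evT rc
      [(t * τ / 2) ^ 2, (t * τ / 2) ^ 3 * (2 * (t * β) - 1), t * η / 2] ts)
      (continuous_evT [fun t => (t * τ / 2) ^ 2,
        fun t => (t * τ / 2) ^ 3 * (2 * (t * β) - 1), fun t => t * η / 2]
        (by simp only [List.mem_cons, List.not_mem_nil, or_false, forall_eq_or_imp, forall_eq]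
            exact ⟨by fun_prop, by fun_prop, by fun_prop⟩) ts)
      (fun t ht ht1 => e_low_open h (mul_nonneg ht t0) (by nlinarith) (mul_nonneg ht e0)
        (by nlinarith) (mul_nonneg ht b0) (by nlinarith))
    simpa using this
  · rw [eA, ec]
    have := nonneg_at_one (f := fun t => evT rc [((1 + t * τ) / 2) ^ 2,
      (1 - t * β) * ((3 * ((1 + t * τ) / 2) ^ 2 - 1) / 2) + t * β * ((1 + t * τ) / 2) ^ 3,
      t * η / 2] ts)
      (continuous_evT [fun t => ((1 + t * τ) / 2) ^ 2,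
        fun t => (1 - t * β) * ((3 * ((1 + t * τ) / 2) ^ 2 - 1) / 2)
          + t * β * ((1 + t * τ) / 2) ^ 3, fun t => t * η / 2]
        (by simp only [List.mem_cons, List.not_mem_nil, or_false, forall_eq_or_imp, forall_eq]
            exact ⟨by fun_prop, by fun_prop, by fun_prop⟩) ts)
      (fun t ht ht1 => e_high_open h (mul_nonneg ht t0) (by nlinarith) (mul_nonneg ht e0)
        (by nlinarith) (mul_nonneg ht b0) (by nlinarith))
    simpa using this

end Window

end Vale.Agent.P154
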