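import Vale.Agent.P154.AntiTree

/-!
The potential of the small-degree window and the reflection symmetry of a channel.
-/

namespace Vale.Agent.P154

namespace Window

/-- Fourth power of the length of the posterior coordinate, weighted by the mass. -/
noncomputable def mQ (p q r : ℝ) : ℝ := quad rc p q r ^ 2 / tot p q r ^ 3

/-- The potential. -/
noncomputable def mPhi (κ p q r : ℝ) : ℝ := mA p q r + κ * mQ p q r

/-- A channel with a reflection symmetry. -/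
def Sw {ι : Type} (L : Lik ι) : Prop :=
  ∃ e : ι ≃ ι, ∀ x, L (e x) 0 = L x 0 ∧ L (e x) 1 = L x 2 ∧ L (e x) 2 = L x 1

lemma mQ_nonneg {p q r : ℝ} (hp : 0 ≤ p) (hq : 0 ≤ q) (hr : 0 ≤ r) : 0 ≤ mQ p q r := by
  have := tot_nonneg hp hq hr
  rw [mQ]; positivity

lemma mQ_le_mA {p q r : ℝ} (hp : 0 ≤ p) (hq : 0 ≤ q) (hr : 0 ≤ r) : mQ p q r ≤ mA p q r := by
  rcases eq_or_lt_of_le (tot_nonneg hp hq hr) with h | h
  · rw [mQ, mA, ← h]; norm_num
  · rw [mQ, mA, div_le_div_iff₀ (pow_pos h 3) h]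
    have h1 := mul_le_mul_of_nonneg_left (quad_le hp hq hr)
      (mul_nonneg (quad_nonneg (p := p) (q := q) (r := r)) h.le)
    nlinarith [h1]

lemma dom_mQ : Dom mQ 1 := fun p q r hp hq hr => by
  rw [abs_of_nonneg (mQ_nonneg hp hq hr), one_mul]
  exact le_trans (mQ_le_mA hp hq hr) (mA_le hp hq hr)

lemma dom_mPhi (κ : ℝ) : Dom (mPhi κ) (1 + |κ|) := fun p q r hp hq hr => by
  have h1 := dom_mA p q r hp hq hr
  have h2 := dom_mQ p q r hp hq hr
  rw [one_mul] at h1 h2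
  have h3 := mul_le_mul_of_nonneg_left h2 (abs_nonneg κ)
  rw [← abs_mul] at h3
  calc |mPhi κ p q r| ≤ |mA p q r| + |κ * mQ p q r| := abs_add_le _ _
    _ ≤ (1 + |κ|) * mS p q r := by linarith

lemma mQ_scale (c a b e : ℝ) : mQ (c * a) (c * b) (c * e) = c * mQ a b e := by
  rw [mQ, mQ, tot_hom, quad_hom]
  by_cases hc : c = 0
  · simp [hc]
  · field_simp

lemma mPhi_scale (κ c a b e : ℝ) : mPhi κ (c * a) (c * b) (c * e) = c * mPhi κ a b e := by
  rw [mPhi, mPhi, mA_scale, mQ_scale]; ring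

variable {ι η : Type} {L : Lik ι} {M : Lik η}

lemma mo_mPhi (h : Ok L) (κ : ℝ) : mo (mPhi κ) L = mo mA L + κ * mo mQ L := by
  have := ((h.summable_mom dom_mA).hasSum.add ((h.summable_mom dom_mQ).hasSum.mul_left κ))
  rw [mo, mo, mo, show (∑' x, row (mPhi κ) (L x)) = _ from this.tsum_eq]; ring

lemma pair_sw (hL : Sw L) (hM : Sw M) : Sw (pair L M) := by
  obtain ⟨e, he⟩ := hL
  obtain ⟨f, hf⟩ := hM
  refine ⟨Equiv.prodCongr e f, fun z => ?_⟩
  simp [pair, (he z.1).1, (he z.1).2.1, (he z.1).2.2, (hf z.2).1, (hf z.2).2.1, (hf z.2).2.2]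

lemma reindex_sw (e : η ≃ ι) (h : Sw L) : Sw (reindex e L) := by
  obtain ⟨r, hr⟩ := h
  exact ⟨(e.trans r).trans e.symm, fun y => by simp [reindex, (hr (e y)).1, (hr (e y)).2.1,
    (hr (e y)).2.2]⟩

lemma shift_sw (l : ℝ) (h : Sw L) : Sw (shift l L) := by
  obtain ⟨r, hr⟩ := h
  refine ⟨r, fun x => ?_⟩
  obtain ⟨a, b, c⟩ := hr x
  simp only [shift_eq, a, b, c]
  refine ⟨?_, ?_, ?_⟩ <;> ring

lemma power_sw (h : Sw L) : ∀ N, Sw (power L N)
  | 0 => ⟨Equiv.refl _, fun x => by simp [power]⟩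
  | N + 1 => by rw [power_succ]; exact reindex_sw _ (pair_sw h (power_sw h N))

lemma mix_sw (p : ℕ → ℝ) (h : Sw L) : Sw (mix p L) := by
  choose e he using fun N => power_sw h N
  refine ⟨Equiv.sigmaCongrRight e, fun ⟨N, x⟩ => ?_⟩
  obtain ⟨a, b, c⟩ := he N x
  exact ⟨congrArg (p N * ·) a, congrArg (p N * ·) b, congrArg (p N * ·) c⟩

lemma tab_sw (p : ℕ → ℝ) (l : ℝ) : ∀ n, Sw (tab p l n)
  | 0 => by
    refine ⟨(show Fin 3 ≃ Fin 3 from Equiv.swap 1 2), fun s => ?_⟩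
    change Fin 3 at s
    fin_cases s <;> refine ⟨?_, ?_, ?_⟩ <;> (simp [tab, lik]; try decide)
  | n + 1 => by rw [tab_succ]; exact reindex_sw _ (mix_sw p (shift_sw l (tab_sw p l n)))

end Window

end Vale.Agent.P154
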