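import Vale.Agent.P154.Window.Rot
import Vale.Agent.P154.Window.Potential

/-!
The three-rotation sum of the potential as a rational function of the invariants.
-/

namespace Vale.Agent.P154

namespace Window

/-- The rotation sum of the potential at given invariants. -/
noncomputable def valT (κ A B C K V : ℝ) : ℝ :=
  evT rc [A, B, C, K, V] formA / (2 * den2 rc A B V)
    + κ * evT rc [A, B, C, K, V] formQ / (4 * den2 rc A B V ^ 3)

/-- The rotation sum of the potential of two vectors given by their coordinates. -/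
noncomputable def rot6 (κ x1 x2 x3 y1 y2 y3 : ℝ) : ℝ :=
  mPhi κ (x1 * y1) (x2 * y2) (x3 * y3) + mPhi κ (x1 * y2) (x2 * y3) (x3 * y1)
    + mPhi κ (x1 * y3) (x2 * y1) (x3 * y2)

lemma rots_eq_rot6 (κ : ℝ) (v w : Fin 3 → ℝ) :
    rots (mPhi κ) v w = rot6 κ (v 0) (v 1) (v 2) (w 0) (w 1) (w 2) := rfl

lemma rot6_scale (κ c e x1 x2 x3 y1 y2 y3 : ℝ) :
    rot6 κ (c * x1) (c * x2) (c * x3) (e * y1) (e * y2) (e * y3)
      = c * e * rot6 κ x1 x2 x3 y1 y2 y3 := by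
  have h : ∀ a b : ℝ, c * a * (e * b) = c * e * (a * b) := fun a b => by ring
  simp only [rot6, h, mPhi_scale]; ring

lemma ids_zero (x1 x2 y1 y2 : ℝ) :
    idD rc x1 x2 (rc 1 + rc (-1) * (x1 + x2)) y1 y2 (rc 1 + rc (-1) * (y1 + y2)) = 0 ∧
    idA rc x1 x2 (rc 1 + rc (-1) * (x1 + x2)) y1 y2 (rc 1 + rc (-1) * (y1 + y2)) = 0 ∧
    idQ rc x1 x2 (rc 1 + rc (-1) * (x1 + x2)) y1 y2 (rc 1 + rc (-1) * (y1 + y2)) = 0 := by
  have hD := Ex.zero_of_goodR cert_idD (four x1 x2 y1 y2) (four_zero x1 x2 y1 y2)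
  have hA := Ex.zero_of_goodR cert_idA (four x1 x2 y1 y2) (four_zero x1 x2 y1 y2)
  have hQ := Ex.zero_of_goodR cert_idQ (four x1 x2 y1 y2) (four_zero x1 x2 y1 y2)
  refine ⟨hD, ?_, ?_⟩
  · simp only [idA] at hA ⊢
    generalize hF : formA = F at hA ⊢
    rw [← hA]
    exact congrArg (dif rc _) (val_evT (four x1 x2 y1 y2)
      (invs Ex.c (Ex.x 0) (Ex.x 1) (e3 0 1) (Ex.x 2) (Ex.x 3) (e3 2 3)) F).symm
  · simp only [idQ] at hQ ⊢
    generalize hF : formQ = F at hQ ⊢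
    rw [← hQ]
    exact congrArg (dif rc _) (val_evT (four x1 x2 y1 y2)
      (invs Ex.c (Ex.x 0) (Ex.x 1) (e3 0 1) (Ex.x 2) (Ex.x 3) (e3 2 3)) F).symm

lemma ids_norm {x1 x2 x3 y1 y2 y3 : ℝ} (hx : tot x1 x2 x3 = 1) (hy : tot y1 y2 y3 = 1) :
    idD rc x1 x2 x3 y1 y2 y3 = 0 ∧ idA rc x1 x2 x3 y1 y2 y3 = 0
      ∧ idQ rc x1 x2 x3 y1 y2 y3 = 0 := by
  have e1 : x3 = rc 1 + rc (-1) * (x1 + x2) := by simp [tot] at hx ⊢; linarith
  have e2 : y3 = rc 1 + rc (-1) * (y1 + y2) := by simp [tot] at hy ⊢; linarith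
  rw [e1, e2]; exact ids_zero x1 x2 y1 y2

/-- The three masses and the common denominator. -/
lemma den2_eq {x1 x2 x3 y1 y2 y3 : ℝ} (hx : tot x1 x2 x3 = 1) (hy : tot y1 y2 y3 = 1) :
    den2 rc (quad rc x1 x2 x3) (quad rc y1 y2 y3) (mixI rc x1 x2 x3 y1 y2 y3)
      = 54 * (tot (x1 * y1) (x2 * y2) (x3 * y3) * tot (x1 * y2) (x2 * y3) (x3 * y1)
          * tot (x1 * y3) (x2 * y1) (x3 * y2)) := by
  have := (ids_norm hx hy).1
  simp only [idD, dif, rc] at this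
  push_cast at this
  simp only [den2, dif, rc] at this ⊢
  push_cast at this ⊢
  linarith

theorem rot6_eq (κ : ℝ) {x1 x2 x3 y1 y2 y3 : ℝ} (hx : tot x1 x2 x3 = 1) (hy : tot y1 y2 y3 = 1)
    (h0 : 0 < tot (x1 * y1) (x2 * y2) (x3 * y3)) (h1 : 0 < tot (x1 * y2) (x2 * y3) (x3 * y1))
    (h2 : 0 < tot (x1 * y3) (x2 * y1) (x3 * y2)) :
    rot6 κ x1 x2 x3 y1 y2 y3 = valT κ (quad rc x1 x2 x3) (quad rc y1 y2 y3) (cub rc x1 x2 x3)
      (cub rc y1 y2 y3) (mixI rc x1 x2 x3 y1 y2 y3) := by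
  obtain ⟨-, hA, hQ⟩ := ids_norm hx hy
  have hD := den2_eq hx hy
  simp only [idA, idQ, invs, pw] at hA hQ
  simp only [valT, hD, rot6, mPhi, mA, mQ]
  generalize evT rc _ formA = FA at hA ⊢
  generalize evT rc _ formQ = FQ at hQ ⊢
  simp only [dif, rc] at hA hQ
  push_cast at hA hQ
  generalize tot (x1 * y1) (x2 * y2) (x3 * y3) = t0 at *
  generalize tot (x1 * y2) (x2 * y3) (x3 * y1) = t1 at *
  generalize tot (x1 * y3) (x2 * y1) (x3 * y2) = t2 at *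
  generalize quad rc (x1 * y1) (x2 * y2) (x3 * y3) = q0 at *
  generalize quad rc (x1 * y2) (x2 * y3) (x3 * y1) = q1 at *
  generalize quad rc (x1 * y3) (x2 * y1) (x3 * y2) = q2 at *
  have eA : FA = 108 * (q0 * (t1 * t2) + q1 * (t0 * t2) + q2 * (t0 * t1)) := by linarith
  have eQ : FQ = 629856 * (q0 * q0 * (1 * (t1 * t2) * (t1 * t2) * (t1 * t2))
      + q1 * q1 * (1 * (t0 * t2) * (t0 * t2) * (t0 * t2))
      + q2 * q2 * (1 * (t0 * t1) * (t0 * t1) * (t0 * t1))) := by linarith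
  rw [eA, eQ]
  field_simp
  ring

end Window

end Vale.Agent.P154
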