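import Vale.Agent.P154.Window.ExtremalPoly
import Vale.Agent.P154.Window.Rots

/-!
Among second vectors of a given length, averaged over the reflection, the potential is largest at
the reference child.
-/

namespace Vale.Agent.P154

namespace Window

open Filter Topology

lemma val_l1Id (ρ : ℕ → ℝ) (num den A m cA cy : Ex) (gs : List ((ℕ × ℕ) × Terms)) :
    Ex.val ρ (l1Id Ex.c num den gs A m cA cy)
      = l1Id rc (Ex.val ρ num) (Ex.val ρ den) gs (Ex.val ρ A) (Ex.val ρ m) (Ex.val ρ cA)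
          (Ex.val ρ cy) := by
  simp only [l1Id, l1P, linV, numT, den2, pmul, val_add, val_mul, val_c, val_dif, val_pw, val_evT,
    val_evG, List.map]

/-- Every table entry is at most linear in the mixed invariant. -/
def linLast (ts : Terms) : Bool :=
  ts.all fun t => decide (t.2.length = 5) && decide (t.2.getD 4 0 ≤ 1)

lemma evT_lin (A B C K V : ℝ) : ∀ ts : Terms, linLast ts = true →
    evT rc [A, B, C, K, V] ts
      = evT rc [A, B, C, K, 0] ts + V * (evT rc [A, B, C, K, 1] ts - evT rc [A, B, C, K, 0] ts)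
  | [], _ => by simp [evT]
  | ⟨z, es⟩ :: ts, h => by
    simp only [linLast, List.all_cons, Bool.and_eq_true, decide_eq_true_eq] at h
    obtain ⟨⟨hl, h1⟩, hts⟩ := h
    obtain ⟨a, b, c, d, e, rfl⟩ : ∃ a b c d e, es = [a, b, c, d, e] := by
      match es, hl with
      | [a, b, c, d, e], _ => exact ⟨a, b, c, d, e, rfl⟩
    simp only [List.getD_cons_succ, List.getD_cons_zero] at h1
    have ih := evT_lin A B C K V ts (by simpa [linLast] using hts)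
    simp only [evT, mon, pw_eq, ih]
    rcases Nat.le_one_iff_eq_zero_or_eq_one.mp h1 with rfl | rfl <;> simp <;> ring

lemma linLast_formA : linLast formA = true := by decide +kernel

lemma linLast_formQ : linLast formQ = true := by decide +kernel

lemma l1P_eq (num den A m cA cy h : ℝ)
    (hw : dif rc (A * A * A) (cA * cA) * dif rc (m * m * (m * m) * (m * m)) (cy * cy) = h * h) :
    l1P rc num den A m cA cy
      = 2 * numT rc num den A (m * m) (2 * cA) (-2 * (m * m * m)) (-4 * (cA * (m * m * m)))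
          * (den2 rc A (m * m) (4 * (cA * cy) + 4 * h)
              * den2 rc A (m * m) (4 * (cA * cy) - 4 * h)) ^ 3
        - den2 rc A (m * m) (-4 * (cA * (m * m * m))) ^ 3
          * (numT rc num den A (m * m) (2 * cA) (2 * cy) (4 * (cA * cy) + 4 * h)
                * den2 rc A (m * m) (4 * (cA * cy) - 4 * h) ^ 3
            + numT rc num den A (m * m) (2 * cA) (2 * cy) (4 * (cA * cy) - 4 * h)
                * den2 rc A (m * m) (4 * (cA * cy) + 4 * h) ^ 3) := by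
  simp only [l1P, linV]
  rw [hw]
  simp only [numT, den2, pmul, pw_eq, dif, rc]
  push_cast
  rw [evT_lin A (m * m) (2 * cA) (2 * cy) (4 * (cA * cy) + 4 * h) _ linLast_formA,
    evT_lin A (m * m) (2 * cA) (2 * cy) (4 * (cA * cy) - 4 * h) _ linLast_formA,
    evT_lin A (m * m) (2 * cA) (2 * cy) (4 * (cA * cy) + 4 * h) _ linLast_formQ,
    evT_lin A (m * m) (2 * cA) (2 * cy) (4 * (cA * cy) - 4 * h) _ linLast_formQ]
  try simp only [rc]
  generalize evT (fun z : ℤ => (z : ℝ)) [A, m * m, 2 * cA, 2 * cy, 0] formA = a0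
  generalize evT (fun z : ℤ => (z : ℝ)) [A, m * m, 2 * cA, 2 * cy, 1] formA = a1
  generalize evT (fun z : ℤ => (z : ℝ)) [A, m * m, 2 * cA, 2 * cy, 0] formQ = q0
  generalize evT (fun z : ℤ => (z : ℝ)) [A, m * m, 2 * cA, 2 * cy, 1] formQ = q1
  ring

lemma numT_valT {num den A B C K V : ℝ} (hden : den ≠ 0) (hD : den2 rc A B V ≠ 0) :
    numT rc num den A B C K V = 4 * den * den2 rc A B V ^ 3 * valT (num / den) A B C K V := by
  simp only [numT, valT]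
  generalize evT rc _ formA = a
  generalize evT rc _ formQ = q
  field_simp
  push_cast
  ring

/-- The inequality at the level of invariants. -/
def Ext (κ : ℝ) : Prop :=
  ∀ x1 x2 x3 y1 y2 y3 : ℝ, 0 < x1 → 0 < x2 → 0 < x3 → tot x1 x2 x3 = 1 → 0 ≤ y1 → 0 ≤ y2 →
    0 ≤ y3 → tot y1 y2 y3 = 1 → ∀ m : ℝ, 0 ≤ m → m ≤ 1 / 2 → quad rc y1 y2 y3 = m * m →
    rot6 κ x1 x2 x3 y1 y2 y3 + rot6 κ x1 x2 x3 y1 y3 y2
      ≤ 2 * rot6 κ x1 x2 x3 ((1 - 2 * m) / 3) ((1 + m) / 3) ((1 + m) / 3)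

lemma tot_mul_pos {x1 x2 x3 y1 y2 y3 : ℝ} (a : 0 < x1) (b : 0 < x2) (c : 0 < x3) (d : 0 ≤ y1)
    (e : 0 ≤ y2) (f : 0 ≤ y3) (h : 0 < tot y1 y2 y3) :
    0 < tot (x1 * y1) (x2 * y2) (x3 * y3) := by
  simp only [tot] at *
  have := mul_nonneg a.le d
  have := mul_nonneg b.le e
  have := mul_nonneg c.le f
  rcases eq_or_lt_of_le d with h1 | h1
  · rcases eq_or_lt_of_le e with h2 | h2
    · have : 0 < x3 * y3 := mul_pos c (by linarith)
      linarith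
    · have := mul_pos b h2
      linarith
  · have := mul_pos a h1
    linarith

theorem ext_of {num den : ℕ} (hden : 0 < den) {gs : List ((ℕ × ℕ) × Terms)} (hq : QCert gs)
    (hid : ∀ A m cA cy : ℝ, l1Id rc ((num : ℤ) : ℝ) ((den : ℤ) : ℝ) gs A m cA cy = 0) :
    Ext (num / den) := by
  intro x1 x2 x3 y1 y2 y3 a b c hx d e f hy m hm hm1 hB
  have hy' : tot y1 y3 y2 = 1 := by simp [tot] at hy ⊢; linarith
  have hp : tot ((1 - 2 * m) / 3) ((1 + m) / 3) ((1 + m) / 3) = 1 := by simp [tot]; ring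
  have p1 : 0 ≤ (1 - 2 * m) / 3 := by linarith
  have p2 : 0 ≤ (1 + m) / 3 := by linarith
  have pos : ∀ {z1 z2 z3 : ℝ}, 0 ≤ z1 → 0 ≤ z2 → 0 ≤ z3 → tot z1 z2 z3 = 1 →
      0 < tot (x1 * z1) (x2 * z2) (x3 * z3) ∧ 0 < tot (x1 * z2) (x2 * z3) (x3 * z1)
        ∧ 0 < tot (x1 * z3) (x2 * z1) (x3 * z2) := by
    intro z1 z2 z3 u v w hz
    refine ⟨tot_mul_pos a b c u v w (by linarith), tot_mul_pos a b c v w u ?_,
      tot_mul_pos a b c w u v ?_⟩ <;> (simp [tot] at hz ⊢; linarith)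
  obtain ⟨u0, u1, u2⟩ := pos d e f hy
  obtain ⟨v0, v1, v2⟩ := pos d f e hy'
  obtain ⟨w0, w1, w2⟩ := pos p1 p2 p2 hp
  rw [rot6_eq _ hx hy u0 u1 u2, rot6_eq _ hx hy' v0 v1 v2, rot6_eq _ hx hp w0 w1 w2]
  have D1 := den2_eq hx hy
  have D2 := den2_eq hx hy'
  have D0 := den2_eq hx hp
  have hq0 : quad rc ((1 - 2 * m) / 3) ((1 + m) / 3) ((1 + m) / 3) = m * m := by
    simp only [quad, dif, rc]; push_cast; ring
  have hc0 : cub rc ((1 - 2 * m) / 3) ((1 + m) / 3) ((1 + m) / 3) = -2 * (m * m * m) := by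
    simp only [cub, dif, rc]; push_cast; ring
  have hqy : quad rc y1 y3 y2 = m * m := by
    rw [← hB]; simp only [quad, dif, rc]; push_cast; ring
  have hcy : cub rc y1 y3 y2 = cub rc y1 y2 y3 := by simp only [cub, dif, rc]; push_cast; ring
  obtain ⟨cA, hcA⟩ : ∃ z, cub rc x1 x2 x3 = 2 * z := ⟨cub rc x1 x2 x3 / 2, by ring⟩
  obtain ⟨cy, hcy0⟩ : ∃ z, cub rc y1 y2 y3 = 2 * z := ⟨cub rc y1 y2 y3 / 2, by ring⟩
  obtain ⟨h, hh⟩ : ∃ z, 27 * (vand rc x1 x2 x3 * vand rc y1 y2 y3) = 4 * z :=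
    ⟨27 * (vand rc x1 x2 x3 * vand rc y1 y2 y3) / 4, by ring⟩
  have hV1 : mixI rc x1 x2 x3 y1 y2 y3 = 4 * (cA * cy) + 4 * h := by
    simp only [mixI, hcA, hcy0, rc]; push_cast; linear_combination hh
  have hV2 : mixI rc x1 x2 x3 y1 y3 y2 = 4 * (cA * cy) - 4 * h := by
    have hv : vand rc y1 y3 y2 = -vand rc y1 y2 y3 := by
      simp only [vand, dif, rc]; push_cast; ring
    simp only [mixI, hcy, hv, hcA, hcy0, rc]; push_cast; linear_combination -hh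
  have hV0 : mixI rc x1 x2 x3 ((1 - 2 * m) / 3) ((1 + m) / 3) ((1 + m) / 3)
      = -4 * (cA * (m * m * m)) := by
    have hv : vand rc ((1 - 2 * m) / 3) ((1 + m) / 3) ((1 + m) / 3) = 0 := by
      simp only [vand, dif, rc]; push_cast; ring
    simp only [mixI, hc0, hv, hcA, rc]; push_cast; ring
  have hdm : Dm (quad rc x1 x2 x3) cA := by
    have := dm_of a.le b.le c.le hx
    rwa [hcA, mul_div_cancel_left₀ _ (two_ne_zero)] at this
  have hyd := (dm_of d e f hy)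
  rw [hcy0, mul_div_cancel_left₀ _ (two_ne_zero), hB] at hyd
  have habs : |cy| ≤ m ^ 3 := by
    have := hyd.abs_le
    rwa [Real.sqrt_mul_self hm] at this
  have hw : dif rc (quad rc x1 x2 x3 * quad rc x1 x2 x3 * quad rc x1 x2 x3) (cA * cA)
      * dif rc (m * m * (m * m) * (m * m)) (cy * cy) = h * h := by
    have ex := vand_sq x1 x2 x3
    have ey := vand_sq y1 y2 y3
    rw [hcA] at ex
    rw [hcy0, hB] at ey
    have eh : h = 27 * (vand rc x1 x2 x3 * vand rc y1 y2 y3) / 4 := by linarith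
    generalize quad rc x1 x2 x3 = A at *
    generalize vand rc x1 x2 x3 = vx at *
    generalize vand rc y1 y2 y3 = vy at *
    have e2 : h * h = (27 * vx ^ 2) * (27 * vy ^ 2) / 16 := by rw [eh]; ring
    rw [e2, ex, ey]
    simp only [dif, rc]; push_cast; ring
  rw [hqy, hB, hq0, hcy, hc0, hV1, hV2, hV0, hcA, hcy0]
  rw [hB, hV1] at D1
  rw [hqy, hV2] at D2
  rw [hq0, hV0] at D0
  have hP := l1P_eq ((num : ℤ) : ℝ) ((den : ℤ) : ℝ) (quad rc x1 x2 x3) m cA cy h hw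
  have hI := hid (quad rc x1 x2 x3) m cA cy
  simp only [l1Id, dif, rc] at hI
  push_cast at hI
  have hQ := quo_nonneg hq hdm hm hm1 habs
  have hnn : 0 ≤ l1P rc ((num : ℤ) : ℝ) ((den : ℤ) : ℝ) (quad rc x1 x2 x3) m cA cy := by
    have h1 : 0 ≤ cy + m * m * m := by
      have := (abs_le.mp habs).1
      have e : m ^ 3 = m * m * m := by ring
      linarith
    have := mul_nonneg (show (0 : ℝ) ≤ 2048 by norm_num) (mul_nonneg h1 hQ)
    push_cast
    linarith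
  rw [hP] at hnn
  have P1 : 0 < den2 rc (quad rc x1 x2 x3) (m * m) (4 * (cA * cy) + 4 * h) := by
    rw [D1]; positivity
  have P2 : 0 < den2 rc (quad rc x1 x2 x3) (m * m) (4 * (cA * cy) - 4 * h) := by
    rw [D2]; positivity
  have P0 : 0 < den2 rc (quad rc x1 x2 x3) (m * m) (-4 * (cA * (m * m * m))) := by
    rw [D0]; positivity
  have hden' : ((den : ℤ) : ℝ) ≠ 0 := by exact_mod_cast hden.ne'
  have e : ((num : ℤ) : ℝ) / ((den : ℤ) : ℝ) = (num : ℝ) / den := by norm_num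
  rw [numT_valT hden' P1.ne', numT_valT hden' P2.ne', numT_valT hden' P0.ne', e] at hnn
  set T0 := valT ((num : ℝ) / den) (quad rc x1 x2 x3) (m * m) (2 * cA) (-2 * (m * m * m))
    (-4 * (cA * (m * m * m)))
  set T1 := valT ((num : ℝ) / den) (quad rc x1 x2 x3) (m * m) (2 * cA) (2 * cy)
    (4 * (cA * cy) + 4 * h)
  set T2 := valT ((num : ℝ) / den) (quad rc x1 x2 x3) (m * m) (2 * cA) (2 * cy)
    (4 * (cA * cy) - 4 * h)
  generalize den2 rc (quad rc x1 x2 x3) (m * m) (4 * (cA * cy) + 4 * h) = d1 at *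
  generalize den2 rc (quad rc x1 x2 x3) (m * m) (4 * (cA * cy) - 4 * h) = d2 at *
  generalize den2 rc (quad rc x1 x2 x3) (m * m) (-4 * (cA * (m * m * m))) = d0 at *
  have hdp : (0 : ℝ) < ((den : ℤ) : ℝ) := by exact_mod_cast hden
  have hk : 0 < 4 * ((den : ℤ) : ℝ) * d0 ^ 3 * d1 ^ 3 * d2 ^ 3 := by positivity
  by_contra hcon
  have hlt : 2 * T0 - (T1 + T2) < 0 := by linarith
  have := mul_neg_of_pos_of_neg hk hlt
  linarith [show 4 * ((den : ℤ) : ℝ) * d0 ^ 3 * d1 ^ 3 * d2 ^ 3 * (2 * T0 - (T1 + T2))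
    = 2 * (4 * ((den : ℤ) : ℝ) * d0 ^ 3 * T0) * (d1 * d2) ^ 3
      - d0 ^ 3 * (4 * ((den : ℤ) : ℝ) * d1 ^ 3 * T1 * d2 ^ 3
        + 4 * ((den : ℤ) : ℝ) * d2 ^ 3 * T2 * d1 ^ 3) by ring]

theorem ext_zero : Ext 0 := by
  have := ext_of (num := 0) (den := 1) one_pos qcert_lo (fun A m cA cy => by
    have := Ex.zero_of_goodR cert_l1IdLo (four cy m A cA) (four_zero cy m A cA)
    rw [val_l1Id] at this
    exact this)
  simpa using this

theorem ext_top : Ext (12 / 25) := by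
  have := ext_of (num := 12) (den := 25) (by norm_num) qcert_hi (fun A m cA cy => by
    have := Ex.zero_of_goodR cert_l1IdHi (four cy m A cA) (four_zero cy m A cA)
    rw [val_l1Id] at this
    exact this)
  simpa using this

lemma rot6_affine (κ x1 x2 x3 y1 y2 y3 : ℝ) :
    rot6 κ x1 x2 x3 y1 y2 y3 = rot6 0 x1 x2 x3 y1 y2 y3
      + κ * (25 / 12) * (rot6 (12 / 25) x1 x2 x3 y1 y2 y3 - rot6 0 x1 x2 x3 y1 y2 y3) := by
  simp only [rot6, mPhi]; ring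

theorem ext_all {κ : ℝ} (h0 : 0 ≤ κ) (h1 : κ ≤ 12 / 25) : Ext κ := by
  intro x1 x2 x3 y1 y2 y3 a b c hx d e f hy m hm hm1 hB
  have A := ext_zero x1 x2 x3 y1 y2 y3 a b c hx d e f hy m hm hm1 hB
  have B := ext_top x1 x2 x3 y1 y2 y3 a b c hx d e f hy m hm hm1 hB
  rw [rot6_affine κ x1 x2 x3 y1 y2 y3, rot6_affine κ x1 x2 x3 y1 y3 y2,
    rot6_affine κ x1 x2 x3 ((1 - 2 * m) / 3)]
  nlinarith [mul_le_mul_of_nonneg_left A (show 0 ≤ 1 - κ * (25 / 12) by linarith),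
    mul_le_mul_of_nonneg_left B (show 0 ≤ κ * (25 / 12) by linarith)]

lemma tendsto_mQ (f1 f2 f3 : ℝ → ℝ) (c1 : Continuous f1) (c2 : Continuous f2) (c3 : Continuous f3)
    (n1 : ∀ e, 0 ≤ e → 0 ≤ f1 e) (n2 : ∀ e, 0 ≤ e → 0 ≤ f2 e) (n3 : ∀ e, 0 ≤ e → 0 ≤ f3 e) :
    Tendsto (fun e => mQ (f1 e) (f2 e) (f3 e)) (𝓝[>] (0 : ℝ)) (𝓝 (mQ (f1 0) (f2 0) (f3 0))) :=
  tendsto_moment mQ 1 dom_mQ
    (fun g1 g2 g3 d1 d2 d3 h => by
      refine ContinuousAt.div ?_ ?_ (pow_ne_zero 3 h) <;> (simp only [quad, tot, dif]; fun_prop))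
    f1 f2 f3 c1 c2 c3 n1 n2 n3

lemma tendsto_rot6 (κ : ℝ) {x1 x2 x3 y1 y2 y3 : ℝ} (a : 0 ≤ x1) (b : 0 ≤ x2) (c : 0 ≤ x3)
    (d : 0 ≤ y1) (e : 0 ≤ y2) (f : 0 ≤ y3) :
    Tendsto (fun t => rot6 κ (x1 + t) (x2 + t) (x3 + t) y1 y2 y3) (𝓝[>] (0 : ℝ))
      (𝓝 (rot6 κ x1 x2 x3 y1 y2 y3)) := by
  have pr : ∀ {z w : ℝ}, 0 ≤ z → 0 ≤ w → ∀ t : ℝ, 0 ≤ t → 0 ≤ (z + t) * w :=
    fun hz hw t ht => mul_nonneg (add_nonneg hz ht) hw
  have l : ∀ {w1 w2 w3 : ℝ}, 0 ≤ w1 → 0 ≤ w2 → 0 ≤ w3 →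
      Tendsto (fun t => mPhi κ ((x1 + t) * w1) ((x2 + t) * w2) ((x3 + t) * w3)) (𝓝[>] (0 : ℝ))
        (𝓝 (mPhi κ (x1 * w1) (x2 * w2) (x3 * w3))) := by
    intro w1 w2 w3 u v w
    have h1 := tendsto_mA (fun t => (x1 + t) * w1) (fun t => (x2 + t) * w2) (fun t => (x3 + t) * w3)
      (by fun_prop) (by fun_prop) (by fun_prop) (pr a u) (pr b v) (pr c w)
    have h2 := tendsto_mQ (fun t => (x1 + t) * w1) (fun t => (x2 + t) * w2) (fun t => (x3 + t) * w3)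
      (by fun_prop) (by fun_prop) (by fun_prop) (pr a u) (pr b v) (pr c w)
    simpa [mPhi] using h1.add (h2.const_mul κ)
  exact ((l d e f).add (l e f d)).add (l f d e)

/-- The extremal-direction inequality for arbitrary nonnegative vectors. -/
theorem extremal {κ : ℝ} (h0 : 0 ≤ κ) (h1 : κ ≤ 12 / 25) {x1 x2 x3 y1 y2 y3 : ℝ} (a : 0 ≤ x1)
    (b : 0 ≤ x2) (c : 0 ≤ x3) (d : 0 ≤ y1) (e : 0 ≤ y2) (f : 0 ≤ y3) {m : ℝ} (hm : 0 ≤ m)
    (hm1 : m ≤ 1 / 2) (hB : quad rc y1 y2 y3 = m * m * tot y1 y2 y3 ^ 2) :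
    rot6 κ x1 x2 x3 y1 y2 y3 + rot6 κ x1 x2 x3 y1 y3 y2
      ≤ 2 * (tot y1 y2 y3
          * rot6 κ x1 x2 x3 ((1 - 2 * m) / 3) ((1 + m) / 3) ((1 + m) / 3)) := by
  rcases eq_or_lt_of_le (tot_nonneg d e f) with hR | hR
  · have : y1 = 0 ∧ y2 = 0 ∧ y3 = 0 := by simp [tot] at hR; exact ⟨by linarith, by linarith, by linarith⟩
    obtain ⟨rfl, rfl, rfl⟩ := this
    simp [rot6, mPhi, mA, mQ, tot, quad, dif]
  have main : ∀ x1 x2 x3 : ℝ, 0 < x1 → 0 < x2 → 0 < x3 →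
      rot6 κ x1 x2 x3 y1 y2 y3 + rot6 κ x1 x2 x3 y1 y3 y2
      ≤ 2 * (tot y1 y2 y3
          * rot6 κ x1 x2 x3 ((1 - 2 * m) / 3) ((1 + m) / 3) ((1 + m) / 3)) := by
    intro x1 x2 x3 a b c
    set R := tot y1 y2 y3 with hRdef
    set S := tot x1 x2 x3 with hSdef
    have hS : 0 < S := by simp only [hSdef, tot]; linarith
    have hx : tot (S⁻¹ * x1) (S⁻¹ * x2) (S⁻¹ * x3) = 1 := by
      rw [tot_hom, ← hSdef]; field_simp
    have hy : tot (R⁻¹ * y1) (R⁻¹ * y2) (R⁻¹ * y3) = 1 := by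
      rw [tot_hom, ← hRdef]; field_simp
    have hB' : quad rc (R⁻¹ * y1) (R⁻¹ * y2) (R⁻¹ * y3) = m * m := by
      rw [quad_hom, hB]; field_simp
    have key := ext_all h0 h1 (S⁻¹ * x1) (S⁻¹ * x2) (S⁻¹ * x3) (R⁻¹ * y1) (R⁻¹ * y2) (R⁻¹ * y3)
      (by positivity) (by positivity) (by positivity) hx (by positivity) (by positivity)
      (by positivity) hy m hm hm1 hB'
    rw [rot6_scale, rot6_scale] at key
    have hs2 := rot6_scale κ S⁻¹ 1 x1 x2 x3 ((1 - 2 * m) / 3) ((1 + m) / 3) ((1 + m) / 3)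
    simp only [one_mul, mul_one] at hs2
    rw [hs2] at key
    generalize rot6 κ x1 x2 x3 y1 y2 y3 = P at key ⊢
    generalize rot6 κ x1 x2 x3 y1 y3 y2 = Q at key ⊢
    generalize rot6 κ x1 x2 x3 ((1 - 2 * m) / 3) ((1 + m) / 3) ((1 + m) / 3) = Z at key ⊢
    have := mul_le_mul_of_nonneg_left key (show 0 ≤ S * R by positivity)
    have e1 : S * R * (S⁻¹ * R⁻¹ * P + S⁻¹ * R⁻¹ * Q) = P + Q := by field_simp
    have e2 : S * R * (2 * (S⁻¹ * Z)) = 2 * (R * Z) := by field_simp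
    linarith
  have hp1 : (0 : ℝ) ≤ (1 - 2 * m) / 3 := by linarith
  have hp2 : (0 : ℝ) ≤ (1 + m) / 3 := by linarith
  refine le_of_tendsto_of_tendsto ((tendsto_rot6 κ a b c d e f).add (tendsto_rot6 κ a b c d f e))
    (((tendsto_rot6 κ a b c hp1 hp2 hp2).const_mul (tot y1 y2 y3)).const_mul 2) ?_
  filter_upwards [self_mem_nhdsWithin] with t ht
  have ht' : (0 : ℝ) < t := ht
  exact main _ _ _ (by linarith) (by linarith) (by linarith)

end Window

end Vale.Agent.P154
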