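import Vale.Agent.P154.Window.ConvexPoly
import Vale.Agent.P154.Window.Extremal
import Mathlib.Analysis.Calculus.Deriv.Pow
import Mathlib.Analysis.Calculus.Deriv.Inv
import Mathlib.Analysis.SpecialFunctions.Sqrt
import Mathlib.Analysis.Convex.Deriv

/-!
The potential of a vector combined with a reference child is, up to a quadratic correction,
convex in the squared length of the child.
-/

namespace Vale.Agent.P154

namespace Window

open Filter Topology

/-- The potential of a vector combined with the reference child of parameter `m`. -/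
noncomputable def childT (κ x1 x2 x3 m : ℝ) : ℝ :=
  rot6 κ x1 x2 x3 ((1 - 2 * m) / 3) ((1 + m) / 3) ((1 + m) / 3)

/-- The mass times the squared defect of the squared length. -/
noncomputable def mO (p q r : ℝ) : ℝ := mS p q r - 2 * mA p q r + mQ p q r

lemma hasDerivAt_evT (A c m : ℝ) : ∀ ts : Terms,
    (ts.all fun t => decide (t.2.length = 3)) = true →
    HasDerivAt (fun y => evT rc [A, c, y] ts) (evT rc [A, c, m] (derT ts)) m
  | [], _ => by simpa [evT, derT] using hasDerivAt_const m (0 : ℝ)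
  | ⟨z, es⟩ :: ts, h => by
    simp only [List.all_cons, Bool.and_eq_true, decide_eq_true_eq] at h
    obtain ⟨i, j, l, rfl⟩ : ∃ i j l, es = [i, j, l] := List.length_eq_three.mp h.1
    have ih := hasDerivAt_evT A c m ts h.2
    simp only [evT, derT, List.map_cons, mon, pw_eq, List.getD_cons_zero, List.getD_cons_succ]
    refine HasDerivAt.add ?_ ih
    have := (((hasDerivAt_pow l m).mul_const (rc 1)).const_mul (c ^ j)).const_mul (A ^ i)
    refine (this.const_mul (rc z)).congr_deriv ?_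
    simp only [rc]; push_cast; ring

lemma len3_derT {ts : Terms} :
    (ts.map fun t => (t.1 * (t.2.getD 2 0 : ℤ),
      [t.2.getD 0 0, t.2.getD 1 0, t.2.getD 2 0 - 1])).all
        (fun t => decide (t.2.length = 3)) = true := by
  simp [List.all_eq_true]

lemma val_nId (ρ : ℕ → ℝ) (num den A cA m : Ex) (N : Terms) :
    Ex.val ρ (nId Ex.c num den N A cA m)
      = nId rc (Ex.val ρ num) (Ex.val ρ den) N (Ex.val ρ A) (Ex.val ρ cA) (Ex.val ρ m) := by
  simp only [nId, nPotts, numT, den2, val_add, val_mul, val_c, val_dif, val_pw, val_evT, List.map]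

lemma val_l2Id (ρ : ℕ → ℝ) (cn A cA m : Ex) (N E : Terms) :
    Ex.val ρ (l2Id Ex.c cn N E A cA m)
      = l2Id rc (Ex.val ρ cn) N E (Ex.val ρ A) (Ex.val ρ cA) (Ex.val ρ m) := by
  simp only [l2Id, val_add, val_mul, val_c, val_dif, val_pw, val_evT, List.map]

lemma evT_tabD (A c m : ℝ) :
    evT rc [A, c, m] tabD = den2 rc A (m * m) (-4 * (c * (m * m * m))) := by
  simp [evT, mon, tabD, den2, dif, pw, rc]; ring

/-- Everything that is certified for one coefficient pair. -/
structure L2Cert (num den cn : ℕ) (N E : Terms) : Prop where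
  den_pos : 0 < den
  len : (N.all fun t => decide (t.2.length = 3)) = true
  num_eq : ∀ A c m : ℝ, nId rc ((num : ℤ) : ℝ) ((den : ℤ) : ℝ) N A c m = 0
  poly_eq : ∀ A c m : ℝ, l2Id rc ((cn : ℤ) : ℝ) N E A c m = 0
  nonneg : ∀ A c m : ℝ, Dm A c → 0 ≤ m → m ≤ 1 / 2 → 0 ≤ evT rc [A, c, m] E

variable {num den cn : ℕ} {N E : Terms}

lemma childT_eq (hC : L2Cert num den cn N E) {x1 x2 x3 m : ℝ} (a : 0 < x1) (b : 0 < x2)
    (c : 0 < x3) (hx : tot x1 x2 x3 = 1) (hm : 0 ≤ m) (hm1 : m ≤ 1 / 2) :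
    0 < evT rc [quad rc x1 x2 x3, cub rc x1 x2 x3 / 2, m] tabD ∧
    childT (num / den) x1 x2 x3 m = evT rc [quad rc x1 x2 x3, cub rc x1 x2 x3 / 2, m] N
      / (4 * den * evT rc [quad rc x1 x2 x3, cub rc x1 x2 x3 / 2, m] tabD ^ 3) := by
  have hp : tot ((1 - 2 * m) / 3) ((1 + m) / 3) ((1 + m) / 3) = 1 := by simp [tot]; ring
  have p1 : 0 ≤ (1 - 2 * m) / 3 := by linarith
  have p2 : 0 ≤ (1 + m) / 3 := by linarith
  have hpt : 0 < tot ((1 - 2 * m) / 3) ((1 + m) / 3) ((1 + m) / 3) := by linarith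
  have w0 := tot_mul_pos a b c p1 p2 p2 hpt
  have w1 := tot_mul_pos a b c p2 p2 p1 (by simp [tot]; linarith)
  have w2 := tot_mul_pos a b c p2 p1 p2 (by simp [tot]; linarith)
  have hq0 : quad rc ((1 - 2 * m) / 3) ((1 + m) / 3) ((1 + m) / 3) = m * m := by
    simp only [quad, dif, rc]; push_cast; ring
  have hc0 : cub rc ((1 - 2 * m) / 3) ((1 + m) / 3) ((1 + m) / 3) = -2 * (m * m * m) := by
    simp only [cub, dif, rc]; push_cast; ring
  obtain ⟨cA, hcA⟩ : ∃ z, cub rc x1 x2 x3 = 2 * z := ⟨cub rc x1 x2 x3 / 2, by ring⟩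
  have hV0 : mixI rc x1 x2 x3 ((1 - 2 * m) / 3) ((1 + m) / 3) ((1 + m) / 3)
      = -4 * (cA * (m * m * m)) := by
    have hv : vand rc ((1 - 2 * m) / 3) ((1 + m) / 3) ((1 + m) / 3) = 0 := by
      simp only [vand, dif, rc]; push_cast; ring
    simp only [mixI, hc0, hv, hcA, rc]; push_cast; ring
  have D0 := den2_eq hx hp
  rw [childT, rot6_eq _ hx hp w0 w1 w2, hq0, hV0, hc0, hcA, mul_div_cancel_left₀ _ two_ne_zero]
  rw [hq0, hV0] at D0
  have P0 : 0 < den2 rc (quad rc x1 x2 x3) (m * m) (-4 * (cA * (m * m * m))) := by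
    rw [D0]; positivity
  refine ⟨by rw [evT_tabD]; exact P0, ?_⟩
  have hden' : ((den : ℤ) : ℝ) ≠ 0 := by exact_mod_cast hC.den_pos.ne'
  have hn := hC.num_eq (quad rc x1 x2 x3) cA m
  simp only [nId, nPotts, dif, rc] at hn
  push_cast at hn
  have e := numT_valT (num := ((num : ℤ) : ℝ)) (A := quad rc x1 x2 x3) (B := m * m) (C := 2 * cA)
    (K := -2 * (m * m * m)) hden' P0.ne'
  have e' : ((num : ℤ) : ℝ) / ((den : ℤ) : ℝ) = (num : ℝ) / den := by norm_num
  rw [e'] at e
  try simp only [rc] at e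
  push_cast at e
  rw [evT_tabD]
  have hd : (0 : ℝ) < den := by exact_mod_cast hC.den_pos
  rw [eq_div_iff (by positivity)]
  try simp only [rc] at hn ⊢
  linarith

theorem convex_norm (hC : L2Cert num den cn N E) {x1 x2 x3 : ℝ} (a : 0 < x1) (b : 0 < x2)
    (c : 0 < x3) (hx : tot x1 x2 x3 = 1) :
    ConvexOn ℝ (Set.Icc 0 (1 / 4)) fun s => childT (num / den) x1 x2 x3 (Real.sqrt s)
      - cn / den * (1 - quad rc x1 x2 x3) ^ 2 * s ^ 2 := by
  set A := quad rc x1 x2 x3 with hA
  set cA := cub rc x1 x2 x3 / 2 with hcA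
  set f : ℝ → ℝ := fun y => evT rc [A, cA, y] N with hf
  set f1 : ℝ → ℝ := fun y => evT rc [A, cA, y] (derT N) with hf1
  set f2 : ℝ → ℝ := fun y => evT rc [A, cA, y] (derT (derT N)) with hf2
  set g : ℝ → ℝ := fun y => evT rc [A, cA, y] tabD with hg
  set g1 : ℝ → ℝ := fun y => evT rc [A, cA, y] (derT tabD) with hg1
  set g2 : ℝ → ℝ := fun y => evT rc [A, cA, y] (derT (derT tabD)) with hg2
  have dm : Dm A cA := dm_of a.le b.le c.le hx
  have hd : (0 : ℝ) < den := by exact_mod_cast hC.den_pos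
  have hpos : ∀ y, 0 ≤ y → y ≤ 1 / 2 → 0 < g y := fun y h0 h1 =>
    (childT_eq hC a b c hx h0 h1).1
  have Df : ∀ y, HasDerivAt f (f1 y) y := fun y => hasDerivAt_evT A cA y N hC.len
  have Df1 : ∀ y, HasDerivAt f1 (f2 y) y := fun y => hasDerivAt_evT A cA y _ len3_derT
  have Dg : ∀ y, HasDerivAt g (g1 y) y := fun y => hasDerivAt_evT A cA y tabD (by decide +kernel)
  have Dg1 : ∀ y, HasDerivAt g1 (g2 y) y := fun y => hasDerivAt_evT A cA y _ len3_derT
  set T1 : ℝ → ℝ := fun y => (f1 y * g y - 3 * (f y * g1 y)) / (4 * den * g y ^ 4) with hT1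
  set T2 : ℝ → ℝ := fun y => ((f2 y * g y - (2 * (f1 y * g1 y) + 3 * (f y * g2 y))) * g y
      - 4 * ((f1 y * g y - 3 * (f y * g1 y)) * g1 y)) / (4 * den * g y ^ 5) with hT2
  have D1 : ∀ y, g y ≠ 0 → HasDerivAt (fun z => f z / (4 * den * g z ^ 3)) (T1 y) y := by
    intro y hy
    refine ((Df y).div (((Dg y).pow 3).const_mul (4 * (den : ℝ))) (by simp [hy, hd.ne'])).congr_deriv ?_
    simp only [hT1, Pi.pow_apply]
    field_simp
    push_cast
    ring
  have D2 : ∀ y, g y ≠ 0 → HasDerivAt T1 (T2 y) y := by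
    intro y hy
    refine ((((Df1 y).mul (Dg y)).sub (((Df y).mul (Dg1 y)).const_mul 3)).div
      (((Dg y).pow 4).const_mul (4 * (den : ℝ))) (by simp [hy, hd.ne'])).congr_deriv ?_
    simp only [hT2, Pi.mul_apply, Pi.sub_apply, Pi.pow_apply]
    field_simp
    push_cast
    ring
  have key : ∀ y, 0 ≤ y → y ≤ 1 / 2 →
      0 ≤ y * T2 y - T1 y - 8 * (cn / den) * ((1 - A) ^ 2 * y ^ 3) := by
    intro y h0 h1
    have hy := (hpos y h0 h1).ne'
    have h := hC.poly_eq A cA y
    have hn := hC.nonneg A cA y dm h0 h1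
    simp only [l2Id, dif, rc, pw_eq] at h
    push_cast at h
    try simp only [rc] at hn
    have e : y * T2 y - T1 y - 8 * (cn / den) * ((1 - A) ^ 2 * y ^ 3)
        = evT (fun z : ℤ => (z : ℝ)) [A, cA, y] E / (4 * den * g y ^ 5) := by
      simp only [hT1, hT2, hf, hf1, hf2, hg, hg1, hg2, rc] at hy ⊢
      field_simp
      linear_combination h
    rw [e]
    exact div_nonneg hn (mul_nonneg (by positivity) (pow_nonneg (hpos y h0 h1).le 5))
  set G : ℝ → ℝ := fun s => f (Real.sqrt s) / (4 * den * g (Real.sqrt s) ^ 3)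
    - cn / den * (1 - A) ^ 2 * s ^ 2 with hG
  have sq_mem : ∀ s : ℝ, s ≤ 1 / 4 → Real.sqrt s ≤ 1 / 2 := fun s hs => by
    rw [show (1 / 2 : ℝ) = Real.sqrt (1 / 4) by rw [show (1 / 4 : ℝ) = (1 / 2) ^ 2 by norm_num,
      Real.sqrt_sq (by norm_num)]]
    exact Real.sqrt_le_sqrt hs
  have hconv : ConvexOn ℝ (Set.Icc 0 (1 / 4)) G := by
    refine convexOn_of_hasDerivWithinAt2_nonneg (convex_Icc _ _)
      (f' := fun s => T1 (Real.sqrt s) / (2 * Real.sqrt s) - cn / den * (1 - A) ^ 2 * (2 * s))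
      (f'' := fun s => (Real.sqrt s * T2 (Real.sqrt s) - T1 (Real.sqrt s)
        - 8 * (cn / den) * ((1 - A) ^ 2 * Real.sqrt s ^ 3)) / (4 * Real.sqrt s ^ 3)) ?_ ?_ ?_ ?_
    · intro s hs
      refine ContinuousAt.continuousWithinAt ?_
      have hy := (hpos _ (Real.sqrt_nonneg s) (sq_mem s hs.2)).ne'
      exact (((D1 _ hy).continuousAt.comp Real.continuous_sqrt.continuousAt)).sub
        (by fun_prop)
    · intro s hs
      rw [interior_Icc] at hs
      have hs0 : 0 < s := hs.1
      have hr : 0 < Real.sqrt s := Real.sqrt_pos.mpr hs0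
      have hy := (hpos _ (Real.sqrt_nonneg s) (sq_mem s hs.2.le)).ne'
      refine HasDerivAt.hasDerivWithinAt ?_
      refine (((D1 _ hy).comp s (Real.hasDerivAt_sqrt hs0.ne')).sub
        ((hasDerivAt_pow 2 s).const_mul (cn / den * (1 - A) ^ 2))).congr_deriv ?_
      simp only [mul_one_div]
      push_cast
      ring
    · intro s hs
      rw [interior_Icc] at hs
      have hs0 : 0 < s := hs.1
      have hr : 0 < Real.sqrt s := Real.sqrt_pos.mpr hs0
      have hy := (hpos _ (Real.sqrt_nonneg s) (sq_mem s hs.2.le)).ne'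
      refine HasDerivAt.hasDerivWithinAt ?_
      have hsq := Real.hasDerivAt_sqrt hs0.ne'
      refine ((((D2 _ hy).comp s hsq).div (hsq.const_mul 2) (by positivity)).sub
        (((hasDerivAt_id s).const_mul 2).const_mul (cn / den * (1 - A) ^ 2))).congr_deriv ?_
      simp only [Function.comp_apply, mul_one_div]
      have e2 : Real.sqrt s ^ 2 = s := Real.sq_sqrt hs0.le
      generalize Real.sqrt s = r at *
      field_simp
      ring
    · intro s hs
      rw [interior_Icc] at hs
      exact div_nonneg (key _ (Real.sqrt_nonneg s) (sq_mem s hs.2.le))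
        (by have := Real.sqrt_nonneg s; positivity)
  refine hconv.congr fun s hs => ?_
  simp only [hG, hf, hg]
  rw [(childT_eq hC a b c hx (Real.sqrt_nonneg s) (sq_mem s hs.2)).2]

theorem l2cert_zero : L2Cert 0 1 0 tabNZero tabEZero where
  den_pos := one_pos
  len := by decide +kernel
  num_eq A c m := by
    have := Ex.zero_of_goodR cert_nIdZero (four A c m 0) (four_zero A c m 0)
    rw [val_nId] at this
    exact this
  poly_eq A c m := by
    have := Ex.zero_of_goodR cert_l2IdZero (four A c m 0) (four_zero A c m 0)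
    rw [val_l2Id] at this
    exact this
  nonneg _ _ _ h h0 h1 := tabE_nonneg ecert_zero h h0 h1

theorem l2cert_quarter : L2Cert 1 4 1 tabNQuarter tabEQuarter where
  den_pos := by norm_num
  len := by decide +kernel
  num_eq A c m := by
    have := Ex.zero_of_goodR cert_nIdQuarter (four A c m 0) (four_zero A c m 0)
    rw [val_nId] at this
    exact this
  poly_eq A c m := by
    have := Ex.zero_of_goodR cert_l2IdQuarter (four A c m 0) (four_zero A c m 0)
    rw [val_l2Id] at this
    exact this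
  nonneg _ _ _ h h0 h1 := tabE_nonneg ecert_quarter h h0 h1

theorem l2cert_mid : L2Cert 3 10 3 tabNMid tabEMid where
  den_pos := by norm_num
  len := by decide +kernel
  num_eq A c m := by
    have := Ex.zero_of_goodR cert_nIdMid (four A c m 0) (four_zero A c m 0)
    rw [val_nId] at this
    exact this
  poly_eq A c m := by
    have := Ex.zero_of_goodR cert_l2IdMid (four A c m 0) (four_zero A c m 0)
    rw [val_l2Id] at this
    exact this
  nonneg _ _ _ h h0 h1 := tabE_nonneg ecert_mid h h0 h1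

theorem l2cert_top : L2Cert 12 25 10 tabNTop tabETop where
  den_pos := by norm_num
  len := by decide +kernel
  num_eq A c m := by
    have := Ex.zero_of_goodR cert_nIdTop (four A c m 0) (four_zero A c m 0)
    rw [val_nId] at this
    exact this
  poly_eq A c m := by
    have := Ex.zero_of_goodR cert_l2IdTop (four A c m 0) (four_zero A c m 0)
    rw [val_l2Id] at this
    exact this
  nonneg _ _ _ h h0 h1 := tabE_nonneg ecert_top h h0 h1

end Window

end Vale.Agent.P154
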