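import Vale.Agent.P154.Window.Replace
import Vale.Agent.P154.AntiTree
import Mathlib.Algebra.BigOperators.Field

/-!
Replacing several independent children by reference children.
-/

namespace Vale.Agent.P154

namespace Window

variable {ι η θ : Type} {L : Lik ι} {M : Lik η}

/-- A mixture of reference children. -/
noncomputable def mixNode {k : ℕ} (w μ : Fin k → ℝ) : Lik (Fin k × Fin 3) :=
  fun z i => w z.1 * node (μ z.1) z.2 i

lemma mixNode_ok {k : ℕ} {w μ : Fin k → ℝ} (hw : ∀ i, 0 ≤ w i) (hw1 : ∑ i, w i = 1)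
    (hμ : ∀ i, 0 ≤ μ i ∧ μ i ≤ 1 / 2) : Ok (mixNode w μ) where
  nonneg z i := mul_nonneg (hw _) ((node_ok (hμ _).1 (hμ _).2).nonneg _ _)
  total i := by
    refine hasSum_val (hasSum_fintype _) ?_
    rw [Fintype.sum_prod_type, ← hw1]
    refine Finset.sum_congr rfl fun a _ => ?_
    simp only [mixNode, ← Finset.mul_sum]
    rw [(hasSum_fintype fun s => node (μ a) s i).unique ((node_ok (hμ a).1 (hμ a).2).total i),
      mul_one]
  rot := ⟨Equiv.prodCongr (Equiv.refl _) (Equiv.addRight 1), fun z i => by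
    simp [mixNode, node_eq]⟩

lemma mo_pair_mixNode {k : ℕ} {w μ : Fin k → ℝ} (hw : ∀ i, 0 ≤ w i) (hw1 : ∑ i, w i = 1)
    (hμ : ∀ i, 0 ≤ μ i ∧ μ i ≤ 1 / 2) (hL : Ok L) (κ : ℝ) :
    mo (mPhi κ) (pair L (mixNode w μ)) = ∑ i, w i * mo (mPhi κ) (pair L (node (μ i))) := by
  have h := ((pair_ok hL (mixNode_ok hw hw1 hμ)).summable_mom (dom_mPhi κ)).hasSum
  have h1 : ∀ a, HasSum (fun z : ι × Fin 3 => w a * row (mPhi κ) (pair L (node (μ a)) z))
      (w a * (3 * mo (mPhi κ) (pair L (node (μ a))))) := fun a => by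
    have := (((pair_ok hL (node_ok (hμ a).1 (hμ a).2)).summable_mom (dom_mPhi κ)).hasSum).mul_left
      (w a)
    refine hasSum_val this ?_
    rw [mo]; ring
  let e : Fin k × (ι × Fin 3) ≃ ι × (Fin k × Fin 3) :=
    { toFun := fun z => (z.2.1, (z.1, z.2.2))
      invFun := fun z => (z.2.1, (z.1, z.2.2))
      left_inv := fun _ => rfl
      right_inv := fun _ => rfl }
  have h2 := (Equiv.hasSum_iff e).mpr h
  have h3 : HasSum (fun a => w a * (3 * mo (mPhi κ) (pair L (node (μ a)))))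
      (∑' z, row (mPhi κ) (pair L (mixNode w μ) z)) := by
    refine h2.prod_fiberwise fun a => ?_
    refine (h1 a).congr_fun fun z => ?_
    simp only [Function.comp_apply, e, row, pair, mixNode, Equiv.coe_fn_mk]
    rw [← mPhi_scale]
    ring_nf
  rw [mo, ← h3.tsum_eq, tsum_fintype, Finset.sum_div]
  exact Finset.sum_congr rfl fun a _ => by ring

lemma sq_div_add {a b S T : ℝ} (hS : 0 < S) (hT : 0 < T) :
    (a + b) ^ 2 / (S + T) ≤ a ^ 2 / S + b ^ 2 / T := by
  have e : a ^ 2 / S + b ^ 2 / T - (a + b) ^ 2 / (S + T)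
      = (a * T - b * S) ^ 2 / (S * T * (S + T)) := by field_simp; ring
  have : 0 ≤ (a * T - b * S) ^ 2 / (S * T * (S + T)) := by positivity
  linarith

lemma mA_add {p q r p' q' r' : ℝ} (a : 0 ≤ p) (b : 0 ≤ q) (c : 0 ≤ r) (a' : 0 ≤ p') (b' : 0 ≤ q')
    (c' : 0 ≤ r') : mA (p + p') (q + q') (r + r') ≤ mA p q r + mA p' q' r' := by
  rcases eq_or_lt_of_le (tot_nonneg a b c) with h | h
  · have z : p = 0 ∧ q = 0 ∧ r = 0 := by
      simp [tot] at h; exact ⟨by linarith, by linarith, by linarith⟩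
    obtain ⟨rfl, rfl, rfl⟩ := z
    simp [mA, quad, tot, dif]
  rcases eq_or_lt_of_le (tot_nonneg a' b' c') with h' | h'
  · have z : p' = 0 ∧ q' = 0 ∧ r' = 0 := by
      simp [tot] at h'; exact ⟨by linarith, by linarith, by linarith⟩
    obtain ⟨rfl, rfl, rfl⟩ := z
    simp [mA, quad, tot, dif]
  have e : ∀ p q r : ℝ, mA p q r
      = (2 * p - q - r) ^ 2 / tot p q r / 4 + 3 * ((q - r) ^ 2 / tot p q r / 4) := fun p q r => by
    simp only [mA, quad, dif, rc]; push_cast; ring
  have ht : tot (p + p') (q + q') (r + r') = tot p q r + tot p' q' r' := by simp only [tot]; ring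
  rw [e, e, e, ht]
  have h1 := sq_div_add (a := 2 * p - q - r) (b := 2 * p' - q' - r') h h'
  have h2 := sq_div_add (a := q - r) (b := q' - r') h h'
  have i1 : 2 * (p + p') - (q + q') - (r + r') = 2 * p - q - r + (2 * p' - q' - r') := by ring
  have i2 : q + q' - (r + r') = q - r + (q' - r') := by ring
  rw [i1, i2]
  linarith

/-- Adding a child cannot decrease the information. -/
theorem mA_le_pair (hL : Ok L) (hM : Ok M) : mo mA L ≤ mo mA (pair L M) := by
  have key := hasSum_le (fun z : ι × η => ?_) (hasSum_prod_mom hL hM dom_mA dom_mS)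
    (pair_rots hL hM dom_mA)
  · rw [hM.mo_mass, mul_one] at key
    linarith
  · have a := hL.nonneg z.1
    have b := hM.nonneg z.2
    have h1 := mA_add (mul_nonneg (a 0) (b 0)) (mul_nonneg (a 1) (b 1)) (mul_nonneg (a 2) (b 2))
      (mul_nonneg (a 0) (b 1)) (mul_nonneg (a 1) (b 2)) (mul_nonneg (a 2) (b 0))
    have h2 := mA_add (add_nonneg (mul_nonneg (a 0) (b 0)) (mul_nonneg (a 0) (b 1)))
      (add_nonneg (mul_nonneg (a 1) (b 1)) (mul_nonneg (a 1) (b 2)))
      (add_nonneg (mul_nonneg (a 2) (b 2)) (mul_nonneg (a 2) (b 0)))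
      (mul_nonneg (a 0) (b 2)) (mul_nonneg (a 1) (b 0)) (mul_nonneg (a 2) (b 1))
    have e : ∀ i j l : Fin 3, M z.2 i + M z.2 j + M z.2 l = tot (M z.2 i) (M z.2 j) (M z.2 l) :=
      fun _ _ _ => rfl
    have h3 := mA_scale (tot (M z.2 0) (M z.2 1) (M z.2 2)) (L z.1 0) (L z.1 1) (L z.1 2)
    have q0 : L z.1 0 * M z.2 0 + L z.1 0 * M z.2 1 + L z.1 0 * M z.2 2
        = tot (M z.2 0) (M z.2 1) (M z.2 2) * L z.1 0 := by simp only [tot]; ring
    have q1 : L z.1 1 * M z.2 1 + L z.1 1 * M z.2 2 + L z.1 1 * M z.2 0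
        = tot (M z.2 0) (M z.2 1) (M z.2 2) * L z.1 1 := by simp only [tot]; ring
    have q2 : L z.1 2 * M z.2 2 + L z.1 2 * M z.2 0 + L z.1 2 * M z.2 1
        = tot (M z.2 0) (M z.2 1) (M z.2 2) * L z.1 2 := by simp only [tot]; ring
    rw [q0, q1, q2, h3] at h2
    simp only [rots, row, mS]
    nlinarith

lemma mo_assoc (g : ℝ → ℝ → ℝ → ℝ) (A : Lik ι) (B : Lik η) (C : Lik θ) :
    mo g (pair (pair A B) C) = mo g (pair A (pair B C)) := by
  have : pair (pair A B) C = reindex (Equiv.prodAssoc ι η θ) (pair A (pair B C)) := by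
    funext z i; simp [pair, reindex, mul_assoc]
  rw [this, mo_reindex]

lemma mo_swap_right (g : ℝ → ℝ → ℝ → ℝ) (A : Lik ι) (B : Lik η) (C : Lik θ) :
    mo g (pair (pair A B) C) = mo g (pair (pair A C) B) := by
  let e : (ι × η) × θ ≃ (ι × θ) × η :=
    { toFun := fun z => ((z.1.1, z.2), z.1.2)
      invFun := fun z => ((z.1.1, z.2), z.1.2)
      left_inv := fun _ => rfl
      right_inv := fun _ => rfl }
  have : pair (pair A B) C = reindex e (pair (pair A C) B) := by
    funext z i; simp [pair, reindex, e, mul_assoc, mul_comm (B z.1.2 i)]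
  rw [this, mo_reindex]

lemma mo_pair_power_zero (g : ℝ → ℝ → ℝ → ℝ) (A : Lik ι) (B : Lik η) :
    mo g (pair A (power B 0)) = mo g A := by
  have : pair A (power B 0) = reindex (Equiv.prodUnique ι (Fin 0 → η)) A := by
    funext z i; simp [pair, reindex, power]
  rw [this, mo_reindex]

lemma mo_pair_power_succ (g : ℝ → ℝ → ℝ → ℝ) (A : Lik ι) (B : Lik η) (N : ℕ) :
    mo g (pair A (power B (N + 1))) = mo g (pair (pair A B) (power B N)) := by
  have : pair A (power B (N + 1)) = reindex (Equiv.prodCongr (Equiv.refl ι)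
      (Fin.consEquiv fun _ => η).symm) (pair A (pair B (power B N))) := by
    funext z i; simp [pair, reindex, power_succ]
  rw [this, mo_reindex, mo_assoc]

variable {k : ℕ} {μ : Fin k → ℝ} {h : η → Fin k → ℝ}

lemma Spread.wt_nonneg (hS : Spread M μ h) (i : Fin k) : 0 ≤ wt' h i :=
  div_nonneg (tsum_nonneg fun y => hS.nonneg y i) (by norm_num)

lemma Spread.wt_sum (hS : Spread M μ h) (hM : Ok M) : ∑ i, wt' h i = 1 := by
  have h1 : HasSum (fun y => row mS (M y)) (∑ i, ∑' y, h y i) := by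
    simp only [← hS.mass]
    exact hasSum_sum fun i _ => (hS.summable hM i).hasSum
  simp only [wt', div_eq_mul_inv, ← Finset.sum_mul]
  rw [h1.unique hM.hasSum_mass]; norm_num

lemma Spread.wt_length (hS : Spread M μ h) (hM : Ok M) : ∑ i, wt' h i * μ i ^ 2 = mo mA M := by
  have h1 : HasSum (fun y => row mA (M y)) (∑ i, (∑' y, h y i) * μ i ^ 2) := by
    simp only [← hS.length]
    exact hasSum_sum fun i _ => (hS.summable hM i).hasSum.mul_right _
  rw [mo, h1.tsum_eq, Finset.sum_div]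
  exact Finset.sum_congr rfl fun i _ => by rw [wt']; ring

lemma Spread.gain_nonneg (hS : Spread M μ h) (hM : Ok M) : 0 ≤ gain M μ h := by
  have h1 : HasSum (fun y => ∑ i, h y i * μ i ^ 4) (∑ i, (∑' y, h y i) * μ i ^ 4) :=
    hasSum_sum fun i _ => (hS.summable hM i).hasSum.mul_right _
  have key := hasSum_le (fun y => ?_) (hM.summable_mom dom_mQ).hasSum h1
  · rw [gain, mo]
    have e : ∑ i, wt' h i * μ i ^ 4 = (∑ i, (∑' y, h y i) * μ i ^ 4) / 3 := by
      rw [Finset.sum_div]; exact Finset.sum_congr rfl fun i _ => by rw [wt']; ring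
    rw [e]; linarith
  · have hm := hS.mass y
    have hl := hS.length y
    simp only [row, mS, mA, mQ] at hm hl ⊢
    rcases eq_or_lt_of_le (tot_nonneg (hM.nonneg y 0) (hM.nonneg y 1) (hM.nonneg y 2)) with h0 | h0
    · rw [← h0]; simp only [ne_eq, OfNat.ofNat_ne_zero, not_false_eq_true, zero_pow, div_zero]
      exact Finset.sum_nonneg fun i _ => mul_nonneg (hS.nonneg y i) (by positivity)
    · generalize tot (M y 0) (M y 1) (M y 2) = R at h0 hm hl ⊢
      generalize quad rc (M y 0) (M y 1) (M y 2) = q at hl ⊢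
      have h2 : 0 ≤ ∑ i, h y i * (μ i ^ 2 - q / R ^ 2) ^ 2 :=
        Finset.sum_nonneg fun i _ => mul_nonneg (hS.nonneg y i) (sq_nonneg _)
      have e : ∑ i, h y i * (μ i ^ 2 - q / R ^ 2) ^ 2
          = (∑ i, h y i * μ i ^ 4) - 2 * (q / R ^ 2) * (∑ i, h y i * μ i ^ 2)
            + (q / R ^ 2) ^ 2 * ∑ i, h y i := by
        simp only [Finset.mul_sum, ← Finset.sum_sub_distrib, ← Finset.sum_add_distrib]
        exact Finset.sum_congr rfl fun i _ => by ring
      rw [e, hl, hm] at h2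
      have e2 : 2 * (q / R ^ 2) * (q / R) = 2 * (q ^ 2 / R ^ 3) := by field_simp
      have e3 : (q / R ^ 2) ^ 2 * R = q ^ 2 / R ^ 3 := by field_simp
      linarith

/-- One child replaced, with the gain expressed through the information. -/
theorem replace_mix {κ κ' : ℝ} (hL : Ok L) (hM : Ok M) (hsw : Sw M) (hS : Spread M μ h)
    (hc : CC κ κ') (k0 : 0 ≤ κ) (k1 : κ ≤ 12 / 25) (k0' : 0 ≤ κ') :
    mo (mPhi κ) (pair L M) ≤ mo (mPhi κ) (pair L (mixNode (wt' h) μ))
      - κ' * (gain M μ h * (1 - mo mA L) ^ 2) := by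
  rw [mo_pair_mixNode hS.wt_nonneg (hS.wt_sum hM) hS.range hL]
  have h1 := replace hL hM hsw hS hc k0 k1
  have h2 := mul_le_mul_of_nonneg_left (mo_mO_ge hL) (mul_nonneg k0' (hS.gain_nonneg hM))
  linarith

lemma mPhi_zero : mPhi 0 = mA := by funext p q r; simp [mPhi]

/-- Several children replaced: the information. -/
theorem power_info_le (hM : Ok M) (hsw : Sw M) (hS : Spread M μ h) : ∀ (N : ℕ) {ι : Type}
    {L : Lik ι}, Ok L → mo mA (pair L (power M N)) ≤ mo mA (pair L (power (mixNode (wt' h) μ) N))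
  | 0, ι, L, hL => by rw [mo_pair_power_zero, mo_pair_power_zero]
  | N + 1, ι, L, hL => by
    have hQ := mixNode_ok hS.wt_nonneg (hS.wt_sum hM) hS.range
    have h1 := replace_mix (pair_ok hL (power_ok M hM N)) hM hsw hS cc_zero le_rfl (by norm_num)
      le_rfl
    rw [mPhi_zero, zero_mul, sub_zero] at h1
    rw [mo_pair_power_succ, mo_pair_power_succ, mo_swap_right]
    refine le_trans h1 ?_
    rw [mo_swap_right]
    exact power_info_le hM hsw hS N (pair_ok hL hQ)

/-- Several children replaced: the potential. -/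
theorem power_phi_le {κ κ' : ℝ} (hM : Ok M) (hsw : Sw M) (hS : Spread M μ h) (hc : CC κ κ')
    (k0 : 0 ≤ κ) (k1 : κ ≤ 12 / 25) (k0' : 0 ≤ κ') : ∀ (N : ℕ) {ι : Type} {L : Lik ι}, Ok L →
    mo (mPhi κ) (pair L (power M N)) ≤ mo (mPhi κ) (pair L (power (mixNode (wt' h) μ) N))
      - κ' * (gain M μ h * (N * (1 - mo mA (pair L (power (mixNode (wt' h) μ) (N - 1)))) ^ 2))
  | 0, ι, L, hL => by simp [mo_pair_power_zero]
  | N + 1, ι, L, hL => by
    have hQ := mixNode_ok hS.wt_nonneg (hS.wt_sum hM) hS.range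
    have h1 := replace_mix (pair_ok hL (power_ok M hM N)) hM hsw hS hc k0 k1 k0'
    have h2 := power_info_le hM hsw hS N hL
    have h3 : mo mA (pair L (power (mixNode (wt' h) μ) N)) ≤ 1 :=
      (pair_ok hL (power_ok _ hQ N)).mA_le_one
    have h4 : gain M μ h * (1 - mo mA (pair L (power (mixNode (wt' h) μ) N))) ^ 2
        ≤ gain M μ h * (1 - mo mA (pair L (power M N))) ^ 2 :=
      mul_le_mul_of_nonneg_left (pow_le_pow_left₀ (by linarith) (by linarith) 2)
        (hS.gain_nonneg hM)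
    have h5 := mul_le_mul_of_nonneg_left h4 k0'
    have ih := power_phi_le hM hsw hS hc k0 k1 k0' N (pair_ok hL hQ)
    have s1 := mo_swap_right (mPhi κ) L (power M N) M
    have s2 := mo_swap_right (mPhi κ) L (power M N) (mixNode (wt' h) μ)
    rw [mo_pair_power_succ (mPhi κ) L M, mo_pair_power_succ (mPhi κ) L (mixNode (wt' h) μ),
      Nat.add_sub_cancel]
    rcases Nat.eq_zero_or_pos N with rfl | hN
    · simp only [Nat.cast_zero, zero_mul, mul_zero, sub_zero, zero_add, Nat.cast_one, one_mul] at *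
      linarith
    · have e : mo mA (pair (pair L (mixNode (wt' h) μ)) (power (mixNode (wt' h) μ) (N - 1)))
          = mo mA (pair L (power (mixNode (wt' h) μ) N)) := by
        rw [← mo_pair_power_succ, Nat.sub_add_cancel hN]
      rw [e] at ih
      push_cast
      linarith

end Window

end Vale.Agent.P154
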