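import Vale.Agent.P154.Window.Level

/-!
From one level to the limit.
-/

namespace Vale.Agent.P154

namespace Window

open Filter Topology

variable {ι : Type} {L : Lik ι}

lemma shift_small (l : ℝ) (hL : Ok L) (x : ι) :
    quad rc (shift l L x 0) (shift l L x 1) (shift l L x 2)
      ≤ l ^ 2 * tot (shift l L x 0) (shift l L x 1) (shift l L x 2) ^ 2 := by
  obtain ⟨a, b, -⟩ := shift_row l L x
  rw [a, b]
  exact mul_le_mul_of_nonneg_left (quad_le (hL.nonneg x 0) (hL.nonneg x 1) (hL.nonneg x 2))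
    (sq_nonneg l)

lemma shift_mQ (l : ℝ) (L : Lik ι) : mo mQ (shift l L) = l ^ 4 * mo mQ L := by
  have : ∀ x, row mQ (shift l L x) = l ^ 4 * row mQ (L x) := fun x => by
    obtain ⟨a, b, -⟩ := shift_row l L x
    rw [row, row, mQ, mQ, a, b]; ring
  rw [mo, mo]; simp only [this]; rw [tsum_mul_left]; ring

/-- The potential at depth `n`. -/
noncomputable def pot (κ : ℝ) (p : ℕ → ℝ) (l : ℝ) (n : ℕ) : ℝ := mo (mPhi κ) (tab p l n)

/-- The bound that one level provides. -/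
def Drop (κ ε : ℝ) (p : ℕ → ℝ) (d l : ℝ) (n : ℕ) : Prop :=
  pot κ p l (n + 1) ≤ d * l ^ 2 * info p l n + κ * (d * l ^ 2) ^ 2 * mo mQ (tab p l n)
    - ε * (d * l ^ 2 * info p l n) ^ 2

variable {p : ℕ → ℝ} {d l κ κ' ε : ℝ}

lemma pot_eq (h : Ok (tab p l 0) ∧ ∀ n, Ok (tab p l n)) (κ : ℝ) (n : ℕ) :
    pot κ p l n = info p l n + κ * mo mQ (tab p l n) :=
  mo_mPhi (h.2 n) κ

lemma drop_poisson (hd : 0 < d) (h0 : -(1 / 2) ≤ l) (h1 : l ≤ 1 / 2) (hdl : d * l ^ 2 ≤ 1)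
    (hc : CC κ κ') (k0 : 0 ≤ κ) (k1 : κ ≤ 12 / 25) (k0' : 0 ≤ κ') (k1' : κ' ≤ 12 / 25)
    (hε : 0 ≤ ε) (n : ℕ)
    (hS : Scal κ κ' d (poisSum κ) ε (d * l ^ 2 * info (poissonLaw d) l n)) :
    Drop κ ε (poissonLaw d) d l n := by
  have hk := tab_ok (poisson_law hd) h0 (by linarith : l ≤ 1) n
  have hl2 : l ^ 2 ≤ 1 / 4 := by nlinarith
  have e : d * mo mA (shift l (tab (poissonLaw d) l n)) = d * l ^ 2 * info (poissonLaw d) l n := by
    rw [shift_mA, info]; ring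
  have h := level_poisson hd (shift_ok_adm h0 (by linarith : l ≤ 1) hk)
    (shift_sw l (tab_sw _ l n)) hdl hl2 (fun y => shift_small l hk y) hc k0 k1 k0' k1' hε
    (by rw [e]; exact hS)
  rw [e, shift_mQ] at h
  unfold Drop
  rw [pot, mo_tab_succ]
  refine le_trans h (le_of_eq ?_)
  ring

lemma drop_regular {m : ℕ} (hm : 0 < m) (h0 : -(1 / 2) ≤ l) (h1 : l ≤ 1 / 2)
    (hdl : (m : ℝ) * l ^ 2 ≤ 1) (hc : CC κ κ') (k0 : 0 ≤ κ) (k1 : κ ≤ 12 / 25) (k0' : 0 ≤ κ')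
    (k1' : κ' ≤ 12 / 25) (hε : 0 ≤ ε) (n : ℕ)
    (hS : Scal κ κ' m (fun σ ν => binSum κ σ ν m) ε (m * l ^ 2 * info (regularLaw m) l n)) :
    Drop κ ε (regularLaw m) m l n := by
  have hk := tab_ok (regular_law m) h0 (by linarith : l ≤ 1) n
  have hl2 : l ^ 2 ≤ 1 / 4 := by nlinarith
  have e : (m : ℝ) * mo mA (shift l (tab (regularLaw m) l n))
      = m * l ^ 2 * info (regularLaw m) l n := by
    rw [shift_mA, info]; ring
  have h := level_regular hm (shift_ok_adm h0 (by linarith : l ≤ 1) hk)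
    (shift_sw l (tab_sw _ l n)) hdl hl2 (fun y => shift_small l hk y) hc k0 k1 k0' k1' hε
    (by rw [e]; exact hS)
  rw [e, shift_mQ] at h
  unfold Drop
  rw [pot, mo_tab_succ]
  refine le_trans h (le_of_eq ?_)
  ring

lemma drop_decrease {r a Q : ℝ} (r0 : 0 ≤ r) (r1 : r ≤ 1) (a0 : 0 ≤ a) (a1 : a ≤ 1) (Q0 : 0 ≤ Q)
    (k0 : 0 ≤ κ) (e0 : 0 ≤ ε) (e1 : ε ≤ 1) :
    r * a + κ * r ^ 2 * Q - ε * (r * a) ^ 2 ≤ a + κ * Q - ε * a ^ 2 / 2 := by
  have h1 : κ * r ^ 2 * Q ≤ κ * Q := by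
    have := mul_le_mul_of_nonneg_left (pow_le_one₀ (n := 2) r0 r1) (mul_nonneg k0 Q0)
    linarith
  have h2 : ε * a ^ 2 * (1 - r) ≤ (1 - r) * a := by
    have h3 : ε * a ≤ 1 := by
      calc ε * a ≤ 1 * 1 := mul_le_mul e1 a1 a0 zero_le_one
        _ = 1 := one_mul 1
    have := mul_le_mul_of_nonneg_right h3 (mul_nonneg (sub_nonneg.mpr r1) a0)
    linarith
  have h4 : ε * a ^ 2 / 2 ≤ ε * a ^ 2 * (1 - r + r ^ 2) := by
    have : (1 : ℝ) / 2 ≤ 1 - r + r ^ 2 := by nlinarith [sq_nonneg (2 * r - 1)]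
    have := mul_le_mul_of_nonneg_left this (mul_nonneg e0 (sq_nonneg a))
    linarith
  linarith

lemma pot_step {dm : ℝ} (hp : Law p dm) (h0 : -(1 / 2) ≤ l) (h1 : l ≤ 1 / 2) (hd : 0 ≤ d)
    (hdl : d * l ^ 2 ≤ 1) (k0 : 0 ≤ κ) (e0 : 0 ≤ ε) (e1 : ε ≤ 1) {n : ℕ} (h : Drop κ ε p d l n) :
    pot κ p l (n + 1) ≤ pot κ p l n - ε * info p l n ^ 2 / 2 := by
  have ok := tab_ok hp h0 (by linarith : l ≤ 1)
  refine le_trans h ?_
  rw [pot_eq ⟨ok 0, ok⟩ κ n]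
  exact drop_decrease (mul_nonneg hd (sq_nonneg l)) hdl ((ok n).mo_nonneg fun _ _ _ => mA_nonneg)
    ((ok n).mA_le_one) ((ok n).mo_nonneg fun _ _ _ => mQ_nonneg) k0 e0 e1

/-- Vanishing information gives nonreconstruction. -/
theorem nonrec_of_info (hp : Law p d) (h0 : -(1 / 2) ≤ l) (h1 : l ≤ 1)
    (h : Tendsto (info p l) atTop (𝓝 0)) : Nonreconstruction p l := by
  have ok := tab_ok hp h0 h1
  rw [Nonreconstruction, Metric.tendsto_atTop]
  intro η hη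
  obtain ⟨N, hN⟩ := Metric.tendsto_atTop.mp h (η ^ 2) (by positivity)
  refine ⟨N, fun n hn => ?_⟩
  have hinfo := hN n hn
  have nn : 0 ≤ info p l n := (ok n).mo_nonneg fun _ _ _ => mA_nonneg
  rw [Real.dist_eq, sub_zero, abs_of_nonneg nn] at hinfo
  have ha := advantage_le (ok n) (ε := η / 2) (by positivity)
  have hpa : 0 ≤ advantage p l n := tsum_nonneg fun _ => by positivity
  rw [Real.dist_eq, sub_zero, abs_of_nonneg hpa]
  have : info p l n / (6 * (η / 2)) < η / 3 := by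
    rw [div_lt_iff₀ (by positivity)]; linarith
  linarith

/-- The last phase: below a level of the potential at which every step decreases it. -/
theorem nonrec_of_drop {dm : ℝ} (hp : Law p dm) (h0 : -(1 / 2) ≤ l) (h1 : l ≤ 1 / 2) (hd : 0 ≤ d)
    (hdl : d * l ^ 2 ≤ 1) (k0 : 0 ≤ κ) (e0 : 0 < ε) (e1 : ε ≤ 1) (B : ℝ) {n0 : ℕ}
    (hstart : pot κ p l n0 ≤ B)
    (hdrop : ∀ n, pot κ p l n ≤ B → Drop κ ε p d l n) : Nonreconstruction p l := by
  have ok := tab_ok hp h0 (by linarith : l ≤ 1)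
  have nn : ∀ n, 0 ≤ info p l n := fun n => (ok n).mo_nonneg fun _ _ _ => mA_nonneg
  have pn : ∀ n, 0 ≤ pot κ p l n := fun n => by
    rw [pot_eq ⟨ok 0, ok⟩ κ n]
    have := mul_nonneg k0 ((ok n).mo_nonneg (g := mQ) fun _ _ _ => mQ_nonneg)
    have := nn n
    linarith
  set u : ℕ → ℝ := fun j => pot κ p l (n0 + j) with hu
  have below : ∀ j, u j ≤ B := by
    intro j
    induction j with
    | zero => exact hstart
    | succ j ih =>
      have := pot_step hp h0 h1 hd hdl k0 e0.le e1 (hdrop _ ih)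
      have h2 : 0 ≤ ε * info p l (n0 + j) ^ 2 / 2 := by positivity
      change pot κ p l (n0 + j + 1) ≤ B
      change pot κ p l (n0 + j) ≤ B at ih
      linarith
  have step : ∀ j, u (j + 1) ≤ u j - ε * info p l (n0 + j) ^ 2 / 2 := fun j =>
    pot_step hp h0 h1 hd hdl k0 e0.le e1 (hdrop _ (below j))
  have anti : Antitone u := antitone_nat_of_succ_le fun j => by
    have := step j
    have : 0 ≤ ε * info p l (n0 + j) ^ 2 / 2 := by positivity
    linarith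
  obtain ⟨U, hU⟩ : ∃ U, Tendsto u atTop (𝓝 U) :=
    ⟨_, tendsto_atTop_ciInf anti ⟨0, by rintro x ⟨j, rfl⟩; exact pn _⟩⟩
  have hdiff : Tendsto (fun j => 2 * (u j - u (j + 1)) / ε) atTop (𝓝 0) := by
    have := ((hU.sub (hU.comp (tendsto_add_atTop_nat 1))).const_mul 2).div_const ε
    simpa using this
  have hsq : Tendsto (fun j => info p l (n0 + j) ^ 2) atTop (𝓝 0) :=
    squeeze_zero (fun j => sq_nonneg _) (fun j => by
      rw [le_div_iff₀ e0]; linarith [step j]) hdiff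
  have hinfo : Tendsto (fun j => info p l (j + n0)) atTop (𝓝 0) := by
    have := (Real.continuous_sqrt.tendsto 0).comp hsq
    rw [Real.sqrt_zero] at this
    refine this.congr fun j => ?_
    simp only [Function.comp_apply, Real.sqrt_sq (nn _), add_comm j n0]
  exact nonrec_of_info hp h0 (by linarith) ((tendsto_add_atTop_iff_nat n0).mp hinfo)

/-- An earlier phase ends below any level it can still improve. -/
theorem reach_of_drop {dm : ℝ} (hp : Law p dm) (h0 : -(1 / 2) ≤ l) (h1 : l ≤ 1 / 2) (hd : 0 ≤ d)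
    (hdl : d * l ^ 2 ≤ 1) (k0 : 0 ≤ κ) (e0 : 0 < ε) (e1 : ε ≤ 1) {X0 : ℝ} (hX0 : 0 < X0)
    (hdrop : ∀ n, X0 ≤ d * l ^ 2 * info p l n → Drop κ ε p d l n) :
    ∃ n, d * l ^ 2 * info p l n < X0 := by
  by_contra hcon
  push_neg at hcon
  have ok := tab_ok hp h0 (by linarith : l ≤ 1)
  have nn : ∀ n, 0 ≤ info p l n := fun n => (ok n).mo_nonneg fun _ _ _ => mA_nonneg
  have low : ∀ n, X0 ≤ info p l n := fun n => by
    have := mul_le_mul_of_nonneg_right hdl (nn n)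
    have := hcon n
    linarith
  have step : ∀ n, pot κ p l (n + 1) ≤ pot κ p l n - ε * X0 ^ 2 / 2 := fun n => by
    have := pot_step hp h0 h1 hd hdl k0 e0.le e1 (hdrop n (hcon n))
    have h2 := mul_le_mul_of_nonneg_left (pow_le_pow_left₀ hX0.le (low n) 2) e0.le
    linarith
  have bound : ∀ n : ℕ, pot κ p l n ≤ pot κ p l 0 - n * (ε * X0 ^ 2 / 2) := by
    intro n
    induction n with
    | zero => simp
    | succ n ih => push_cast; have := step n; linarith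
  obtain ⟨n, hn⟩ := exists_nat_gt (pot κ p l 0 / (ε * X0 ^ 2 / 2))
  have hpos : 0 < ε * X0 ^ 2 / 2 := by positivity
  rw [div_lt_iff₀ hpos] at hn
  have h3 := bound n
  have h4 : 0 ≤ pot κ p l n := by
    rw [pot_eq ⟨ok 0, ok⟩ κ n]
    have := mul_nonneg k0 ((ok n).mo_nonneg (g := mQ) fun _ _ _ => mQ_nonneg)
    have := nn n
    linarith
  linarith

/-- The scalar inequalities at every positive value suffice. -/
theorem nonrec_poisson_of_scal (hd : 0 < d) (h0 : -(1 / 2) ≤ l) (h1 : l ≤ 1 / 2)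
    (hdl : d * l ^ 2 ≤ 1) (hc : CC κ κ') (k0 : 0 ≤ κ) (k1 : κ ≤ 12 / 25) (k0' : 0 ≤ κ')
    (k1' : κ' ≤ 12 / 25) (e0 : 0 < ε) (e1 : ε ≤ 1)
    (hS : ∀ X : ℝ, 0 ≤ X → X ≤ 1 → Scal κ κ' d (poisSum κ) ε X) :
    Nonreconstruction (poissonLaw d) l := by
  have hp := poisson_law hd
  have ok := tab_ok hp h0 (by linarith : l ≤ 1)
  refine nonrec_of_drop hp h0 h1 hd.le hdl k0 e0 e1 (pot κ (poissonLaw d) l 0) (n0 := 0) le_rfl
    fun n _ => drop_poisson hd h0 h1 hdl hc k0 k1 k0' k1' e0.le n (hS _ ?_ ?_)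
  · exact mul_nonneg (mul_nonneg hd.le (sq_nonneg l)) ((ok n).mo_nonneg fun _ _ _ => mA_nonneg)
  · exact mul_le_one₀ hdl ((ok n).mo_nonneg fun _ _ _ => mA_nonneg) (ok n).mA_le_one

/-- The same for regular trees. -/
theorem nonrec_regular_of_scal {m : ℕ} (hm : 0 < m) (h0 : -(1 / 2) ≤ l) (h1 : l ≤ 1 / 2)
    (hdl : (m : ℝ) * l ^ 2 ≤ 1) (hc : CC κ κ') (k0 : 0 ≤ κ) (k1 : κ ≤ 12 / 25) (k0' : 0 ≤ κ')
    (k1' : κ' ≤ 12 / 25) (e0 : 0 < ε) (e1 : ε ≤ 1)
    (hS : ∀ X : ℝ, 0 ≤ X → X ≤ 1 → Scal κ κ' m (fun σ ν => binSum κ σ ν m) ε X) :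
    Nonreconstruction (regularLaw m) l := by
  have hp := regular_law m
  have ok := tab_ok hp h0 (by linarith : l ≤ 1)
  refine nonrec_of_drop hp h0 h1 (Nat.cast_nonneg m) hdl k0 e0 e1 (pot κ (regularLaw m) l 0)
    (n0 := 0) le_rfl fun n _ => drop_regular hm h0 h1 hdl hc k0 k1 k0' k1' e0.le n (hS _ ?_ ?_)
  · exact mul_nonneg (mul_nonneg (Nat.cast_nonneg m) (sq_nonneg l))
      ((ok n).mo_nonneg fun _ _ _ => mA_nonneg)
  · exact mul_le_one₀ hdl ((ok n).mo_nonneg fun _ _ _ => mA_nonneg) (ok n).mA_le_one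

/-- A scalar value zero needs no certificate. -/
lemma scal_zero_poisson (κ κ' : ℝ) {d : ℝ} (k0 : 0 ≤ κ * d - κ') (k0' : 0 ≤ κ') (ε : ℝ)
    (σ ν : ℝ) (hσ : 0 < σ) (hσν : σ < ν) (hν : ν ≤ 1 / 2) (hdν : 1 ≤ d * ν ^ 2 ∨ ν = 1 / 2) :
    Scal κ κ' d (poisSum κ) ε 0 := by
  refine ⟨σ, ν, hσ, hσν, hν, hdν, fun Mv b wl Qs c b0 wl0 wlM hX _ hlin _ _ c1 => ?_⟩
  have hM0 : 0 ≤ Mv := le_trans wl0 wlM
  have hν0 : 0 < ν := lt_trans hσ hσν
  have p1 := mul_nonneg (sq_nonneg σ) hM0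
  have p2 := mul_nonneg (sq_nonneg ν) b0
  have z1 : Mv = 0 := (mul_eq_zero.mp (by linarith : σ ^ 2 * Mv = 0)).resolve_left (by positivity)
  have z2 : b = 0 := (mul_eq_zero.mp (by linarith : ν ^ 2 * b = 0)).resolve_left (by positivity)
  subst z1 z2
  have hwl : wl = 0 := le_antisymm wlM wl0
  have hQ := hlin 0 0
  simp only [hwl, sub_zero, mul_zero, zero_mul, add_zero, sub_self, ne_eq, OfNat.ofNat_ne_zero,
    not_false_eq_true, zero_pow] at hQ
  have e : poisSum κ σ ν 0 0 = 0 := by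
    rw [poisSum, tsum_eq_single (0, 0)]
    · simp [nodeF_zero]
    · rintro ⟨i, j⟩ h
      rcases Nat.eq_zero_or_pos i with rfl | hi
      · have hj : j ≠ 0 := fun hj => h (by rw [hj])
        simp [zero_pow hj]
      · simp [zero_pow hi.ne']
  rw [e]
  have h1 : 0 ≤ (κ * d - κ' * c) * Qs :=
    mul_nonneg (by nlinarith) hQ
  simp only [mul_zero, add_zero, zero_add, ne_eq, OfNat.ofNat_ne_zero, not_false_eq_true, zero_pow,
    sub_zero]
  exact h1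

end Window

end Vale.Agent.P154
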