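import Vale.Agent.P154.Window.ScalarSmall
import Vale.Agent.P154.Window.Recursion

/-!
Nonreconstruction up to the Kesten-Stigum bound for moderate degrees.
-/

namespace Vale.Agent.P154

namespace Window

lemma scal_zero_regular (κ κ' : ℝ) {n : ℕ} (k0 : 0 ≤ κ * n - κ') (k0' : 0 ≤ κ') (ε : ℝ)
    (σ ν : ℝ) (hσ : 0 < σ) (hσν : σ < ν) (hν : ν ≤ 1 / 2)
    (hdν : 1 ≤ (n : ℝ) * ν ^ 2 ∨ ν = 1 / 2) :
    Scal κ κ' n (fun σ ν => binSum κ σ ν n) ε 0 := by
  refine ⟨σ, ν, hσ, hσν, hν, hdν, fun Mv b wl Qs c b0 wl0 wlM hX _ hlin _ _ c1 => ?_⟩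
  have hM0 : 0 ≤ Mv := le_trans wl0 wlM
  have hν0 : 0 < ν := lt_trans hσ hσν
  have p1 := mul_nonneg (sq_nonneg σ) hM0
  have p2 := mul_nonneg (sq_nonneg ν) b0
  have z1 : Mv = 0 := (mul_eq_zero.mp (by linarith : σ ^ 2 * Mv = 0)).resolve_left (by positivity)
  have z2 : b = 0 := (mul_eq_zero.mp (by linarith : ν ^ 2 * b = 0)).resolve_left (by positivity)
  subst z1 z2
  have hwl : wl = 0 := le_antisymm wlM wl0
  have hQ := hlin 0 0
  simp only [hwl, sub_zero, mul_zero, zero_mul, add_zero, sub_self, ne_eq, OfNat.ofNat_ne_zero,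
    not_false_eq_true, zero_pow] at hQ
  have e : binSum κ σ ν n 0 0 = 0 := by
    rw [binSum]
    refine Finset.sum_eq_zero fun y _ => Finset.sum_eq_zero fun z _ => ?_
    simp only [add_zero, zero_div]
    rcases Nat.eq_zero_or_pos z.1 with h1 | h1
    · rcases Nat.eq_zero_or_pos z.2 with h2 | h2
      · rw [h1, h2, nodeF_zero, mul_zero]
      · simp [zero_pow h2.ne']
    · simp [zero_pow h1.ne']
  simp only [e, mul_zero, add_zero, zero_add, ne_eq, OfNat.ofNat_ne_zero, not_false_eq_true,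
    zero_pow, sub_zero]
  exact mul_nonneg (by nlinarith) hQ

/-- Regular trees of degree at least six. -/
theorem nonrec_regular_high {n : ℕ} (hn : 6 ≤ n) {l : ℝ} (h0 : -(1 / 2) ≤ l) (h1 : l ≤ 1 / 2)
    (hd : (n : ℝ) * l ^ 2 ≤ 1) : Nonreconstruction (regularLaw n) l := by
  have hn' : (6 : ℝ) ≤ n := by exact_mod_cast hn
  refine nonrec_regular_of_scal (κ := 1 / 4) (κ' := 1 / 4) (ε := 1 / 100) (by omega) h0 h1 hd
    cc_quarter (by norm_num) (by norm_num) (by norm_num) (by norm_num) (by norm_num) (by norm_num)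
    fun X x0 x1 => ?_
  rcases eq_or_lt_of_le x0 with hx | hx
  · subst hx
    exact scal_zero_regular _ _ (by linarith) (by norm_num) _ (1 / 4) (1 / 2) (by norm_num)
      (by norm_num) le_rfl (Or.inr rfl)
  · rcases eq_or_lt_of_le hn with h | h
    · subst h; exact scalar_regular_six hx x1
    rcases eq_or_lt_of_le (show 7 ≤ n from h) with h' | h'
    · subst h'; exact scalar_regular_seven hx x1
    exact scalar_regular h' hx x1

/-- Poisson trees of mean at least `27/5`. -/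
theorem nonrec_poisson_high {d : ℝ} (hd6 : 27 / 5 ≤ d) {l : ℝ} (h0 : -(1 / 2) ≤ l) (h1 : l ≤ 1 / 2)
    (hd : d * l ^ 2 ≤ 1) : Nonreconstruction (poissonLaw d) l := by
  refine nonrec_poisson_of_scal (κ := 1 / 4) (κ' := 1 / 4) (ε := 1 / 100) (by linarith) h0 h1 hd
    cc_quarter (by norm_num) (by norm_num) (by norm_num) (by norm_num) (by norm_num) (by norm_num)
    fun X x0 x1 => ?_
  rcases eq_or_lt_of_le x0 with hx | hx
  · subst hx
    exact scal_zero_poisson _ _ (by linarith) (by norm_num) _ (1 / 4) (1 / 2) (by norm_num)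
      (by norm_num) le_rfl (Or.inr rfl)
  · exact scalar_poisson_low hd6 hx x1

end Window

end Vale.Agent.P154
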