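import Vale.Agent.P154.Window.Five
import Vale.Agent.P154.Window.Main
import Vale.Agent.P154.Window.Four.FiveReach

/-!
Nonreconstruction on the tree with five children per vertex.
-/

namespace Vale.Agent.P154

namespace Window

/-- Five children per vertex, up to the Kesten-Stigum bound. -/
theorem nonrec_five {l : ℝ} (h0 : -(1 / 2) ≤ l) (h1 : l ≤ 0) (hd : 5 * l ^ 2 ≤ 1) :
    Nonreconstruction (regularLaw 5) l := by
  refine nonrec_regular_five (κ := 1 / 4) (κ' := 1 / 4) (ε := 1 / 100) (B := 2 / 25) h0 h1 hd
    cc_quarter (by norm_num) (by norm_num) (by norm_num) (by norm_num) (by norm_num) (by norm_num)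
    five_reach fun X x0 xB => ?_
  rcases eq_or_lt_of_le x0 with hx | hx
  · subst hx
    exact scal_zero_regular _ _ (by norm_num) (by norm_num) _ (1 / 4) (1 / 2) (by norm_num)
      (by norm_num) le_rfl (Or.inr rfl)
  · exact scalar_regular_five hx xB

end Window

end Vale.Agent.P154
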