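import Vale.Agent.P154.Window.Assembly
import Vale.Agent.P154.Window.Main

/-!
Nonreconstruction on trees with at most four children per vertex, from one depth with a small
potential.
-/

namespace Vale.Agent.P154

namespace Window

/-- At most four children per vertex, from a small potential at degree four and `-1/2`. -/
theorem nonrec_four_of_reach
    (hreach : ∃ n, mo (mPhi (1 / 4)) (tab (regularLaw 4) (-(1 / 2)) n) ≤ 1 / 25)
    {m : ℕ} (hm : m ≤ 4) {l : ℝ} (h0 : -(1 / 2) ≤ l) (h1 : l ≤ 0) :
    Nonreconstruction (regularLaw m) l := by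
  refine nonrec_regular_low (κ := 1 / 4) (κ' := 1 / 4) (ε := 1 / 100) (B := 1 / 25) hm h0 h1
    cc_quarter (by norm_num) (by norm_num) (by norm_num) (by norm_num) (by norm_num) (by norm_num)
    hreach fun X x0 xB x1 => ?_
  rcases eq_or_lt_of_le x0 with hx | hx
  · subst hx
    have h := scal_zero_regular (1 / 4) (1 / 4) (n := 4) (by norm_num) (by norm_num) (1 / 100)
      (1 / 4) (1 / 2) (by norm_num) (by norm_num) le_rfl (Or.inr rfl)
    norm_num at h ⊢
    exact h
  · exact scalar_regular_four hx xB

end Window

end Vale.Agent.P154
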