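import Vale.Agent.P154.Window.ScalarTable

/-!
The composition lists for the scalar tables.
-/

namespace Vale.Agent.P154

namespace Window

/-- Composition lists. -/
def lxsData : List (List (Cnt × ℕ)) :=
  [[((0, 0, 0), 1)],
  [((1, 0, 0), 3)],
  [((1, 1, 0), 6), ((2, 0, 0), 3)],
  [((2, 1, 0), 18), ((3, 0, 0), 3), ((1, 1, 1), 6)],
  [((2, 1, 1), 36), ((3, 1, 0), 24), ((4, 0, 0), 3), ((2, 2, 0), 18)],
  [((2, 2, 1), 90), ((3, 2, 0), 60), ((4, 1, 0), 30), ((5, 0, 0), 3), ((3, 1, 1), 60)],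
  [((3, 2, 1), 360), ((4, 1, 1), 90), ((5, 1, 0), 36), ((6, 0, 0), 3), ((4, 2, 0), 90), ((3, 3, 0),
  60), ((2, 2, 2), 90)],
  [((3, 2, 2), 630), ((3, 3, 1), 420), ((4, 3, 0), 210), ((4, 2, 1), 630), ((5, 2, 0), 126), ((6, 1,
  0), 42), ((7, 0, 0), 3), ((5, 1, 1), 126)],
  [((5, 2, 1), 1008), ((6, 1, 1), 168), ((7, 1, 0), 48), ((8, 0, 0), 3), ((6, 2, 0), 168), ((5, 3, 0),
  336), ((4, 2, 2), 1260), ((4, 3, 1), 1680), ((4, 4, 0), 210), ((3, 3, 2), 1680)],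
  [((3, 3, 3), 1680), ((4, 3, 2), 7560), ((4, 4, 1), 1890), ((5, 4, 0), 756), ((5, 3, 1), 3024), ((5,
  2, 2), 2268), ((6, 3, 0), 504), ((6, 2, 1), 1512), ((7, 2, 0), 216), ((8, 1, 0), 54), ((9, 0, 0),
  3), ((7, 1, 1), 216)],
  [((7, 2, 1), 2160), ((8, 1, 1), 270), ((9, 1, 0), 60), ((10, 0, 0), 3), ((8, 2, 0), 270), ((7, 3,
  0), 720), ((6, 2, 2), 3780), ((6, 3, 1), 5040), ((6, 4, 0), 1260), ((5, 3, 2), 15120), ((5, 4, 1),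
  7560), ((5, 5, 0), 756), ((4, 4, 2), 9450), ((4, 3, 3), 12600)],
  [((4, 4, 3), 34650), ((5, 3, 3), 27720), ((5, 4, 2), 41580), ((5, 5, 1), 8316), ((6, 5, 0), 2772),
  ((6, 4, 1), 13860), ((6, 3, 2), 27720), ((7, 4, 0), 1980), ((7, 3, 1), 7920), ((7, 2, 2), 5940),
  ((8, 3, 0), 990), ((8, 2, 1), 2970), ((9, 2, 0), 330), ((10, 1, 0), 66), ((11, 0, 0), 3), ((9, 1,
  1), 330)],
  [((9, 2, 1), 3960), ((10, 1, 1), 396), ((11, 1, 0), 72), ((12, 0, 0), 3), ((10, 2, 0), 396), ((9, 3,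
  0), 1320), ((8, 2, 2), 8910), ((8, 3, 1), 11880), ((8, 4, 0), 2970), ((7, 3, 2), 47520), ((7, 4,
  1), 23760), ((7, 5, 0), 4752), ((6, 3, 3), 55440), ((6, 4, 2), 83160), ((6, 5, 1), 33264), ((6, 6,
  0), 2772), ((5, 5, 2), 49896), ((5, 4, 3), 166320), ((4, 4, 4), 34650)],
  [((5, 4, 4), 270270), ((5, 5, 3), 216216), ((6, 4, 3), 360360), ((6, 5, 2), 216216), ((6, 6, 1),
  36036), ((7, 6, 0), 10296), ((7, 5, 1), 61776), ((7, 4, 2), 154440), ((7, 3, 3), 102960), ((8, 5,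
  0), 7722), ((8, 4, 1), 38610), ((8, 3, 2), 77220), ((9, 4, 0), 4290), ((9, 3, 1), 17160), ((9, 2,
  2), 12870), ((10, 3, 0), 1716), ((10, 2, 1), 5148), ((11, 2, 0), 468), ((12, 1, 0), 78), ((13, 0,
  0), 3), ((11, 1, 1), 468)],
  [((11, 2, 1), 6552), ((12, 1, 1), 546), ((13, 1, 0), 84), ((14, 0, 0), 3), ((12, 2, 0), 546), ((11,
  3, 0), 2184), ((10, 2, 2), 18018), ((10, 3, 1), 24024), ((10, 4, 0), 6006), ((9, 3, 2), 120120),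
  ((9, 4, 1), 60060), ((9, 5, 0), 12012), ((8, 3, 3), 180180), ((8, 4, 2), 270270), ((8, 5, 1),
  108108), ((8, 6, 0), 18018), ((7, 4, 3), 720720), ((7, 5, 2), 432432), ((7, 6, 1), 144144), ((7,
  7, 0), 10296), ((6, 6, 2), 252252), ((6, 5, 3), 1009008), ((6, 4, 4), 630630), ((5, 5, 4),
  756756)],
  [((5, 5, 5), 756756), ((6, 5, 4), 3783780), ((7, 4, 4), 1351350), ((6, 6, 3), 1261260), ((7, 5, 3),
  2162160), ((7, 6, 2), 1081080), ((7, 7, 1), 154440), ((8, 7, 0), 38610), ((8, 6, 1), 270270), ((8,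
  5, 2), 810810), ((8, 4, 3), 1351350), ((9, 6, 0), 30030), ((9, 5, 1), 180180), ((9, 4, 2),
  450450), ((9, 3, 3), 300300), ((10, 5, 0), 18018), ((10, 4, 1), 90090), ((10, 3, 2), 180180),
  ((11, 4, 0), 8190), ((11, 3, 1), 32760), ((11, 2, 2), 24570), ((12, 3, 0), 2730), ((12, 2, 1),
  8190), ((13, 2, 0), 630), ((14, 1, 0), 90), ((15, 0, 0), 3), ((13, 1, 1), 630)],
  [((13, 2, 1), 10080), ((14, 1, 1), 720), ((15, 1, 0), 96), ((16, 0, 0), 3), ((14, 2, 0), 720), ((13,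
  3, 0), 3360), ((12, 2, 2), 32760), ((12, 3, 1), 43680), ((12, 4, 0), 10920), ((11, 3, 2), 262080),
  ((11, 4, 1), 131040), ((11, 5, 0), 26208), ((10, 3, 3), 480480), ((10, 4, 2), 720720), ((10, 5,
  1), 288288), ((10, 6, 0), 48048), ((9, 4, 3), 2402400), ((9, 5, 2), 1441440), ((9, 6, 1), 480480),
  ((9, 7, 0), 68640), ((8, 4, 4), 2702700), ((8, 5, 3), 4324320), ((8, 6, 2), 2162160), ((8, 7, 1),
  617760), ((8, 8, 0), 38610), ((7, 7, 2), 1235520), ((7, 6, 3), 5765760), ((7, 5, 4), 8648640),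
  ((6, 6, 4), 5045040), ((6, 5, 5), 6054048)]]

/-- Composition lists. -/
def lysData : List (List (Cnt × ℕ)) :=
  [[((0, 0, 0), 1)],
  [((0, 0, 1), 1), ((0, 1, 0), 1), ((1, 0, 0), 1)],
  [((1, 0, 1), 2), ((1, 1, 0), 2), ((2, 0, 0), 1), ((0, 1, 1), 2), ((0, 2, 0), 1), ((0, 0, 2), 1)],
  [((0, 0, 3), 1), ((0, 1, 2), 3), ((1, 0, 2), 3), ((0, 2, 1), 3), ((0, 3, 0), 1), ((1, 2, 0), 3),
  ((1, 1, 1), 6), ((2, 0, 1), 3), ((2, 1, 0), 3), ((3, 0, 0), 1)],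
  [((3, 0, 1), 4), ((3, 1, 0), 4), ((4, 0, 0), 1), ((2, 1, 1), 12), ((2, 2, 0), 6), ((2, 0, 2), 6),
  ((1, 1, 2), 12), ((1, 2, 1), 12), ((1, 3, 0), 4), ((0, 3, 1), 4), ((0, 4, 0), 1), ((0, 2, 2), 6),
  ((1, 0, 3), 4), ((0, 1, 3), 4), ((0, 0, 4), 1)],
  [((0, 0, 5), 1), ((0, 1, 4), 5), ((1, 0, 4), 5), ((0, 2, 3), 10), ((1, 1, 3), 20), ((2, 0, 3), 10),
  ((0, 3, 2), 10), ((1, 2, 2), 30), ((0, 4, 1), 5), ((0, 5, 0), 1), ((1, 4, 0), 5), ((1, 3, 1), 20),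
  ((2, 3, 0), 10), ((2, 2, 1), 30), ((2, 1, 2), 30), ((3, 0, 2), 10), ((3, 2, 0), 10), ((3, 1, 1),
  20), ((4, 0, 1), 5), ((4, 1, 0), 5), ((5, 0, 0), 1)],
  [((5, 0, 1), 6), ((5, 1, 0), 6), ((6, 0, 0), 1), ((4, 1, 1), 30), ((4, 2, 0), 15), ((4, 0, 2), 15),
  ((3, 1, 2), 60), ((3, 2, 1), 60), ((3, 3, 0), 20), ((3, 0, 3), 20), ((2, 1, 3), 60), ((2, 2, 2),
  90), ((2, 3, 1), 60), ((2, 4, 0), 15), ((1, 3, 2), 60), ((1, 4, 1), 30), ((1, 5, 0), 6), ((0, 5,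
  1), 6), ((0, 6, 0), 1), ((0, 4, 2), 15), ((1, 2, 3), 60), ((0, 3, 3), 20), ((2, 0, 4), 15), ((1,
  1, 4), 30), ((0, 2, 4), 15), ((1, 0, 5), 6), ((0, 1, 5), 6), ((0, 0, 6), 1)],
  [((0, 0, 7), 1), ((0, 1, 6), 7), ((1, 0, 6), 7), ((0, 2, 5), 21), ((1, 1, 5), 42), ((2, 0, 5), 21),
  ((0, 3, 4), 35), ((1, 2, 4), 105), ((2, 1, 4), 105), ((3, 0, 4), 35), ((0, 4, 3), 35), ((1, 3, 3),
  140), ((2, 2, 3), 210), ((0, 5, 2), 21), ((1, 4, 2), 105), ((0, 6, 1), 7), ((0, 7, 0), 1), ((1, 6,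
  0), 7), ((1, 5, 1), 42), ((2, 5, 0), 21), ((2, 4, 1), 105), ((2, 3, 2), 210), ((3, 4, 0), 35),
  ((3, 3, 1), 140), ((3, 2, 2), 210), ((3, 1, 3), 140), ((4, 0, 3), 35), ((4, 3, 0), 35), ((4, 2,
  1), 105), ((4, 1, 2), 105), ((5, 0, 2), 21), ((5, 2, 0), 21), ((5, 1, 1), 42), ((6, 0, 1), 7),
  ((6, 1, 0), 7), ((7, 0, 0), 1)],
  [((7, 0, 1), 8), ((7, 1, 0), 8), ((8, 0, 0), 1), ((6, 1, 1), 56), ((6, 2, 0), 28), ((6, 0, 2), 28),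
  ((5, 1, 2), 168), ((5, 2, 1), 168), ((5, 3, 0), 56), ((5, 0, 3), 56), ((4, 1, 3), 280), ((4, 2,
  2), 420), ((4, 3, 1), 280), ((4, 4, 0), 70), ((4, 0, 4), 70), ((3, 1, 4), 280), ((3, 2, 3), 560),
  ((3, 3, 2), 560), ((3, 4, 1), 280), ((3, 5, 0), 56), ((2, 3, 3), 560), ((2, 4, 2), 420), ((2, 5,
  1), 168), ((2, 6, 0), 28), ((1, 5, 2), 168), ((1, 6, 1), 56), ((1, 7, 0), 8), ((0, 7, 1), 8), ((0,
  8, 0), 1), ((0, 6, 2), 28), ((1, 4, 3), 280), ((0, 5, 3), 56), ((2, 2, 4), 420), ((1, 3, 4), 280),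
  ((0, 4, 4), 70), ((3, 0, 5), 56), ((2, 1, 5), 168), ((1, 2, 5), 168), ((0, 3, 5), 56), ((2, 0, 6),
  28), ((1, 1, 6), 56), ((0, 2, 6), 28), ((1, 0, 7), 8), ((0, 1, 7), 8), ((0, 0, 8), 1)],
  [((0, 0, 9), 1), ((0, 1, 8), 9), ((1, 0, 8), 9), ((0, 2, 7), 36), ((1, 1, 7), 72), ((2, 0, 7), 36),
  ((0, 3, 6), 84), ((1, 2, 6), 252), ((2, 1, 6), 252), ((3, 0, 6), 84), ((0, 4, 5), 126), ((1, 3,
  5), 504), ((2, 2, 5), 756), ((3, 1, 5), 504), ((4, 0, 5), 126), ((0, 5, 4), 126), ((1, 4, 4),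
  630), ((2, 3, 4), 1260), ((3, 2, 4), 1260), ((0, 6, 3), 84), ((1, 5, 3), 504), ((2, 4, 3), 1260),
  ((0, 7, 2), 36), ((1, 6, 2), 252), ((0, 8, 1), 9), ((0, 9, 0), 1), ((1, 8, 0), 9), ((1, 7, 1),
  72), ((2, 7, 0), 36), ((2, 6, 1), 252), ((2, 5, 2), 756), ((3, 6, 0), 84), ((3, 5, 1), 504), ((3,
  4, 2), 1260), ((3, 3, 3), 1680), ((4, 5, 0), 126), ((4, 4, 1), 630), ((4, 3, 2), 1260), ((4, 2,
  3), 1260), ((4, 1, 4), 630), ((5, 0, 4), 126), ((5, 4, 0), 126), ((5, 3, 1), 504), ((5, 2, 2),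
  756), ((5, 1, 3), 504), ((6, 0, 3), 84), ((6, 3, 0), 84), ((6, 2, 1), 252), ((6, 1, 2), 252), ((7,
  0, 2), 36), ((7, 2, 0), 36), ((7, 1, 1), 72), ((8, 0, 1), 9), ((8, 1, 0), 9), ((9, 0, 0), 1)],
  [((9, 0, 1), 10), ((9, 1, 0), 10), ((10, 0, 0), 1), ((8, 1, 1), 90), ((8, 2, 0), 45), ((8, 0, 2),
  45), ((7, 1, 2), 360), ((7, 2, 1), 360), ((7, 3, 0), 120), ((7, 0, 3), 120), ((6, 1, 3), 840),
  ((6, 2, 2), 1260), ((6, 3, 1), 840), ((6, 4, 0), 210), ((6, 0, 4), 210), ((5, 1, 4), 1260), ((5,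
  2, 3), 2520), ((5, 3, 2), 2520), ((5, 4, 1), 1260), ((5, 5, 0), 252), ((5, 0, 5), 252), ((4, 1,
  5), 1260), ((4, 2, 4), 3150), ((4, 3, 3), 4200), ((4, 4, 2), 3150), ((4, 5, 1), 1260), ((4, 6, 0),
  210), ((3, 3, 4), 4200), ((3, 4, 3), 4200), ((3, 5, 2), 2520), ((3, 6, 1), 840), ((3, 7, 0), 120),
  ((2, 5, 3), 2520), ((2, 6, 2), 1260), ((2, 7, 1), 360), ((2, 8, 0), 45), ((1, 7, 2), 360), ((1, 8,
  1), 90), ((1, 9, 0), 10), ((0, 9, 1), 10), ((0, 10, 0), 1), ((0, 8, 2), 45), ((1, 6, 3), 840),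
  ((0, 7, 3), 120), ((2, 4, 4), 3150), ((1, 5, 4), 1260), ((0, 6, 4), 210), ((3, 2, 5), 2520), ((2,
  3, 5), 2520), ((1, 4, 5), 1260), ((0, 5, 5), 252), ((4, 0, 6), 210), ((3, 1, 6), 840), ((2, 2, 6),
  1260), ((1, 3, 6), 840), ((0, 4, 6), 210), ((3, 0, 7), 120), ((2, 1, 7), 360), ((1, 2, 7), 360),
  ((0, 3, 7), 120), ((2, 0, 8), 45), ((1, 1, 8), 90), ((0, 2, 8), 45), ((1, 0, 9), 10), ((0, 1, 9),
  10), ((0, 0, 10), 1)],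
  [((0, 0, 11), 1), ((0, 1, 10), 11), ((1, 0, 10), 11), ((0, 2, 9), 55), ((1, 1, 9), 110), ((2, 0, 9),
  55), ((0, 3, 8), 165), ((1, 2, 8), 495), ((2, 1, 8), 495), ((3, 0, 8), 165), ((0, 4, 7), 330),
  ((1, 3, 7), 1320), ((2, 2, 7), 1980), ((3, 1, 7), 1320), ((4, 0, 7), 330), ((0, 5, 6), 462), ((1,
  4, 6), 2310), ((2, 3, 6), 4620), ((3, 2, 6), 4620), ((4, 1, 6), 2310), ((5, 0, 6), 462), ((0, 6,
  5), 462), ((1, 5, 5), 2772), ((2, 4, 5), 6930), ((3, 3, 5), 9240), ((4, 2, 5), 6930), ((0, 7, 4),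
  330), ((1, 6, 4), 2310), ((2, 5, 4), 6930), ((3, 4, 4), 11550), ((0, 8, 3), 165), ((1, 7, 3),
  1320), ((2, 6, 3), 4620), ((0, 9, 2), 55), ((1, 8, 2), 495), ((0, 10, 1), 11), ((0, 11, 0), 1),
  ((1, 10, 0), 11), ((1, 9, 1), 110), ((2, 9, 0), 55), ((2, 8, 1), 495), ((2, 7, 2), 1980), ((3, 8,
  0), 165), ((3, 7, 1), 1320), ((3, 6, 2), 4620), ((3, 5, 3), 9240), ((4, 7, 0), 330), ((4, 6, 1),
  2310), ((4, 5, 2), 6930), ((4, 4, 3), 11550), ((4, 3, 4), 11550), ((5, 6, 0), 462), ((5, 5, 1),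
  2772), ((5, 4, 2), 6930), ((5, 3, 3), 9240), ((5, 2, 4), 6930), ((5, 1, 5), 2772), ((6, 0, 5),
  462), ((6, 5, 0), 462), ((6, 4, 1), 2310), ((6, 3, 2), 4620), ((6, 2, 3), 4620), ((6, 1, 4),
  2310), ((7, 0, 4), 330), ((7, 4, 0), 330), ((7, 3, 1), 1320), ((7, 2, 2), 1980), ((7, 1, 3),
  1320), ((8, 0, 3), 165), ((8, 3, 0), 165), ((8, 2, 1), 495), ((8, 1, 2), 495), ((9, 0, 2), 55),
  ((9, 2, 0), 55), ((9, 1, 1), 110), ((10, 0, 1), 11), ((10, 1, 0), 11), ((11, 0, 0), 1)],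
  [((11, 0, 1), 12), ((11, 1, 0), 12), ((12, 0, 0), 1), ((10, 1, 1), 132), ((10, 2, 0), 66), ((10, 0,
  2), 66), ((9, 1, 2), 660), ((9, 2, 1), 660), ((9, 3, 0), 220), ((9, 0, 3), 220), ((8, 1, 3),
  1980), ((8, 2, 2), 2970), ((8, 3, 1), 1980), ((8, 4, 0), 495), ((8, 0, 4), 495), ((7, 1, 4),
  3960), ((7, 2, 3), 7920), ((7, 3, 2), 7920), ((7, 4, 1), 3960), ((7, 5, 0), 792), ((7, 0, 5),
  792), ((6, 1, 5), 5544), ((6, 2, 4), 13860), ((6, 3, 3), 18480), ((6, 4, 2), 13860), ((6, 5, 1),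
  5544), ((6, 6, 0), 924), ((6, 0, 6), 924), ((5, 1, 6), 5544), ((5, 2, 5), 16632), ((5, 3, 4),
  27720), ((5, 4, 3), 27720), ((5, 5, 2), 16632), ((5, 6, 1), 5544), ((5, 7, 0), 792), ((4, 3, 5),
  27720), ((4, 4, 4), 34650), ((4, 5, 3), 27720), ((4, 6, 2), 13860), ((4, 7, 1), 3960), ((4, 8, 0),
  495), ((3, 5, 4), 27720), ((3, 6, 3), 18480), ((3, 7, 2), 7920), ((3, 8, 1), 1980), ((3, 9, 0),
  220), ((2, 7, 3), 7920), ((2, 8, 2), 2970), ((2, 9, 1), 660), ((2, 10, 0), 66), ((1, 9, 2), 660),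
  ((1, 10, 1), 132), ((1, 11, 0), 12), ((0, 11, 1), 12), ((0, 12, 0), 1), ((0, 10, 2), 66), ((1, 8,
  3), 1980), ((0, 9, 3), 220), ((2, 6, 4), 13860), ((1, 7, 4), 3960), ((0, 8, 4), 495), ((3, 4, 5),
  27720), ((2, 5, 5), 16632), ((1, 6, 5), 5544), ((0, 7, 5), 792), ((4, 2, 6), 13860), ((3, 3, 6),
  18480), ((2, 4, 6), 13860), ((1, 5, 6), 5544), ((0, 6, 6), 924), ((5, 0, 7), 792), ((4, 1, 7),
  3960), ((3, 2, 7), 7920), ((2, 3, 7), 7920), ((1, 4, 7), 3960), ((0, 5, 7), 792), ((4, 0, 8),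
  495), ((3, 1, 8), 1980), ((2, 2, 8), 2970), ((1, 3, 8), 1980), ((0, 4, 8), 495), ((3, 0, 9), 220),
  ((2, 1, 9), 660), ((1, 2, 9), 660), ((0, 3, 9), 220), ((2, 0, 10), 66), ((1, 1, 10), 132), ((0, 2,
  10), 66), ((1, 0, 11), 12), ((0, 1, 11), 12), ((0, 0, 12), 1)],
  [((0, 0, 13), 1), ((0, 1, 12), 13), ((1, 0, 12), 13), ((0, 2, 11), 78), ((1, 1, 11), 156), ((2, 0,
  11), 78), ((0, 3, 10), 286), ((1, 2, 10), 858), ((2, 1, 10), 858), ((3, 0, 10), 286), ((0, 4, 9),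
  715), ((1, 3, 9), 2860), ((2, 2, 9), 4290), ((3, 1, 9), 2860), ((4, 0, 9), 715), ((0, 5, 8),
  1287), ((1, 4, 8), 6435), ((2, 3, 8), 12870), ((3, 2, 8), 12870), ((4, 1, 8), 6435), ((5, 0, 8),
  1287), ((0, 6, 7), 1716), ((1, 5, 7), 10296), ((2, 4, 7), 25740), ((3, 3, 7), 34320), ((4, 2, 7),
  25740), ((5, 1, 7), 10296), ((6, 0, 7), 1716), ((0, 7, 6), 1716), ((1, 6, 6), 12012), ((2, 5, 6),
  36036), ((3, 4, 6), 60060), ((4, 3, 6), 60060), ((5, 2, 6), 36036), ((0, 8, 5), 1287), ((1, 7, 5),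
  10296), ((2, 6, 5), 36036), ((3, 5, 5), 72072), ((4, 4, 5), 90090), ((0, 9, 4), 715), ((1, 8, 4),
  6435), ((2, 7, 4), 25740), ((3, 6, 4), 60060), ((0, 10, 3), 286), ((1, 9, 3), 2860), ((2, 8, 3),
  12870), ((0, 11, 2), 78), ((1, 10, 2), 858), ((0, 12, 1), 13), ((0, 13, 0), 1), ((1, 12, 0), 13),
  ((1, 11, 1), 156), ((2, 11, 0), 78), ((2, 10, 1), 858), ((2, 9, 2), 4290), ((3, 10, 0), 286), ((3,
  9, 1), 2860), ((3, 8, 2), 12870), ((3, 7, 3), 34320), ((4, 9, 0), 715), ((4, 8, 1), 6435), ((4, 7,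
  2), 25740), ((4, 6, 3), 60060), ((4, 5, 4), 90090), ((5, 8, 0), 1287), ((5, 7, 1), 10296), ((5, 6,
  2), 36036), ((5, 5, 3), 72072), ((5, 4, 4), 90090), ((5, 3, 5), 72072), ((6, 7, 0), 1716), ((6, 6,
  1), 12012), ((6, 5, 2), 36036), ((6, 4, 3), 60060), ((6, 3, 4), 60060), ((6, 2, 5), 36036), ((6,
  1, 6), 12012), ((7, 0, 6), 1716), ((7, 6, 0), 1716), ((7, 5, 1), 10296), ((7, 4, 2), 25740), ((7,
  3, 3), 34320), ((7, 2, 4), 25740), ((7, 1, 5), 10296), ((8, 0, 5), 1287), ((8, 5, 0), 1287), ((8,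
  4, 1), 6435), ((8, 3, 2), 12870), ((8, 2, 3), 12870), ((8, 1, 4), 6435), ((9, 0, 4), 715), ((9, 4,
  0), 715), ((9, 3, 1), 2860), ((9, 2, 2), 4290), ((9, 1, 3), 2860), ((10, 0, 3), 286), ((10, 3, 0),
  286), ((10, 2, 1), 858), ((10, 1, 2), 858), ((11, 0, 2), 78), ((11, 2, 0), 78), ((11, 1, 1), 156),
  ((12, 0, 1), 13), ((12, 1, 0), 13), ((13, 0, 0), 1)],
  [((13, 0, 1), 14), ((13, 1, 0), 14), ((14, 0, 0), 1), ((12, 1, 1), 182), ((12, 2, 0), 91), ((12, 0,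
  2), 91), ((11, 1, 2), 1092), ((11, 2, 1), 1092), ((11, 3, 0), 364), ((11, 0, 3), 364), ((10, 1,
  3), 4004), ((10, 2, 2), 6006), ((10, 3, 1), 4004), ((10, 4, 0), 1001), ((10, 0, 4), 1001), ((9, 1,
  4), 10010), ((9, 2, 3), 20020), ((9, 3, 2), 20020), ((9, 4, 1), 10010), ((9, 5, 0), 2002), ((9, 0,
  5), 2002), ((8, 1, 5), 18018), ((8, 2, 4), 45045), ((8, 3, 3), 60060), ((8, 4, 2), 45045), ((8, 5,
  1), 18018), ((8, 6, 0), 3003), ((8, 0, 6), 3003), ((7, 1, 6), 24024), ((7, 2, 5), 72072), ((7, 3,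
  4), 120120), ((7, 4, 3), 120120), ((7, 5, 2), 72072), ((7, 6, 1), 24024), ((7, 7, 0), 3432), ((7,
  0, 7), 3432), ((6, 1, 7), 24024), ((6, 2, 6), 84084), ((6, 3, 5), 168168), ((6, 4, 4), 210210),
  ((6, 5, 3), 168168), ((6, 6, 2), 84084), ((6, 7, 1), 24024), ((6, 8, 0), 3003), ((5, 3, 6),
  168168), ((5, 4, 5), 252252), ((5, 5, 4), 252252), ((5, 6, 3), 168168), ((5, 7, 2), 72072), ((5,
  8, 1), 18018), ((5, 9, 0), 2002), ((4, 5, 5), 252252), ((4, 6, 4), 210210), ((4, 7, 3), 120120),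
  ((4, 8, 2), 45045), ((4, 9, 1), 10010), ((4, 10, 0), 1001), ((3, 7, 4), 120120), ((3, 8, 3),
  60060), ((3, 9, 2), 20020), ((3, 10, 1), 4004), ((3, 11, 0), 364), ((2, 9, 3), 20020), ((2, 10,
  2), 6006), ((2, 11, 1), 1092), ((2, 12, 0), 91), ((1, 11, 2), 1092), ((1, 12, 1), 182), ((1, 13,
  0), 14), ((0, 13, 1), 14), ((0, 14, 0), 1), ((0, 12, 2), 91), ((1, 10, 3), 4004), ((0, 11, 3),
  364), ((2, 8, 4), 45045), ((1, 9, 4), 10010), ((0, 10, 4), 1001), ((3, 6, 5), 168168), ((2, 7, 5),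
  72072), ((1, 8, 5), 18018), ((0, 9, 5), 2002), ((4, 4, 6), 210210), ((3, 5, 6), 168168), ((2, 6,
  6), 84084), ((1, 7, 6), 24024), ((0, 8, 6), 3003), ((5, 2, 7), 72072), ((4, 3, 7), 120120), ((3,
  4, 7), 120120), ((2, 5, 7), 72072), ((1, 6, 7), 24024), ((0, 7, 7), 3432), ((6, 0, 8), 3003), ((5,
  1, 8), 18018), ((4, 2, 8), 45045), ((3, 3, 8), 60060), ((2, 4, 8), 45045), ((1, 5, 8), 18018),
  ((0, 6, 8), 3003), ((5, 0, 9), 2002), ((4, 1, 9), 10010), ((3, 2, 9), 20020), ((2, 3, 9), 20020),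
  ((1, 4, 9), 10010), ((0, 5, 9), 2002), ((4, 0, 10), 1001), ((3, 1, 10), 4004), ((2, 2, 10), 6006),
  ((1, 3, 10), 4004), ((0, 4, 10), 1001), ((3, 0, 11), 364), ((2, 1, 11), 1092), ((1, 2, 11), 1092),
  ((0, 3, 11), 364), ((2, 0, 12), 91), ((1, 1, 12), 182), ((0, 2, 12), 91), ((1, 0, 13), 14), ((0,
  1, 13), 14), ((0, 0, 14), 1)],
  [((0, 0, 15), 1), ((0, 1, 14), 15), ((1, 0, 14), 15), ((0, 2, 13), 105), ((1, 1, 13), 210), ((2, 0,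
  13), 105), ((0, 3, 12), 455), ((1, 2, 12), 1365), ((2, 1, 12), 1365), ((3, 0, 12), 455), ((0, 4,
  11), 1365), ((1, 3, 11), 5460), ((2, 2, 11), 8190), ((3, 1, 11), 5460), ((4, 0, 11), 1365), ((0,
  5, 10), 3003), ((1, 4, 10), 15015), ((2, 3, 10), 30030), ((3, 2, 10), 30030), ((4, 1, 10), 15015),
  ((5, 0, 10), 3003), ((0, 6, 9), 5005), ((1, 5, 9), 30030), ((2, 4, 9), 75075), ((3, 3, 9),
  100100), ((4, 2, 9), 75075), ((5, 1, 9), 30030), ((6, 0, 9), 5005), ((0, 7, 8), 6435), ((1, 6, 8),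
  45045), ((2, 5, 8), 135135), ((3, 4, 8), 225225), ((4, 3, 8), 225225), ((5, 2, 8), 135135), ((6,
  1, 8), 45045), ((7, 0, 8), 6435), ((0, 8, 7), 6435), ((1, 7, 7), 51480), ((2, 6, 7), 180180), ((3,
  5, 7), 360360), ((4, 4, 7), 450450), ((5, 3, 7), 360360), ((6, 2, 7), 180180), ((0, 9, 6), 5005),
  ((1, 8, 6), 45045), ((2, 7, 6), 180180), ((3, 6, 6), 420420), ((4, 5, 6), 630630), ((5, 4, 6),
  630630), ((0, 10, 5), 3003), ((1, 9, 5), 30030), ((2, 8, 5), 135135), ((3, 7, 5), 360360), ((4, 6,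
  5), 630630), ((0, 11, 4), 1365), ((1, 10, 4), 15015), ((2, 9, 4), 75075), ((3, 8, 4), 225225),
  ((0, 12, 3), 455), ((1, 11, 3), 5460), ((2, 10, 3), 30030), ((0, 13, 2), 105), ((1, 12, 2), 1365),
  ((0, 14, 1), 15), ((0, 15, 0), 1), ((1, 14, 0), 15), ((1, 13, 1), 210), ((2, 13, 0), 105), ((2,
  12, 1), 1365), ((2, 11, 2), 8190), ((3, 12, 0), 455), ((3, 11, 1), 5460), ((3, 10, 2), 30030),
  ((3, 9, 3), 100100), ((4, 11, 0), 1365), ((4, 10, 1), 15015), ((4, 9, 2), 75075), ((4, 8, 3),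
  225225), ((4, 7, 4), 450450), ((5, 10, 0), 3003), ((5, 9, 1), 30030), ((5, 8, 2), 135135), ((5, 7,
  3), 360360), ((5, 6, 4), 630630), ((5, 5, 5), 756756), ((6, 9, 0), 5005), ((6, 8, 1), 45045), ((6,
  7, 2), 180180), ((6, 6, 3), 420420), ((6, 5, 4), 630630), ((6, 4, 5), 630630), ((6, 3, 6),
  420420), ((7, 8, 0), 6435), ((7, 7, 1), 51480), ((7, 6, 2), 180180), ((7, 5, 3), 360360), ((7, 4,
  4), 450450), ((7, 3, 5), 360360), ((7, 2, 6), 180180), ((7, 1, 7), 51480), ((8, 0, 7), 6435), ((8,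
  7, 0), 6435), ((8, 6, 1), 45045), ((8, 5, 2), 135135), ((8, 4, 3), 225225), ((8, 3, 4), 225225),
  ((8, 2, 5), 135135), ((8, 1, 6), 45045), ((9, 0, 6), 5005), ((9, 6, 0), 5005), ((9, 5, 1), 30030),
  ((9, 4, 2), 75075), ((9, 3, 3), 100100), ((9, 2, 4), 75075), ((9, 1, 5), 30030), ((10, 0, 5),
  3003), ((10, 5, 0), 3003), ((10, 4, 1), 15015), ((10, 3, 2), 30030), ((10, 2, 3), 30030), ((10, 1,
  4), 15015), ((11, 0, 4), 1365), ((11, 4, 0), 1365), ((11, 3, 1), 5460), ((11, 2, 2), 8190), ((11,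
  1, 3), 5460), ((12, 0, 3), 455), ((12, 3, 0), 455), ((12, 2, 1), 1365), ((12, 1, 2), 1365), ((13,
  0, 2), 105), ((13, 2, 0), 105), ((13, 1, 1), 210), ((14, 0, 1), 15), ((14, 1, 0), 15), ((15, 0,
  0), 1)],
  [((15, 0, 1), 16), ((15, 1, 0), 16), ((16, 0, 0), 1), ((14, 1, 1), 240), ((14, 2, 0), 120), ((14, 0,
  2), 120), ((13, 1, 2), 1680), ((13, 2, 1), 1680), ((13, 3, 0), 560), ((13, 0, 3), 560), ((12, 1,
  3), 7280), ((12, 2, 2), 10920), ((12, 3, 1), 7280), ((12, 4, 0), 1820), ((12, 0, 4), 1820), ((11,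
  1, 4), 21840), ((11, 2, 3), 43680), ((11, 3, 2), 43680), ((11, 4, 1), 21840), ((11, 5, 0), 4368),
  ((11, 0, 5), 4368), ((10, 1, 5), 48048), ((10, 2, 4), 120120), ((10, 3, 3), 160160), ((10, 4, 2),
  120120), ((10, 5, 1), 48048), ((10, 6, 0), 8008), ((10, 0, 6), 8008), ((9, 1, 6), 80080), ((9, 2,
  5), 240240), ((9, 3, 4), 400400), ((9, 4, 3), 400400), ((9, 5, 2), 240240), ((9, 6, 1), 80080),
  ((9, 7, 0), 11440), ((9, 0, 7), 11440), ((8, 1, 7), 102960), ((8, 2, 6), 360360), ((8, 3, 5),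
  720720), ((8, 4, 4), 900900), ((8, 5, 3), 720720), ((8, 6, 2), 360360), ((8, 7, 1), 102960), ((8,
  8, 0), 12870), ((8, 0, 8), 12870), ((7, 1, 8), 102960), ((7, 2, 7), 411840), ((7, 3, 6), 960960),
  ((7, 4, 5), 1441440), ((7, 5, 4), 1441440), ((7, 6, 3), 960960), ((7, 7, 2), 411840), ((7, 8, 1),
  102960), ((7, 9, 0), 11440), ((6, 3, 7), 960960), ((6, 4, 6), 1681680), ((6, 5, 5), 2018016), ((6,
  6, 4), 1681680), ((6, 7, 3), 960960), ((6, 8, 2), 360360), ((6, 9, 1), 80080), ((6, 10, 0), 8008),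
  ((5, 5, 6), 2018016), ((5, 6, 5), 2018016), ((5, 7, 4), 1441440), ((5, 8, 3), 720720), ((5, 9, 2),
  240240), ((5, 10, 1), 48048), ((5, 11, 0), 4368), ((4, 7, 5), 1441440), ((4, 8, 4), 900900), ((4,
  9, 3), 400400), ((4, 10, 2), 120120), ((4, 11, 1), 21840), ((4, 12, 0), 1820), ((3, 9, 4),
  400400), ((3, 10, 3), 160160), ((3, 11, 2), 43680), ((3, 12, 1), 7280), ((3, 13, 0), 560), ((2,
  11, 3), 43680), ((2, 12, 2), 10920), ((2, 13, 1), 1680), ((2, 14, 0), 120), ((1, 13, 2), 1680),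
  ((1, 14, 1), 240), ((1, 15, 0), 16), ((0, 15, 1), 16), ((0, 16, 0), 1), ((0, 14, 2), 120), ((1,
  12, 3), 7280), ((0, 13, 3), 560), ((2, 10, 4), 120120), ((1, 11, 4), 21840), ((0, 12, 4), 1820),
  ((3, 8, 5), 720720), ((2, 9, 5), 240240), ((1, 10, 5), 48048), ((0, 11, 5), 4368), ((4, 6, 6),
  1681680), ((3, 7, 6), 960960), ((2, 8, 6), 360360), ((1, 9, 6), 80080), ((0, 10, 6), 8008), ((5,
  4, 7), 1441440), ((4, 5, 7), 1441440), ((3, 6, 7), 960960), ((2, 7, 7), 411840), ((1, 8, 7),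
  102960), ((0, 9, 7), 11440), ((6, 2, 8), 360360), ((5, 3, 8), 720720), ((4, 4, 8), 900900), ((3,
  5, 8), 720720), ((2, 6, 8), 360360), ((1, 7, 8), 102960), ((0, 8, 8), 12870), ((7, 0, 9), 11440),
  ((6, 1, 9), 80080), ((5, 2, 9), 240240), ((4, 3, 9), 400400), ((3, 4, 9), 400400), ((2, 5, 9),
  240240), ((1, 6, 9), 80080), ((0, 7, 9), 11440), ((6, 0, 10), 8008), ((5, 1, 10), 48048), ((4, 2,
  10), 120120), ((3, 3, 10), 160160), ((2, 4, 10), 120120), ((1, 5, 10), 48048), ((0, 6, 10), 8008),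
  ((5, 0, 11), 4368), ((4, 1, 11), 21840), ((3, 2, 11), 43680), ((2, 3, 11), 43680), ((1, 4, 11),
  21840), ((0, 5, 11), 4368), ((4, 0, 12), 1820), ((3, 1, 12), 7280), ((2, 2, 12), 10920), ((1, 3,
  12), 7280), ((0, 4, 12), 1820), ((3, 0, 13), 560), ((2, 1, 13), 1680), ((1, 2, 13), 1680), ((0, 3,
  13), 560), ((2, 0, 14), 120), ((1, 1, 14), 240), ((0, 2, 14), 120), ((1, 0, 15), 16), ((0, 1, 15),
  16), ((0, 0, 16), 1)]]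

theorem lxsData_ok : chainL srt (cntL srt 0) lxsData = true := by decide +kernel

theorem lysData_ok : chainL id (cntL id 0) lysData = true := by decide +kernel

end Window

end Vale.Agent.P154
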