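import Vale.Agent.P154.Window.ScalarCell
import Vale.Agent.P154.Window.ScalarListsData

/-!
The composition lists together with the soundness of the scalar tests.
-/
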