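import Vale.Agent.P154.Window.ScalarPoly

/-!
The executable tests of one cell, apart from their soundness proofs.
-/

namespace Vale.Agent.P154

namespace Window

namespace Cell

variable (C : Cell)

/-- The scaled bound at given counts. -/
def tabV (k j : ℕ) : ℕ := (C.tab.getD k []).getD j C.topE

/-- The convexity test at one point. -/
def chkD (k j : ℕ) : Bool :=
  let e := if Nat.beq (k + j) C.N then C.J else 0
  Nat.ble (2 * C.tabV (k + 1) j) (C.tabV (k + 2) j + C.tabV k j + C.D11 + e)
    && Nat.ble (C.tabV (k + 1) j + C.tabV k (j + 1))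
      (C.tabV (k + 1) (j + 1) + C.tabV k j + C.D12 + e)
    && Nat.ble (2 * C.tabV k (j + 1)) (C.tabV k (j + 2) + C.tabV k j + C.D22 + e)

/-- The convexity test. -/
def chkConv : Bool :=
  (List.range (C.N + 1)).all fun k => (List.range (C.N + 1 - k)).all fun j => C.chkD k j

/-- The shape of the table and the admissibility of the parameters. -/
def chkShape : Bool :=
  C.t.good && decide (C.t.E * (C.t.cd + C.t.cn) % C.t.cd = 0) && decide (C.tab.length = C.N + 1)
    && (List.range (C.N + 1)).all (fun k => decide ((C.tab.getD k []).length + k = C.N + 1)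
      && (C.tab.getD k []).all fun T => Nat.ble T C.topE)
    && decide (C.tabV 0 0 = 0) && decide (0 < C.t.P0) && decide (0 < C.dd ∧ C.dd ≤ C.d0)
    && decide (C.t.P0 * C.t.P0 * (C.t.Q1 * C.t.Q1) < C.t.P1 * C.t.P1 * (C.t.Q0 * C.t.Q0))
    && decide (C.a < C.b) && (!C.gam || decide (2 * C.b ≤ C.den))
    && decide (C.b * (C.t.Q0 * C.t.Q0) < (C.n + 2) * (C.den * (C.t.P0 * C.t.P0)))
    && (decide (C.J = 0)
      || decide (C.b * (C.t.Q0 * C.t.Q0) < (C.N + 3) * (C.den * (C.t.P0 * C.t.P0))))
    && decide (0 < C.den)

/-- All the tests of a cell, given the composition lists. -/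
structure Valid (C : Cell) : Prop where
  shape : C.chkShape = true
  poly : ∃ bits, C.chkPoly bits = true
  table : ∃ lxs lys, chainL srt (cntL srt 0) lxs = true ∧ chainL id (cntL id 0) lys = true
    ∧ chkTab C.t lys 0 C.tab lxs = true

/-- The right side with slack, per unit moment. -/
def rSH : RE :=
  .q (4 * C.dd : ℕ) C.d0 + .q C.t.cn C.t.cd * (.q (16 * C.dd : ℕ) C.d0 * C.linH) + .q (-1) 100 * xv

/-- The polynomial of the cell with slack. -/
def polyS : RE := C.hX + (C.rSH * xv + .q (-(C.topE : ℤ)) C.t.E) * C.ehX + C.rSH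

/-- The test of the polynomial with slack. -/
def chkPolyS (bits r : ℕ) : Bool := chkREr bits r D1 D2 C.env C.polyS

/-- All the tests of a cell with slack. -/
structure ValidS (C : Cell) : Prop where
  shape : C.chkShape = true
  poly : ∃ bits r, C.chkPolyS bits r = true
  table : ∃ lxs lys, chainL srt (cntL srt 0) lxs = true ∧ chainL id (cntL id 0) lys = true
    ∧ chkTab C.t lys 0 C.tab lxs = true

end Cell

end Window

end Vale.Agent.P154
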