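import Vale.Agent.P154.Window.ScalarDataP5
import Vale.Agent.P154.Window.ScalarChk
import Vale.Agent.P154.Window.ScalarListsData

/-!
Kernel checks of the cells for at least 27/5 Poisson children.
-/

namespace Vale.Agent.P154

namespace Window

theorem cellP5_0_shape : cellP5_0.chkShape = true := by decide +kernel

theorem cellP5_0_poly : cellP5_0.chkPoly 859 = true := by decide +kernel

theorem cellP5_0_table : chkTab cellP5_0.t lysData 0 cellP5_0.tab lxsData = true := by decide +kernel

theorem cellP5_0_valid : cellP5_0.Valid :=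
  ⟨cellP5_0_shape, ⟨859, cellP5_0_poly⟩, ⟨lxsData, lysData, lxsData_ok, lysData_ok, cellP5_0_table⟩⟩

theorem cellP5_1_shape : cellP5_1.chkShape = true := by decide +kernel

theorem cellP5_1_poly : cellP5_1.chkPoly 878 = true := by decide +kernel

theorem cellP5_1_table : chkTab cellP5_1.t lysData 0 cellP5_1.tab lxsData = true := by decide +kernel

theorem cellP5_1_valid : cellP5_1.Valid :=
  ⟨cellP5_1_shape, ⟨878, cellP5_1_poly⟩, ⟨lxsData, lysData, lxsData_ok, lysData_ok, cellP5_1_table⟩⟩

theorem cellP5_2_shape : cellP5_2.chkShape = true := by decide +kernel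

theorem cellP5_2_poly : cellP5_2.chkPoly 891 = true := by decide +kernel

theorem cellP5_2_table : chkTab cellP5_2.t lysData 0 cellP5_2.tab lxsData = true := by decide +kernel

theorem cellP5_2_valid : cellP5_2.Valid :=
  ⟨cellP5_2_shape, ⟨891, cellP5_2_poly⟩, ⟨lxsData, lysData, lxsData_ok, lysData_ok, cellP5_2_table⟩⟩

theorem cellP5_3_shape : cellP5_3.chkShape = true := by decide +kernel

theorem cellP5_3_poly : cellP5_3.chkPoly 902 = true := by decide +kernel

theorem cellP5_3_table : chkTab cellP5_3.t lysData 0 cellP5_3.tab lxsData = true := by decide +kernel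

theorem cellP5_3_valid : cellP5_3.Valid :=
  ⟨cellP5_3_shape, ⟨902, cellP5_3_poly⟩, ⟨lxsData, lysData, lxsData_ok, lysData_ok, cellP5_3_table⟩⟩

theorem cellP5_4_shape : cellP5_4.chkShape = true := by decide +kernel

theorem cellP5_4_poly : cellP5_4.chkPoly 909 = true := by decide +kernel

theorem cellP5_4_table : chkTab cellP5_4.t lysData 0 cellP5_4.tab lxsData = true := by decide +kernel

theorem cellP5_4_valid : cellP5_4.Valid :=
  ⟨cellP5_4_shape, ⟨909, cellP5_4_poly⟩, ⟨lxsData, lysData, lxsData_ok, lysData_ok, cellP5_4_table⟩⟩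

theorem cellP5_5_shape : cellP5_5.chkShape = true := by decide +kernel

theorem cellP5_5_poly : cellP5_5.chkPoly 920 = true := by decide +kernel

theorem cellP5_5_table : chkTab cellP5_5.t lysData 0 cellP5_5.tab lxsData = true := by decide +kernel

theorem cellP5_5_valid : cellP5_5.Valid :=
  ⟨cellP5_5_shape, ⟨920, cellP5_5_poly⟩, ⟨lxsData, lysData, lxsData_ok, lysData_ok, cellP5_5_table⟩⟩

theorem cellP5_6_shape : cellP5_6.chkShape = true := by decide +kernel

theorem cellP5_6_poly : cellP5_6.chkPoly 801 = true := by decide +kernel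

theorem cellP5_6_table : chkTab cellP5_6.t lysData 0 cellP5_6.tab lxsData = true := by decide +kernel

theorem cellP5_6_valid : cellP5_6.Valid :=
  ⟨cellP5_6_shape, ⟨801, cellP5_6_poly⟩, ⟨lxsData, lysData, lxsData_ok, lysData_ok, cellP5_6_table⟩⟩

end Window

end Vale.Agent.P154
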