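import Vale.Agent.P154.Window.ScalarDataR81
import Vale.Agent.P154.Window.ScalarChk
import Vale.Agent.P154.Window.ScalarListsData

/-!
Kernel checks of one cell.
-/

namespace Vale.Agent.P154

namespace Window

theorem cellR8_1_shape : cellR8_1.chkShape = true := by decide +kernel

theorem cellR8_1_poly : cellR8_1.chkPoly 884 = true := by decide +kernel

theorem cellR8_1_table : chkTab cellR8_1.t lysData 0 cellR8_1.tab lxsData = true := by decide +kernel

theorem cellR8_1_conv : cellR8_1.chkConv = true := by decide +kernel

theorem cellR8_1_valid : cellR8_1.Valid :=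
  ⟨cellR8_1_shape, ⟨884, cellR8_1_poly⟩, ⟨lxsData, lysData, lxsData_ok, lysData_ok, cellR8_1_table⟩⟩

end Window

end Vale.Agent.P154
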