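import Vale.Agent.P154.Window.ScalarDataR84
import Vale.Agent.P154.Window.ScalarChk
import Vale.Agent.P154.Window.ScalarListsData

/-!
Kernel checks of one cell.
-/

namespace Vale.Agent.P154

namespace Window

theorem cellR8_4_shape : cellR8_4.chkShape = true := by decide +kernel

theorem cellR8_4_poly : cellR8_4.chkPoly 818 = true := by decide +kernel

theorem cellR8_4_table : chkTab cellR8_4.t lysData 0 cellR8_4.tab lxsData = true := by decide +kernel

theorem cellR8_4_conv : cellR8_4.chkConv = true := by decide +kernel

theorem cellR8_4_valid : cellR8_4.Valid :=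
  ⟨cellR8_4_shape, ⟨818, cellR8_4_poly⟩, ⟨lxsData, lysData, lxsData_ok, lysData_ok, cellR8_4_table⟩⟩

end Window

end Vale.Agent.P154
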