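import Vale.Agent.P154.Window.ScalarLists
import Vale.Agent.P154.Window.ScalarCheckR80
import Vale.Agent.P154.Window.ScalarCheckR81
import Vale.Agent.P154.Window.ScalarCheckR82
import Vale.Agent.P154.Window.ScalarCheckR83
import Vale.Agent.P154.Window.ScalarCheckR84
import Vale.Agent.P154.Window.ScalarCheckR85
import Vale.Agent.P154.Window.ScalarCheckR86
import Vale.Agent.P154.Window.ScalarCheckP5

/-!
The scalar contraction inequality for at least six Poisson children and for at least eight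
children in a regular tree.
-/

namespace Vale.Agent.P154

namespace Window

open Finset

lemma Cell.kap_quarter {C : Cell} (h1 : C.t.cn = 1) (h2 : C.t.cd = 4) : C.kap = 1 / 4 := by
  rw [Cell.kap, TPar.kap, h1, h2]; norm_num

lemma poisSum_eq (κ σ ν M b : ℝ) :
    poisSum κ σ ν M b = ∑' x : ℕ × ℕ, pw2 M b x.1 x.2 * nodeF κ σ ν x.1 x.2 := rfl

lemma binSum_eq (κ σ ν : ℝ) (n : ℕ) (M b : ℝ) :
    binSum κ σ ν n M b = bin (M / n) (b / n) n (fun i j => nodeF κ σ ν i j) 0 0 := by
  set g : ℕ → ℕ → ℝ := fun a c => bw (M / n) (b / n) n a c * nodeF κ σ ν a c with hg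
  have e1 : ∀ a ∈ range (n + 1), (∑ c ∈ range (n + 1), g a c)
      = ∑ c ∈ range (n + 1 - a), g a c := by
    intro a _
    refine (sum_subset (range_subset_range.mpr (Nat.sub_le _ _)) fun c _ hc => ?_).symm
    simp only [mem_range, not_lt] at hc
    simp [hg, bw_zero (show n < a + c by omega)]
  rw [bin_sum _ _ n _ (n + 1) (Nat.lt_succ_self n), sum_congr rfl e1, ← sum_range_diag_flip,
    ← sum_range_reflect, binSum, Nat.sum_antidiagonal_eq_sum_range_succ_mk]
  refine sum_congr rfl fun k hk => ?_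
  have hk' := mem_range.mp hk
  rw [Nat.sum_antidiagonal_eq_sum_range_succ_mk, Nat.add_sub_cancel]
  refine sum_congr rfl fun a ha => ?_
  have ha' := mem_range.mp ha
  simp only [hg, bw, show 1 - (M + b) / (n : ℝ) = 1 - M / n - b / n by ring,
    show n - a - (n - k - a) = k by omega]
  push_cast [Nat.cast_choose ℝ (show a ≤ n by omega),
    Nat.cast_choose ℝ (show n - k - a ≤ n - a by omega), show n - a - (n - k - a) = k by omega]
  have : ((n - a).factorial : ℝ) ≠ 0 := by positivity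
  field_simp

/-- A cell of the Poisson family supplies the nodes. -/
lemma poisson_of_cell {C : Cell} (hv : C.Valid) (h1 : C.t.cn = 1) (h2 : C.t.cd = 4)
    (h3 : C.d0 = 27) (h3' : C.dd = 5) (hnu : 1 ≤ (27 / 5 : ℝ) * C.nu ^ 2) {d X : ℝ}
    (hd : 27 / 5 ≤ d) (hX0 : 0 < X)
    (hlo : C.lo ≤ X) (hhi : X ≤ C.hi) :
    Scal (1 / 4) (1 / 4) d (poisSum (1 / 4)) (1 / 100) X := by
  have hF := C.facts hv.shape
  refine ⟨C.mu, C.nu, hF.hmu, hF.hmn, hF.hnu,
    Or.inl (le_trans hnu (mul_le_mul_of_nonneg_right hd (sq_nonneg _))), ?_⟩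
  intro M b wl Qs c hb hwl hwlM hX _ hL hQ hc hc1
  have h := Cell.cell_poisson hv hX0 hlo hhi (le_trans hwl hwlM) hb hX
    (by rw [Cell.dR, h3, h3']; push_cast; linarith) hL hQ hc hc1
  rw [Cell.kap_quarter h1 h2] at h
  rw [poisSum_eq]
  linarith

/-- A cell of the regular family supplies the nodes. -/
lemma regular_of_cell {C : Cell} (hv : C.Valid) (hD : C.chkConv = true) (h1 : C.t.cn = 1)
    (h2 : C.t.cd = 4) (h3 : C.d0 = 8) (h3' : C.dd = 1) (hnu : 1 ≤ (8 : ℝ) * C.nu ^ 2) {n : ℕ} {X : ℝ}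
    (hn : 8 ≤ n) (hX0 : 0 < X) (hlo : C.lo ≤ X) (hhi : X ≤ C.hi) :
    Scal (1 / 4) (1 / 4) n (fun σ ν => binSum (1 / 4) σ ν n) (1 / 100) X := by
  have hF := C.facts hv.shape
  refine ⟨C.mu, C.nu, hF.hmu, hF.hmn, hF.hnu,
    Or.inl (le_trans hnu (mul_le_mul_of_nonneg_right (by exact_mod_cast hn) (sq_nonneg _))), ?_⟩
  intro M b wl Qs c hb hwl hwlM hX hMb hL hQ hc hc1
  have h := Cell.cell_regular hv hD hX0 hlo hhi (le_trans hwl hwlM) hb hX hMb
    (by rw [Cell.dR, h3, h3']; push_cast; norm_num; exact_mod_cast hn) hL hQ hc hc1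
  rw [Cell.kap_quarter h1 h2] at h
  simp only [binSum_eq]
  linarith

/-- The scalar contraction inequality for at least 27/5 Poisson children. -/
theorem scalar_poisson_low {d X : ℝ} (hd : 27 / 5 ≤ d) (hX0 : 0 < X) (hX1 : X ≤ 1) :
    Scal (1 / 4) (1 / 4) d (poisSum (1 / 4)) (1 / 100) X := by
  rcases le_or_gt X (35 / 1000) with h0 | h0
  · exact poisson_of_cell cellP5_0_valid rfl rfl rfl rfl (by norm_num [cellP5_0, Cell.nu, TPar.nu]) hd hX0
      (by norm_num [cellP5_0, Cell.lo]; linarith) (by norm_num [cellP5_0, Cell.hi]; linarith)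
  rcases le_or_gt X (69 / 1000) with h1 | h1
  · exact poisson_of_cell cellP5_1_valid rfl rfl rfl rfl (by norm_num [cellP5_1, Cell.nu, TPar.nu]) hd hX0
      (by norm_num [cellP5_1, Cell.lo]; linarith) (by norm_num [cellP5_1, Cell.hi]; linarith)
  rcases le_or_gt X (85 / 1000) with h2 | h2
  · exact poisson_of_cell cellP5_2_valid rfl rfl rfl rfl (by norm_num [cellP5_2, Cell.nu, TPar.nu]) hd hX0
      (by norm_num [cellP5_2, Cell.lo]; linarith) (by norm_num [cellP5_2, Cell.hi]; linarith)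
  rcases le_or_gt X (118 / 1000) with h3 | h3
  · exact poisson_of_cell cellP5_3_valid rfl rfl rfl rfl (by norm_num [cellP5_3, Cell.nu, TPar.nu]) hd hX0
      (by norm_num [cellP5_3, Cell.lo]; linarith) (by norm_num [cellP5_3, Cell.hi]; linarith)
  rcases le_or_gt X (185 / 1000) with h4 | h4
  · exact poisson_of_cell cellP5_4_valid rfl rfl rfl rfl (by norm_num [cellP5_4, Cell.nu, TPar.nu]) hd hX0
      (by norm_num [cellP5_4, Cell.lo]; linarith) (by norm_num [cellP5_4, Cell.hi]; linarith)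
  rcases le_or_gt X (458 / 1000) with h5 | h5
  · exact poisson_of_cell cellP5_5_valid rfl rfl rfl rfl (by norm_num [cellP5_5, Cell.nu, TPar.nu]) hd hX0
      (by norm_num [cellP5_5, Cell.lo]; linarith) (by norm_num [cellP5_5, Cell.hi]; linarith)
  exact poisson_of_cell cellP5_6_valid rfl rfl rfl rfl (by norm_num [cellP5_6, Cell.nu, TPar.nu]) hd hX0
      (by norm_num [cellP5_6, Cell.lo]; linarith) (by norm_num [cellP5_6, Cell.hi]; linarith)

/-- The scalar contraction inequality for Poisson numbers of children. -/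
theorem scalar_poisson {d X : ℝ} (hd : 6 ≤ d) (hX0 : 0 < X) (hX1 : X ≤ 1) :
    Scal (1 / 4) (1 / 4) d (poisSum (1 / 4)) (1 / 100) X :=
  scalar_poisson_low (by linarith) hX0 hX1

/-- The scalar contraction inequality for a fixed number of children. -/
theorem scalar_regular {n : ℕ} {X : ℝ} (hn : 8 ≤ n) (hX0 : 0 < X) (hX1 : X ≤ 1) :
    Scal (1 / 4) (1 / 4) n (fun σ ν => binSum (1 / 4) σ ν n) (1 / 100) X := by
  rcases le_or_gt X (30 / 1000) with h0 | h0
  · exact regular_of_cell cellR8_0_valid cellR8_0_conv rfl rfl rfl rfl (by norm_num [cellR8_0, Cell.nu, TPar.nu])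
      hn hX0
      (by norm_num [cellR8_0, Cell.lo]; linarith)
      (by norm_num [cellR8_0, Cell.hi]; linarith)
  rcases le_or_gt X (70 / 1000) with h1 | h1
  · exact regular_of_cell cellR8_1_valid cellR8_1_conv rfl rfl rfl rfl (by norm_num [cellR8_1, Cell.nu, TPar.nu])
      hn hX0
      (by norm_num [cellR8_1, Cell.lo]; linarith)
      (by norm_num [cellR8_1, Cell.hi]; linarith)
  rcases le_or_gt X (130 / 1000) with h2 | h2
  · exact regular_of_cell cellR8_2_valid cellR8_2_conv rfl rfl rfl rfl (by norm_num [cellR8_2, Cell.nu, TPar.nu])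
      hn hX0
      (by norm_num [cellR8_2, Cell.lo]; linarith)
      (by norm_num [cellR8_2, Cell.hi]; linarith)
  rcases le_or_gt X (200 / 1000) with h3 | h3
  · exact regular_of_cell cellR8_3_valid cellR8_3_conv rfl rfl rfl rfl (by norm_num [cellR8_3, Cell.nu, TPar.nu])
      hn hX0
      (by norm_num [cellR8_3, Cell.lo]; linarith)
      (by norm_num [cellR8_3, Cell.hi]; linarith)
  rcases le_or_gt X (350 / 1000) with h4 | h4
  · exact regular_of_cell cellR8_4_valid cellR8_4_conv rfl rfl rfl rfl (by norm_num [cellR8_4, Cell.nu, TPar.nu])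
      hn hX0
      (by norm_num [cellR8_4, Cell.lo]; linarith)
      (by norm_num [cellR8_4, Cell.hi]; linarith)
  rcases le_or_gt X (600 / 1000) with h5 | h5
  · exact regular_of_cell cellR8_5_valid cellR8_5_conv rfl rfl rfl rfl (by norm_num [cellR8_5, Cell.nu, TPar.nu])
      hn hX0
      (by norm_num [cellR8_5, Cell.lo]; linarith)
      (by norm_num [cellR8_5, Cell.hi]; linarith)
  exact regular_of_cell cellR8_6_valid cellR8_6_conv rfl rfl rfl rfl (by norm_num [cellR8_6, Cell.nu, TPar.nu])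
      hn hX0
      (by norm_num [cellR8_6, Cell.lo]; linarith)
      (by norm_num [cellR8_6, Cell.hi]; linarith)

end Window

end Vale.Agent.P154
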