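import Vale.Agent.P154.Window.Monotone

/-!
Poisson families of mean at most `19/5`: one inequality with slack.
-/

namespace Vale.Agent.P154

namespace Window

/-- The scalar inequality with the slack of a mean below four. -/
def ScalSlack (κ d : ℝ) (T : ℝ → ℝ → ℝ → ℝ → ℝ) (ε X : ℝ) : Prop :=
  ∃ σ : ℝ, 0 < σ ∧ σ < 1 / 2 ∧
    ∀ Mv b wl Qs c : ℝ, 0 ≤ b → 0 ≤ wl → wl ≤ Mv → σ ^ 2 * Mv + (1 / 2) ^ 2 * b = X →
      Mv + b ≤ d → Lin d σ (1 / 2) Mv b wl Qs → Qs ≤ σ ^ 4 * Mv + (1 / 2) ^ 4 * b → cX X ≤ c →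
      c ≤ 1 →
      T σ (1 / 2) Mv b ≤ 4 / d * X + κ * (c * (σ ^ 4 * Mv + (1 / 2) ^ 4 * b))
        + κ * (16 / d - c) * Qs - ε * X ^ 2

lemma scalSlack_zero {κ d : ℝ} (k0 : 0 ≤ κ) (hd : 0 < d) (hd4 : d ≤ 4) (ε : ℝ) :
    ScalSlack κ d (poisSum κ) ε 0 := by
  refine ⟨1 / 4, by norm_num, by norm_num, fun Mv b wl Qs c b0 wl0 wlM hX _ hlin _ _ c1 => ?_⟩
  have hM0 : 0 ≤ Mv := le_trans wl0 wlM
  have z1 : Mv = 0 := by linarith
  have z2 : b = 0 := by linarith
  subst z1 z2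
  have hwl : wl = 0 := le_antisymm wlM wl0
  have hQ := hlin 0 0
  simp only [hwl, sub_zero, mul_zero, zero_mul, add_zero, sub_self, ne_eq, OfNat.ofNat_ne_zero,
    not_false_eq_true, zero_pow] at hQ
  have e : poisSum κ (1 / 4) (1 / 2) 0 0 = 0 := by
    rw [poisSum, tsum_eq_single (0, 0)]
    · simp [nodeF_zero]
    · rintro ⟨i, j⟩ h
      rcases Nat.eq_zero_or_pos i with rfl | hi
      · have hj : j ≠ 0 := fun hj => h (by rw [hj])
        simp [zero_pow hj]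
      · simp [zero_pow hi.ne']
  have h4 : 4 ≤ 16 / d := by rw [le_div_iff₀ hd]; linarith
  rw [e]
  simp only [mul_zero, add_zero, zero_add, ne_eq, OfNat.ofNat_ne_zero, not_false_eq_true, zero_pow,
    sub_zero]
  exact mul_nonneg (mul_nonneg k0 (by linarith)) hQ

/-- One level with slack. -/
theorem level_slack {η : Type} {M : Lik η} {κ ε d : ℝ} (hd : 0 < d) (hd3 : 7 / 2 ≤ d) (hd4 : d ≤ 4)
    (hM : Ok M) (hsw : Sw M)
    (hb : ∀ y, quad rc (M y 0) (M y 1) (M y 2) ≤ 1 / 4 * tot (M y 0) (M y 1) (M y 2) ^ 2)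
    (k0 : 0 ≤ κ) (k1 : κ ≤ 1 / 4) (hε : 0 ≤ ε)
    (hS : ScalSlack κ d (poisSum κ) ε (d * mo mA M)) :
    mo (mPhi κ) (mix (poissonLaw d) M)
      ≤ 4 * mo mA M + κ * 16 * mo mQ M - ε * (d * mo mA M) ^ 2 := by
  obtain ⟨σ, hσ, hσν, hscal⟩ := hS
  have hν : (1 / 2 : ℝ) ≤ 1 / 2 := le_rfl
  have hc : CC κ κ := cc_diag k0 k1
  have hp := poisson_law hd
  have hbν : ∀ y, quad rc (M y 0) (M y 1) (M y 2)
      ≤ (1 / 2 : ℝ) ^ 2 * tot (M y 0) (M y 1) (M y 2) ^ 2 := fun y => by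
    rw [show ((1 : ℝ) / 2) ^ 2 = 1 / 4 by norm_num]; exact hb y
  have hQ := ok_Q hM hσ hσν hν hbν
  have hSp := tent_spread hM hσ hσν hν hbν
  have hgap := wgap_poisson hd hQ
  have hT := (poisson_mix hSp.wt_nonneg (hSp.wt_sum hM) hσ.le (by linarith) (by norm_num) hν κ
    d).tsum_eq
  set Q := mixNode (wt' (tent σ (1 / 2) M)) ![0, σ, 1 / 2] with hQdef
  set t := ∑' N, poissonLaw d N * mo mA (power Q N) with htdef
  have sA := summable_law_mo hp hQ dom_mA
  have t0 : 0 ≤ t := tsum_nonneg fun N => mul_nonneg (hp.nonneg N)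
    ((power_ok Q hQ N).mo_nonneg fun _ _ _ => mA_nonneg)
  have t1 : t ≤ 1 := le_trans (sA.tsum_le_tsum (fun N => by
    have := mul_le_mul_of_nonneg_left (power_ok Q hQ N).mA_le_one (hp.nonneg N)
    linarith) hp.total.summable) (le_of_eq hp.total.tsum_eq)
  obtain ⟨Mv, b, wl, eM, eb, b0, wl0, wlM, hsum, hX, hlin, hQS, hlev⟩ :=
    level_bound hp hd hM hsw hσ hσν hν hbν hc k0 (by linarith) k0 hgap
  rw [hT, ← eM, ← eb] at hlev
  rw [← eM, ← eb] at hT
  have hnQ : 0 ≤ mo mQ M := hM.mo_nonneg fun _ _ _ => mQ_nonneg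
  have hnA : 0 ≤ mo mA M := hM.mo_nonneg fun _ _ _ => mA_nonneg
  have hQA : mo mQ M ≤ 1 / 4 * mo mA M := by
    have key := hasSum_le (fun y => ?_) (hM.summable_mom dom_mQ).hasSum
      ((hM.summable_mom dom_mA).hasSum.mul_left (1 / 4))
    · rw [mo, mo]; linarith
    · simp only [row, mA, mQ]
      have h0 := tot_nonneg (hM.nonneg y 0) (hM.nonneg y 1) (hM.nonneg y 2)
      rcases eq_or_lt_of_le h0 with h | h
      · rw [← h]; simp
      · have hq : 0 ≤ quad rc (M y 0) (M y 1) (M y 2) := quad_nonneg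
        rw [div_le_iff₀ (by positivity)]
        have := mul_le_mul_of_nonneg_left (hb y) hq
        calc quad rc (M y 0) (M y 1) (M y 2) ^ 2
            ≤ quad rc (M y 0) (M y 1) (M y 2) * (1 / 4 * tot (M y 0) (M y 1) (M y 2) ^ 2) := by
              linarith
          _ = 1 / 4 * (quad rc (M y 0) (M y 1) (M y 2) / tot (M y 0) (M y 1) (M y 2))
              * tot (M y 0) (M y 1) (M y 2) ^ 3 := by field_simp
  have hXn : 0 ≤ d * mo mA M := mul_nonneg hd.le hnA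
  have hdd : 0 ≤ 16 / d := by positivity
  have h4d : 4 / d * (d * mo mA M) = 4 * mo mA M := by field_simp
  have h16 : κ * (16 / d) * (d * mo mQ M) = κ * 16 * mo mQ M := by field_simp
  have ht : t ≤ 2 * (d * mo mA M) := by
    have h1 := hscal Mv b wl (d * mo mQ M) 1 b0 wl0 wlM hX hsum hlin hQS
      (le_trans (cX_le (X := d * mo mA M) (t := 0) le_rfl (mul_nonneg two_pos.le hXn) zero_le_one)
        (by norm_num)) le_rfl
    have h2 : t ≤ poisSum κ σ (1 / 2) Mv b := by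
      unfold poisSum
      rw [← hT]
      refine sA.tsum_le_tsum (fun N => mul_le_mul_of_nonneg_left ?_ (hp.nonneg N))
        (summable_law_mo hp hQ (dom_mPhi κ))
      rw [mo_mPhi (power_ok Q hQ N)]
      have := mul_nonneg k0 ((power_ok Q hQ N).mo_nonneg (g := mQ) fun _ _ _ => mQ_nonneg)
      linarith
    have h5 : σ ^ 4 * Mv + (1 / 2) ^ 4 * b ≤ (1 / 4) * (d * mo mA M) := by
      rw [← hX]
      have : σ ^ 2 ≤ 1 / 4 := by nlinarith
      have := mul_le_mul_of_nonneg_left this (mul_nonneg (sq_nonneg σ) (le_trans wl0 wlM))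
      linarith
    have h8 := mul_le_mul_of_nonneg_left h5 k0
    have h9 : κ * 16 * mo mQ M ≤ κ * 4 * mo mA M := by
      have := mul_le_mul_of_nonneg_left hQA (mul_nonneg k0 (by norm_num : (0 : ℝ) ≤ 16))
      linarith
    have h10 := mul_le_mul_of_nonneg_right k1 hnA
    have h11 := mul_le_mul_of_nonneg_right k1 hXn
    have h12 := mul_le_mul_of_nonneg_right hd3 hnA
    have h13 := mul_nonneg hε (sq_nonneg (d * mo mA M))
    have h14 := mul_nonneg k0 (mul_nonneg hd.le hnQ)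
    linarith
  have h1 := hscal Mv b wl (d * mo mQ M) ((1 - t) ^ 2) b0 wl0 wlM hX hsum hlin hQS
    (cX_le t0 ht t1) (pow_le_one₀ (by linarith) (by linarith))
  have e : poisSum κ σ (1 / 2) Mv b = ∑' z : ℕ × ℕ, Real.exp (-(Mv + b)) * Mv ^ z.1 * b ^ z.2
    / ((z.1.factorial : ℝ) * z.2.factorial) * nodeF κ σ (1 / 2) z.1 z.2 := rfl
  linarith

/-- Every Poisson mean up to `19/5`. -/
theorem nonrec_poisson_slack {d : ℝ} (hd : 0 < d) (hd19 : d ≤ 19 / 5) {l : ℝ}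
    (h0 : -(1 / 2) ≤ l) (h1 : l ≤ 1 / 2) {κ ε : ℝ} (k0 : 0 ≤ κ) (k1 : κ ≤ 1 / 4) (e0 : 0 < ε)
    (e1 : ε ≤ 1)
    (hS : ∀ X : ℝ, 0 ≤ X → X ≤ 1 → ScalSlack κ (19 / 5) (poisSum κ) ε X) :
    Nonreconstruction (poissonLaw d) l := by
  have hp := poisson_law hd
  have ok := tab_ok hp h0 (by linarith : l ≤ 1)
  have hl2 : l ^ 2 ≤ 1 / 4 := by nlinarith
  refine nonrec_of_drop (d := 4) (ε := ε / 2) hp h0 h1 (by norm_num) (by linarith) k0 (by linarith)
    (by linarith) (pot κ (poissonLaw d) l 0) (n0 := 0) le_rfl fun n _ => ?_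
  have hk := ok n
  have hMok := shift_ok_adm h0 (by linarith : l ≤ 1) hk
  have hb : ∀ y, quad rc (shift l (tab (poissonLaw d) l n) y 0) (shift l (tab (poissonLaw d) l n) y 1)
      (shift l (tab (poissonLaw d) l n) y 2) ≤ 1 / 4 * tot (shift l (tab (poissonLaw d) l n) y 0)
      (shift l (tab (poissonLaw d) l n) y 1) (shift l (tab (poissonLaw d) l n) y 2) ^ 2 := fun y =>
    le_trans (shift_small l hk y) (mul_le_mul_of_nonneg_right hl2 (sq_nonneg _))
  have hA0 : 0 ≤ mo mA (shift l (tab (poissonLaw d) l n)) := hMok.mo_nonneg fun _ _ _ => mA_nonneg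
  have hA1 : mo mA (shift l (tab (poissonLaw d) l n)) ≤ 1 / 4 := by
    rw [shift_mA]
    have := mul_le_mul hl2 hk.mA_le_one (hk.mo_nonneg fun _ _ _ => mA_nonneg) (by norm_num)
    linarith
  have hstep : mo (mPhi κ) (mix (poissonLaw d) (shift l (tab (poissonLaw d) l n)))
      ≤ mo (mPhi κ) (mix (poissonLaw (19 / 5)) (shift l (tab (poissonLaw d) l n))) := by
    rcases eq_or_lt_of_le hd19 with h | h
    · rw [h]
    · exact mix_poisson_mono k0 hd h hMok
  have hlev := level_slack (κ := κ) (ε := ε) (by norm_num) (by norm_num) (by norm_num) hMok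
    (shift_sw l (tab_sw _ l n)) hb k0 k1 e0.le (hS _ (by positivity) (by linarith))
  have h := le_trans hstep hlev
  rw [shift_mA, shift_mQ] at h
  unfold Drop
  rw [pot, mo_tab_succ, info]
  have hq : 0 ≤ ε * (l ^ 2 * mo mA (tab (poissonLaw d) l n)) ^ 2 := by positivity
  linarith

end Window

end Vale.Agent.P154
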