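import Vale.Agent.P154.Window.ScalarCell
import Vale.Agent.P154.Window.Slack

/-!
Soundness of the test of one cell for the scalar inequality with slack.
-/

namespace Vale.Agent.P154

namespace Window

open Finset

namespace Cell

variable (C : Cell)

/-- The lower bound for the fourth moment. -/
noncomputable def linR (C : Cell) (X M b : ℝ) : ℝ :=
  C.zR X b * (2 * C.nu ^ 2 - C.zR X b) * b + C.zR X b * (2 * C.mu ^ 2 - C.zR X b) * M
    - C.eR X b ^ 2 * C.dR

/-- The right side proved with slack. -/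
noncomputable def rhsS (C : Cell) (X M b : ℝ) : ℝ :=
  4 / C.dR * X + C.kap * (16 / C.dR * C.linR X M b) - X ^ 2 / 100

variable {C}

lemma ev_rSH (hF : Facts C) (z : ℕ → ℝ) :
    z 0 * RE.ev z C.rSH = C.rhsS (z 0) (z 0 * z 1) (z 0 * z 2) := by
  have hg := hF.good
  simp only [TPar.good, Bool.and_eq_true, decide_eq_true_eq] at hg
  obtain ⟨⟨⟨hcd, h0⟩, ⟨h1, h1'⟩⟩, hE⟩ := hg
  have hQ0 : (C.t.Q0 : ℝ) ≠ 0 := by exact_mod_cast (show C.t.Q0 ≠ 0 by omega)
  have hQ1 : (C.t.Q1 : ℝ) ≠ 0 := by exact_mod_cast (show C.t.Q1 ≠ 0 by omega)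
  have hd : (C.d0 : ℝ) ≠ 0 := by
    have := hF.hd0; exact_mod_cast (show C.d0 ≠ 0 by omega)
  have hP : (C.t.P0 : ℝ) ≠ 0 := by
    intro h; have := hF.hmu; rw [Cell.mu, TPar.mu, h, zero_div] at this; exact lt_irrefl _ this
  have hdd : (C.dd : ℝ) ≠ 0 := by have := hF.hd0.1; exact_mod_cast this.ne'
  have hC : (C.t.cd : ℝ) ≠ 0 := by exact_mod_cast hcd.ne'
  simp only [rSH, linH, phiH, zetaE, etaH, sgE, s1E, xv, zv, yv, RE.ev_add, RE.ev_mul, RE.ev,
    rhsS, linR, eR, zR, dR, Cell.mu, Cell.nu, Cell.kap, TPar.mu, TPar.nu, TPar.kap]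
  push_cast
  field_simp
  ring

lemma ev_polyS (hF : Facts C) (z : ℕ → ℝ) :
    z 0 * RE.ev z C.polyS = C.hSum (z 0 * z 1) (z 0 * z 2)
      - (1 + C.kap - C.rhsS (z 0) (z 0 * z 1) (z 0 * z 2))
        * ((∑ i ∈ range (C.n + 1), (z 0 * (z 1 + z 2)) ^ i / (i.factorial : ℝ))
          + C.lastR * ((z 0 * (z 1 + z 2)) ^ (C.n + 1) / ((C.n + 1).factorial : ℝ))) := by
  have a := ev_hX hF z
  have b := ev_ehX (C := C) z
  have d := ev_rSH hF z
  rw [← hF.top] at a ⊢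
  simp only [polyS, RE.ev_add, RE.ev_mul, xv, RE.ev] at *
  push_cast at *
  linear_combination a + (z 0 * RE.ev z C.rSH - (C.topE : ℝ) / (C.t.E : ℝ)) * b
    + ((∑ i ∈ range (C.n + 1), (z 0 * (z 1 + z 2)) ^ i / (i.factorial : ℝ))
          + C.lastR * ((z 0 * (z 1 + z 2)) ^ (C.n + 1) / ((C.n + 1).factorial : ℝ))) * d

/-- The core of a cell with slack. -/
lemma main_ineqS (hF : Facts C) (hp : ∃ bits r, C.chkPolyS bits r = true) {X M b : ℝ}
    (hX0 : 0 < X) (hlo : C.lo ≤ X) (hhi : X ≤ C.hi) (hM : 0 ≤ M) (hb : 0 ≤ b)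
    (hX : C.mu ^ 2 * M + C.nu ^ 2 * b = X) (hR : C.rhsS X M b ≤ 1 + C.kap) :
    (1 + C.kap - C.rhsS X M b) * Real.exp (M + b) ≤ C.hSum M b := by
  obtain ⟨bits, r, hp⟩ := hp
  have h := poly_nonneg hF (e := C.polyS) (fun _ a b c d _ g => chkREr_sound hp a b c d g) hlo hhi
    (u := M / X) (w := b / X) (by positivity) (by positivity) (by field_simp; linarith)
  set z : ℕ → ℝ := fun i => if i = 0 then X else if i = 1 then M / X else if i = 2 then b / X
    else 0 with hz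
  have key := mul_nonneg (show 0 ≤ z 0 from hX0.le) h
  rw [ev_polyS hF z] at key
  have z0 : z 0 = X := rfl
  have e1 : z 0 * z 1 = M := by
    rw [show z 1 = M / X from rfl, z0]; exact mul_div_cancel₀ M hX0.ne'
  have e2 : z 0 * z 2 = b := by
    rw [show z 2 = b / X from rfl, z0]; exact mul_div_cancel₀ b hX0.ne'
  rw [show z 0 * (z 1 + z 2) = M + b by rw [mul_add, e1, e2], e1, e2, z0] at key
  have hg := hF.good
  simp only [TPar.good, Bool.and_eq_true, decide_eq_true_eq] at hg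
  obtain ⟨⟨⟨-, h0⟩, -⟩, -⟩ := hg
  have hQ0 : (0 : ℝ) < C.t.Q0 := by exact_mod_cast (show 0 < C.t.Q0 by omega)
  have hP0 : (0 : ℝ) < C.t.P0 := by
    have := mul_pos hF.hmu hQ0; rwa [Cell.mu, TPar.mu, div_mul_cancel₀ _ hQ0.ne'] at this
  have hden : (0 : ℝ) < C.den := by exact_mod_cast hF.hden
  set A : ℝ := (C.b : ℝ) * ((C.t.Q0 : ℝ) * C.t.Q0) with hA
  set B : ℝ := (C.den : ℝ) * ((C.t.P0 : ℝ) * C.t.P0) with hB
  have hB0 : 0 < B := by positivity
  have hn' : A < ((C.n + 2 : ℕ) : ℝ) * B := by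
    rw [hA, hB]; exact_mod_cast hF.hn
  have hT : (M + b) * B ≤ A := by
    have h1 : C.mu ^ 2 * (M + b) ≤ C.hi := by
      have : C.mu ^ 2 * b ≤ C.nu ^ 2 * b :=
        mul_le_mul_of_nonneg_right (pow_le_pow_left₀ hF.hmu.le hF.hmn.le 2) hb
      linarith
    rw [hi, le_div_iff₀ hden, Cell.mu, TPar.mu, div_pow, div_mul_eq_mul_div,
      div_mul_eq_mul_div, div_le_iff₀ (by positivity)] at h1
    rw [hA, hB]; linarith
  have hl : C.lastR = ((C.n + 2 : ℕ) : ℝ) * B / (((C.n + 2 : ℕ) : ℝ) * B - A) := by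
    simp only [lastR, lastC, RE.ev]
    rw [Nat.cast_sub hF.hn.le, hA, hB]
    push_cast
    rfl
  have hlast : 0 < C.lastR := by
    rw [hl]; exact div_pos (by positivity) (by linarith)
  have c1 : 1 ≤ C.lastR * (1 - (M + b) / ((C.n + 2 : ℕ) : ℝ)) := by
    rw [hl, div_mul_eq_mul_div, le_div_iff₀ (by linarith), one_mul]
    have : ((C.n + 2 : ℕ) : ℝ) * B * (1 - (M + b) / ((C.n + 2 : ℕ) : ℝ))
        = ((C.n + 2 : ℕ) : ℝ) * B - (M + b) * B := by field_simp
    linarith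
  have h1 := mul_le_mul_of_nonneg_left (exp_le_trunc C.n (add_nonneg hM hb) hlast c1)
    (sub_nonneg.mpr hR)
  linarith

lemma rhsS_le (hF : Facts C) {X M b wl Qs c : ℝ}
    (hL : Lin C.dR C.mu C.nu M b wl Qs) (hQ : Qs ≤ C.mu ^ 4 * M + C.nu ^ 4 * b)
    (hc : cX X ≤ c) :
    C.rhsS X M b ≤ 4 / C.dR * X + C.kap * (c * (C.mu ^ 4 * M + C.nu ^ 4 * b))
      + C.kap * (16 / C.dR - c) * Qs - X ^ 2 / 100 := by
  have hd0 := dR_pos hF
  have hcX : 0 ≤ cX X := by rw [cX]; split_ifs <;> positivity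
  have h := hL (C.eR X b) (C.zR X b)
  have e : 2 * C.eR X b * C.mu ^ 2 = C.zR X b * (2 * C.mu ^ 2 - C.zR X b) := by
    have hmu := hF.hmu.ne'
    rw [eR, zR]; field_simp; ring
  have hlin : C.linR X M b ≤ Qs := by
    refine le_trans (le_of_eq ?_) h
    rw [linR]; linear_combination -wl * e
  have h1 : 0 ≤ 16 / C.dR := by positivity
  have h2 := mul_le_mul_of_nonneg_left hlin (mul_nonneg hF.hk h1)
  have h3 : 0 ≤ C.kap * c * (C.mu ^ 4 * M + C.nu ^ 4 * b - Qs) :=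
    mul_nonneg (mul_nonneg hF.hk (le_trans hcX hc)) (by linarith)
  rw [rhsS]
  linarith

/-- A cell supplies the nodes of the inequality with slack. -/
theorem cell_slack (hv : C.ValidS) (hnu : C.nu = 1 / 2) {X : ℝ} (hX0 : 0 < X)
    (hlo : C.lo ≤ X) (hhi : X ≤ C.hi) :
    ScalSlack C.kap C.dR (poisSum C.kap) (1 / 100) X := by
  have hF := C.facts hv.shape
  obtain ⟨lxs, lys, hx, hy, ht⟩ := hv.table
  refine ⟨C.mu, hF.hmu, by linarith [hF.hmn], fun M b wl Qs c hb hwl hwlM hX _ hL hQ hc _ => ?_⟩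
  rw [← hnu] at hX hL hQ ⊢
  have hM : 0 ≤ M := le_trans hwl hwlM
  have hm' : C.mu ≤ 1 / 2 := by linarith [hF.hmn, hF.hnu]
  have hn0 : 0 ≤ C.nu := by linarith [hF.hmn, hF.hmu]
  refine le_trans ?_ (le_trans (rhsS_le hF hL hQ hc) (le_of_eq (by ring)))
  show ∑' x : ℕ × ℕ, pw2 M b x.1 x.2 * nodeF C.kap C.mu C.nu x.1 x.2 ≤ _
  have hsum : Summable fun x : ℕ × ℕ => pw2 M b x.1 x.2 * nodeF C.kap C.mu C.nu x.1 x.2 :=
    Summable.of_nonneg_of_le (fun x => mul_nonneg (pw2_nonneg hM hb _ _)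
      (nodeF_nonneg hF.hk hF.hmu.le hm' hn0 hF.hnu _ _))
      (fun x => mul_le_mul_of_nonneg_left (nodeF_le hF.hk hF.hmu.le hm' hn0 hF.hnu _ _)
        (pw2_nonneg hM hb _ _)) ((pw2_sum M b).summable.mul_right (1 + C.kap))
  have hfin : HasSum (fun x : ℕ × ℕ => pw2 M b x.1 x.2 * C.defV x.1 x.2)
      (Real.exp (-(M + b)) * C.hSum M b) := by
    have := hasSum_sum_of_ne_finset_zero (L := SummationFilter.unconditional _)
      (f := fun x : ℕ × ℕ => pw2 M b x.1 x.2 * C.defV x.1 x.2)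
      (s := range (C.N + 1) ×ˢ range (C.N + 1)) fun x hx => by
      simp only [mem_product, mem_range, not_and_or, not_lt] at hx
      rw [defV_out hF (by omega), mul_zero]
    refine hasSum_val this ?_
    rw [hSum, sum_product, mul_sum]
    refine sum_congr rfl fun k _ => ?_
    rw [mul_sum]
    exact sum_congr rfl fun j _ => by rw [pw2]; ring
  have h1 := hasSum_le (fun x => by
    have := mul_le_mul_of_nonneg_left (nodeF_le_tab hF hx hy ht x.1 x.2)
      (pw2_nonneg hM hb x.1 x.2)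
    rw [mul_sub] at this
    exact this) hsum.hasSum (((pw2_sum M b).mul_right (1 + C.kap)).sub hfin)
  rw [one_mul] at h1
  have hH : 0 ≤ C.hSum M b := sum_nonneg fun k _ => sum_nonneg fun j _ =>
    mul_nonneg (by positivity) (defV_nonneg hF k j)
  rcases le_total (C.rhsS X M b) (1 + C.kap) with hR | hR
  · have := main_ineqS hF hv.poly hX0 hlo hhi hM hb hX hR
    have h2 := mul_le_mul_of_nonneg_left this (Real.exp_pos (-(M + b))).le
    have e : Real.exp (-(M + b)) * Real.exp (M + b) = 1 := by rw [← Real.exp_add]; simp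
    have h3 : Real.exp (-(M + b)) * ((1 + C.kap - C.rhsS X M b) * Real.exp (M + b))
        = 1 + C.kap - C.rhsS X M b := by
      linear_combination (1 + C.kap - C.rhsS X M b) * e
    linarith
  · have := mul_nonneg (Real.exp_pos (-(M + b))).le hH
    linarith

end Cell

end Window

end Vale.Agent.P154
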