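import Vale.Agent.P154.Window.Radix
import Vale.Agent.P154.Cert
import Mathlib.Topology.Algebra.Monoid
import Mathlib.Topology.Algebra.Ring.Real
import Mathlib.Tactic.FieldSimp

/-!
Rational expressions compiled to one integer polynomial over two positive denominators.
-/

namespace Vale.Agent.P154

namespace Window

/-- A rational expression. -/
inductive RE where
  | q (n : ℤ) (d : ℕ)
  | v (i : ℕ)
  | add (a b : RE)
  | mul (a b : RE)

namespace RE

instance : Add RE := ⟨add⟩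
instance : Mul RE := ⟨mul⟩

/-- The real value. -/
noncomputable def ev (z : ℕ → ℝ) : RE → ℝ
  | q n d => (n : ℝ) / d
  | v i => z i
  | add a b => ev z a + ev z b
  | mul a b => ev z a * ev z b

@[simp] lemma ev_add (z : ℕ → ℝ) (a b : RE) : ev z (a + b) = ev z a + ev z b := rfl
@[simp] lemma ev_mul (z : ℕ → ℝ) (a b : RE) : ev z (a * b) = ev z a * ev z b := rfl

lemma continuous_ev : ∀ e : RE, Continuous fun z : ℕ → ℝ => ev z e
  | q _ _ => continuous_const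
  | v i => continuous_apply i
  | add a b => (continuous_ev a).add (continuous_ev b)
  | mul a b => (continuous_ev a).mul (continuous_ev b)

end RE

/-- A numerator over `l * D1 ^ i * D2 ^ t`. -/
structure Fr where
  /-- the numerator -/
  num : Ex
  /-- the constant denominator -/
  l : ℕ
  /-- the exponent of the first denominator -/
  i : ℕ
  /-- the exponent of the second denominator -/
  t : ℕ

/-- Powers of an expression. -/
def exPow (e : Ex) : ℕ → Ex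
  | 0 => Ex.c 1
  | n + 1 => exPow e n * e

/-- Raise a fraction to larger denominators. -/
def Fr.lift (D1 D2 : Ex) (a : Fr) (l i t : ℕ) : Ex :=
  a.num * (Ex.c ((l / a.l : ℕ) : ℤ) * (exPow D1 (i - a.i) * exPow D2 (t - a.t)))

/-- Compilation. -/
def comp (D1 D2 : Ex) (env : ℕ → Fr) : RE → Fr
  | .q n d => if d = 0 then ⟨Ex.c 0, 1, 0, 0⟩ else ⟨Ex.c n, d, 0, 0⟩
  | .v i => env i
  | .add x y =>
    match comp D1 D2 env x, comp D1 D2 env y with
    | a, b => ⟨a.lift D1 D2 (Nat.lcm a.l b.l) (max a.i b.i) (max a.t b.t)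
        + b.lift D1 D2 (Nat.lcm a.l b.l) (max a.i b.i) (max a.t b.t),
        Nat.lcm a.l b.l, max a.i b.i, max a.t b.t⟩
  | .mul x y =>
    match comp D1 D2 env x, comp D1 D2 env y with
    | a, b => ⟨a.num * b.num, a.l * b.l, a.i + b.i, a.t + b.t⟩

/-- A fraction represents a value. -/
def Rep (ρ : ℕ → ℝ) (D1 D2 : Ex) (f : Fr) (r : ℝ) : Prop :=
  0 < f.l ∧ Ex.val ρ f.num = r * ((f.l : ℝ) * Ex.val ρ D1 ^ f.i * Ex.val ρ D2 ^ f.t)

lemma val_exPow (ρ : ℕ → ℝ) (e : Ex) : ∀ n, Ex.val ρ (exPow e n) = Ex.val ρ e ^ n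
  | 0 => by simp [exPow, Ex.val]
  | n + 1 => by
    change Ex.val ρ (exPow e n) * Ex.val ρ e = _
    rw [val_exPow ρ e n, pow_succ]

lemma lift_val {ρ : ℕ → ℝ} {D1 D2 : Ex} {f : Fr} {r : ℝ} (h : Rep ρ D1 D2 f r) {l i t : ℕ}
    (hl : f.l ∣ l) (hi : f.i ≤ i) (ht : f.t ≤ t) :
    Ex.val ρ (f.lift D1 D2 l i t) = r * ((l : ℝ) * Ex.val ρ D1 ^ i * Ex.val ρ D2 ^ t) := by
  obtain ⟨hpos, hv⟩ := h
  change Ex.val ρ f.num * ((((l / f.l : ℕ) : ℤ) : ℝ)
    * (Ex.val ρ (exPow D1 (i - f.i)) * Ex.val ρ (exPow D2 (t - f.t)))) = _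
  rw [hv, val_exPow, val_exPow, Int.cast_natCast]
  obtain ⟨m, rfl⟩ := hl
  rw [Nat.mul_div_cancel_left m hpos]
  conv_rhs => rw [← Nat.add_sub_cancel' hi, ← Nat.add_sub_cancel' ht, pow_add, pow_add]
  push_cast
  ring

lemma comp_rep {ρ : ℕ → ℝ} {D1 D2 : Ex} {env : ℕ → Fr} {z : ℕ → ℝ}
    (henv : ∀ i, Rep ρ D1 D2 (env i) (z i)) : ∀ e, Rep ρ D1 D2 (comp D1 D2 env e) (RE.ev z e)
  | .q n d => by
    simp only [comp]
    split_ifs with h
    · subst h; simp [Rep, Ex.val, RE.ev]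
    · refine ⟨Nat.pos_of_ne_zero h, ?_⟩
      have : (d : ℝ) ≠ 0 := by exact_mod_cast h
      simp [Ex.val, RE.ev]; field_simp
  | .v i => henv i
  | .add x y => by
    have hx := comp_rep henv x
    have hy := comp_rep henv y
    simp only [comp]
    refine ⟨Nat.lcm_pos hx.1 hy.1, ?_⟩
    change Ex.val ρ (Fr.lift _ _ _ _ _ _) + Ex.val ρ (Fr.lift _ _ _ _ _ _) = (_ + _) * _
    rw [lift_val hx (Nat.dvd_lcm_left _ _) (le_max_left _ _) (le_max_left _ _),
      lift_val hy (Nat.dvd_lcm_right _ _) (le_max_right _ _) (le_max_right _ _)]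
    ring
  | .mul x y => by
    have hx := comp_rep henv x
    have hy := comp_rep henv y
    simp only [comp]
    refine ⟨Nat.mul_pos hx.1 hy.1, ?_⟩
    change Ex.val ρ _ * Ex.val ρ _ = (_ * _) * _
    rw [hx.2, hy.2, pow_add, pow_add]
    push_cast
    ring

/-- The coefficient test of a compiled expression in two variables. -/
def chkRE (bits : ℕ) (D1 D2 : Ex) (env : ℕ → Fr) (e : RE) : Bool :=
  Ex.goodR (fun z => decide (0 ≤ z)) bits
    (Ex.deg 0 (comp D1 D2 env e).num + 1) (Ex.deg 1 (comp D1 D2 env e).num + 1) 1 1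
    (comp D1 D2 env e).num

lemma chkRE_sound {bits : ℕ} {D1 D2 : Ex} {env : ℕ → Fr} {e : RE}
    (h : chkRE bits D1 D2 env e = true) {ρ : ℕ → ℝ} (h0 : ∀ i, 0 ≤ ρ i)
    (h4 : ∀ i, 4 ≤ i → ρ i = 0) (hD1 : 0 < Ex.val ρ D1) (hD2 : 0 < Ex.val ρ D2) {z : ℕ → ℝ}
    (henv : ∀ i, Rep ρ D1 D2 (env i) (z i)) : 0 ≤ RE.ev z e := by
  obtain ⟨hl, hv⟩ := comp_rep henv e
  have hn := Ex.nonneg_of_goodR h ρ h0 h4
  rw [hv] at hn
  refine nonneg_of_mul_nonneg_left hn ?_
  have : (0 : ℝ) < ((comp D1 D2 env e).l : ℝ) := by exact_mod_cast hl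
  positivity

/-- Horner's scheme for `∑ a_m v ^ m (i ! / (i + m) !)`. -/
def hor (v : RE) : List RE → ℕ → RE
  | [], _ => .q 0 1
  | a :: l, i => a + v * (.q 1 (i + 1) * hor v l (i + 1))

/-- The coefficient test after multiplication by powers of the two denominators. -/
def chkREr (bits r : ℕ) (D1 D2 : Ex) (env : ℕ → Fr) (e : RE) : Bool :=
  Ex.goodR (fun z => decide (0 ≤ z)) bits
    (Ex.deg 0 ((comp D1 D2 env e).num * (exPow D1 r * exPow D2 r)) + 1)
    (Ex.deg 1 ((comp D1 D2 env e).num * (exPow D1 r * exPow D2 r)) + 1) 1 1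
    ((comp D1 D2 env e).num * (exPow D1 r * exPow D2 r))

lemma chkREr_sound {bits r : ℕ} {D1 D2 : Ex} {env : ℕ → Fr} {e : RE}
    (h : chkREr bits r D1 D2 env e = true) {ρ : ℕ → ℝ} (h0 : ∀ i, 0 ≤ ρ i)
    (h4 : ∀ i, 4 ≤ i → ρ i = 0) (hD1 : 0 < Ex.val ρ D1) (hD2 : 0 < Ex.val ρ D2) {z : ℕ → ℝ}
    (henv : ∀ i, Rep ρ D1 D2 (env i) (z i)) : 0 ≤ RE.ev z e := by
  obtain ⟨hl, hv⟩ := comp_rep henv e
  have hn : 0 ≤ Ex.val ρ (comp D1 D2 env e).num
      * (Ex.val ρ (exPow D1 r) * Ex.val ρ (exPow D2 r)) := Ex.nonneg_of_goodR h ρ h0 h4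
  rw [hv, val_exPow, val_exPow] at hn
  have hpos : (0 : ℝ) < ((comp D1 D2 env e).l : ℝ) := by exact_mod_cast hl
  refine nonneg_of_mul_nonneg_left (nonneg_of_mul_nonneg_left hn (by positivity)) (by positivity)

end Window

end Vale.Agent.P154
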