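import Vale.Agent.P154.KSAdm
import Vale.Agent.P154.Window.Main
import Vale.Agent.P154.Window.Three.PoissonUpper
import Vale.Agent.P154.Window.MainFive
import Vale.Agent.P154.Window.Three.MainGap
import Vale.Agent.P154.Window.MainFour
import Vale.Agent.P154.Window.Four.FourLow

/-!
The three-state Potts channel: the Kesten-Stigum threshold is exact.
-/

namespace Vale.Agent.P154

namespace Window

lemma nonrec3 {p : ℕ → ℝ} {d l : ℝ} (hp : Law p d) (hb : 0 < branch p)
    (h0 : -(99 / 500) ≤ l) (h1 : l ≤ 1) (hd : d * l ^ 2 ≤ 1) : Nonreconstruction p l := by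
  rcases le_or_gt 0 l with h | h
  · exact nonreconstruction_of_le hp h h1 hd hb
  · exact nonreconstruction_near hp h0 h hd hb

lemma dichotomy {p : ℕ → ℝ} {d m2 l : ℝ} (hp : Law p d)
    (hm : HasSum (fun N : ℕ => (N : ℝ) * ((N : ℝ) - 1) * p N) m2)
    (h0 : -(1 / 2) ≤ l) (h1 : l ≤ 1) (non_ : d * l ^ 2 ≤ 1 → Nonreconstruction p l) :
    (Reconstruction p l ↔ 1 < d * l ^ 2) ∧ (Nonreconstruction p l ↔ d * l ^ 2 ≤ 1) := by
  have rec_ : 1 < d * l ^ 2 → Reconstruction p l := reconstruction_adm hp h0 h1 hm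
  have excl : Nonreconstruction p l → ¬ Reconstruction p l := by
    rintro h ⟨ε, hε, hb'⟩
    have := ge_of_tendsto h (Filter.Eventually.of_forall hb')
    linarith
  refine ⟨⟨fun h => ?_, rec_⟩, ⟨fun h => ?_, non_⟩⟩
  · by_contra hn
    exact excl (non_ (not_lt.mp hn)) h
  · by_contra hn
    exact excl h (rec_ (not_le.mp hn))

/-- Regular trees. -/
theorem threshold_regular (d : ℕ) (hd : 2 ≤ d) (l : ℝ) (h0 : -(1 / 2) ≤ l) (h1 : l ≤ 1) :
    (Reconstruction (regularLaw d) l ↔ 1 < (d : ℝ) * l ^ 2) ∧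
      (Nonreconstruction (regularLaw d) l ↔ (d : ℝ) * l ^ 2 ≤ 1) := by
  refine dichotomy (regular_law d) (regular_m2 d) h0 h1 fun hk => ?_
  rcases le_or_gt (-(99 / 500) : ℝ) l with h | h
  · exact nonrec3 (regular_law d) (regular_branch hd) h h1 hk
  · rcases le_or_gt d 4 with h4 | h4
    · exact nonrec_four_of_reach four_reach_low h4 h0 (by linarith)
    rcases eq_or_lt_of_le (show 5 ≤ d from h4) with h5 | h5
    · subst h5
      exact nonrec_five h0 (by linarith) (by exact_mod_cast hk)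
    · exact nonrec_regular_high h5 h0 (by linarith) hk

/-- Poisson trees. -/
theorem threshold_poisson (d : ℝ) (hd : 0 < d) (l : ℝ) (h0 : -(1 / 2) ≤ l) (h1 : l ≤ 1) :
    (Reconstruction (poissonLaw d) l ↔ 1 < d * l ^ 2) ∧
      (Nonreconstruction (poissonLaw d) l ↔ d * l ^ 2 ≤ 1) := by
  refine dichotomy (poisson_law hd) (poisson_m2 hd) h0 h1 fun hk => ?_
  rcases le_or_gt (-(99 / 500) : ℝ) l with h | h
  · exact nonrec3 (poisson_law hd) (poisson_branch hd) h h1 hk
  rcases le_total d (21 / 5) with hc | hc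
  · exact nonrec_poisson_gap hd hc h0 (by linarith) hk
  · exact nonrec_poisson_upper hc h0 (by linarith) hk

/-- Any offspring law, for parameters not below `-99/500`. -/
theorem threshold_general (p : ℕ → ℝ) (d : ℝ) (hp : ∀ n, 0 ≤ p n) (ht : HasSum p 1)
    (hm : HasSum (fun n : ℕ => (n : ℝ) * p n) d) (hn : ∃ n, 2 ≤ n ∧ 0 < p n) (l : ℝ)
    (h0 : -(99 / 500) ≤ l) (h1 : l ≤ 1) (hd : d * l ^ 2 ≤ 1) : Nonreconstruction p l := by
  obtain ⟨n, h2, hn⟩ := hn
  exact nonrec3 ⟨hp, ht, hm⟩ (branch_pos ⟨hp, ht, hm⟩ h2 hn) h0 h1 hd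

end Window

end Vale.Agent.P154
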