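import Vale.Agent.P154.Window.Copies
import Vale.Agent.P154.Window.Conv

/-!
Several copies of a mixture of an uninformative child and two reference children.
-/

namespace Vale.Agent.P154

namespace Window

variable {ι : Type} {L : Lik ι} {σ ν : ℝ} {w : Fin 3 → ℝ}

lemma mo_pair_node_zero (hL : Ok L) (κ : ℝ) : mo (mPhi κ) (pair L (node 0)) = mo (mPhi κ) L := by
  rw [mo_pair_node hL κ le_rfl (by norm_num)]
  refine congrArg (· / 3) (tsum_congr fun x => ?_)
  have h1 : ((1 : ℝ) - 2 * 0) / 3 = 1 / 3 := by norm_num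
  have h2 : ((1 : ℝ) + 0) / 3 = 1 / 3 := by norm_num
  simp only [row, childT, rot6, h1, h2]
  rw [mul_comm (L x 0), mul_comm (L x 1), mul_comm (L x 2), mPhi_scale]
  ring

/-- The potential of some reference copies combined with further copies of a mixture. -/
noncomputable def refPhi (κ σ ν : ℝ) (w : Fin 3 → ℝ) (N i j : ℕ) : ℝ :=
  mo (mPhi κ) (pair (pair (power (node σ) i) (power (node ν) j))
    (power (mixNode w ![0, σ, ν]) N))

lemma refPhi_succ (hw : ∀ i, 0 ≤ w i) (hw1 : ∑ i, w i = 1) (h0 : 0 ≤ σ) (h0' : σ ≤ 1 / 2)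
    (h1 : 0 ≤ ν) (h1' : ν ≤ 1 / 2) (κ : ℝ) (N i j : ℕ) :
    refPhi κ σ ν w (N + 1) i j = w 0 * refPhi κ σ ν w N i j + w 1 * refPhi κ σ ν w N (i + 1) j
      + w 2 * refPhi κ σ ν w N i (j + 1) := by
  have hμ : ∀ a : Fin 3, 0 ≤ (![0, σ, ν] a : ℝ) ∧ ![0, σ, ν] a ≤ 1 / 2 := fun a => by
    fin_cases a <;> simp <;> constructor <;> linarith
  have hQ := mixNode_ok hw hw1 hμ
  have hX : ∀ i j, Ok (pair (power (node σ) i) (power (node ν) j)) := fun i j =>
    pair_ok (power_ok _ (node_ok h0 h0') i) (power_ok _ (node_ok h1 h1') j)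
  have hXQ := pair_ok (hX i j) (power_ok _ hQ N)
  rw [refPhi, mo_pair_power_succ, mo_swap_right, mo_pair_mixNode hw hw1 hμ hXQ,
    Fin.sum_univ_three]
  have a0 := mo_pair_node_zero hXQ κ
  have a1 : mo (mPhi κ) (pair (pair (pair (power (node σ) i) (power (node ν) j))
      (power (mixNode w ![0, σ, ν]) N)) (node σ)) = refPhi κ σ ν w N (i + 1) j := by
    rw [mo_swap_right, refPhi]
    have : pair (pair (power (node σ) (i + 1)) (power (node ν) j)) (power (mixNode w ![0, σ, ν]) N)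
      = reindex (Equiv.prodCongr (Equiv.prodCongr (Fin.consEquiv fun _ => Fin 3).symm (Equiv.refl _))
          (Equiv.refl _))
        (pair (pair (pair (node σ) (power (node σ) i)) (power (node ν) j))
          (power (mixNode w ![0, σ, ν]) N)) := by
      funext z l; simp [pair, reindex, power_succ]
    rw [this, mo_reindex]
    let e : ((((Fin i → Fin 3) × (Fin j → Fin 3)) × Fin 3) × (Fin N → Fin 3 × Fin 3))
        ≃ (((Fin 3 × (Fin i → Fin 3)) × (Fin j → Fin 3)) × (Fin N → Fin 3 × Fin 3)) :=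
      { toFun := fun z => (((z.1.2, z.1.1.1), z.1.1.2), z.2)
        invFun := fun z => (((z.1.1.2, z.1.2), z.1.1.1), z.2)
        left_inv := fun _ => rfl
        right_inv := fun _ => rfl }
    rw [← mo_reindex e]
    congr 1
    funext z l; simp only [pair, reindex, e, Equiv.coe_fn_mk]; ring
  have a2 : mo (mPhi κ) (pair (pair (pair (power (node σ) i) (power (node ν) j))
      (power (mixNode w ![0, σ, ν]) N)) (node ν)) = refPhi κ σ ν w N i (j + 1) := by
    rw [mo_swap_right, refPhi]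
    have : pair (pair (power (node σ) i) (power (node ν) (j + 1))) (power (mixNode w ![0, σ, ν]) N)
      = reindex (Equiv.prodCongr (Equiv.prodCongr (Equiv.refl _) (Fin.consEquiv fun _ => Fin 3).symm)
          (Equiv.refl _))
        (pair (pair (power (node σ) i) (pair (node ν) (power (node ν) j)))
          (power (mixNode w ![0, σ, ν]) N)) := by
      funext z l; simp [pair, reindex, power_succ]
    rw [this, mo_reindex]
    let e : ((((Fin i → Fin 3) × (Fin j → Fin 3)) × Fin 3) × (Fin N → Fin 3 × Fin 3))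
        ≃ (((Fin i → Fin 3) × (Fin 3 × (Fin j → Fin 3))) × (Fin N → Fin 3 × Fin 3)) :=
      { toFun := fun z => ((z.1.1.1, (z.1.2, z.1.1.2)), z.2)
        invFun := fun z => (((z.1.1, z.1.2.2), z.1.2.1), z.2)
        left_inv := fun _ => rfl
        right_inv := fun _ => rfl }
    rw [← mo_reindex e]
    congr 1
    funext z l; simp only [pair, reindex, e, Equiv.coe_fn_mk]; ring
  simp only [Matrix.cons_val_zero, Matrix.cons_val_one, Matrix.cons_val]
  rw [a0, a1, a2]
  rfl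

lemma mo_power_eq_refPhi (κ : ℝ) (N : ℕ) :
    mo (mPhi κ) (power (mixNode w ![0, σ, ν]) N) = refPhi κ σ ν w N 0 0 := by
  rw [refPhi]
  let e : ((Fin 0 → Fin 3) × (Fin 0 → Fin 3)) × (Fin N → Fin 3 × Fin 3) ≃ (Fin N → Fin 3 × Fin 3) :=
    { toFun := fun z => z.2
      invFun := fun z => ((Fin.elim0, Fin.elim0), z)
      left_inv := fun z => by
        obtain ⟨⟨a, b⟩, c⟩ := z
        simp [Subsingleton.elim a Fin.elim0, Subsingleton.elim b Fin.elim0]
      right_inv := fun _ => rfl }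
  rw [← mo_reindex e]
  congr 1
  funext z l; simp [pair, reindex, e, power]

lemma refPhi_zero (κ : ℝ) (i j : ℕ) : refPhi κ σ ν w 0 i j = nodeF κ σ ν i j := by
  rw [refPhi, mo_pair_power_zero, nodeF]

/-- Copies of the mixture in closed form. -/
theorem mo_power_mix (hw : ∀ i, 0 ≤ w i) (hw1 : ∑ i, w i = 1) (h0 : 0 ≤ σ) (h0' : σ ≤ 1 / 2)
    (h1 : 0 ≤ ν) (h1' : ν ≤ 1 / 2) (κ : ℝ) (N : ℕ) :
    mo (mPhi κ) (power (mixNode w ![0, σ, ν]) N)
      = (N.factorial : ℝ) * trio (w 0) (w 1) (w 2) (nodeF κ σ ν) 0 0 N := by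
  rw [mo_power_eq_refPhi]
  exact solve_rec (refPhi κ σ ν w) (nodeF κ σ ν) (refPhi_zero κ)
    (fun N i j => refPhi_succ hw hw1 h0 h0' h1 h1' κ N i j) N 0 0

lemma abs_mo_le {g : ℝ → ℝ → ℝ → ℝ} {C : ℝ} (hL : Ok L) (hg : Dom g C) : |mo g L| ≤ C := by
  have hs := (hL.summable_mom hg).hasSum
  have hm := hL.hasSum_mass.mul_left C
  have hb : ∀ x, |row g (L x)| ≤ C * row mS (L x) := fun x =>
    hg _ _ _ (hL.nonneg x 0) (hL.nonneg x 1) (hL.nonneg x 2)
  have u := hasSum_le (fun x => (abs_le.mp (hb x)).2) hs hm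
  have l := hasSum_le (fun x => (abs_le.mp (hb x)).1) hm.neg hs
  rw [abs_le, mo]
  constructor <;> linarith

/-- The Poisson average of copies of the mixture. -/
theorem poisson_mix (hw : ∀ i, 0 ≤ w i) (hw1 : ∑ i, w i = 1) (h0 : 0 ≤ σ) (h0' : σ ≤ 1 / 2)
    (h1 : 0 ≤ ν) (h1' : ν ≤ 1 / 2) (κ d : ℝ) :
    HasSum (fun N => poissonLaw d N * mo (mPhi κ) (power (mixNode w ![0, σ, ν]) N))
      (∑' z : ℕ × ℕ, Real.exp (-(d * w 1 + d * w 2)) * (d * w 1) ^ z.1 * (d * w 2) ^ z.2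
        / ((z.1.factorial : ℝ) * z.2.factorial) * nodeF κ σ ν z.1 z.2) := by
  have hC : ∀ i j, |nodeF κ σ ν i j| ≤ 1 + |κ| := fun i j =>
    abs_mo_le (pair_ok (power_ok _ (node_ok h0 h0') i) (power_ok _ (node_ok h1 h1') j))
      (dom_mPhi κ)
  have h := ((hasSum_pow_trio (d := d) (w0 := w 0) (w1 := w 1) (w2 := w 2) hC).mul_left
    (Real.exp (-d)))
  have e : ∀ N, poissonLaw d N * mo (mPhi κ) (power (mixNode w ![0, σ, ν]) N)
      = Real.exp (-d) * (d ^ N * trio (w 0) (w 1) (w 2) (nodeF κ σ ν) 0 0 N) := fun N => by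
    rw [mo_power_mix hw hw1 h0 h0' h1 h1', poissonLaw]
    field_simp
  simp only [e]
  refine hasSum_val h ?_
  rw [← tsum_mul_left, ← tsum_mul_left]
  refine tsum_congr fun z => ?_
  have hsum : w 0 + w 1 + w 2 = 1 := by rw [← hw1, Fin.sum_univ_three]
  have ee : Real.exp (-(d * w 1 + d * w 2)) = Real.exp (-d) * Real.exp (d * w 0) := by
    rw [← Real.exp_add]; congr 1; linear_combination -d * hsum
  simp only [ew]
  rw [ee]
  ring

/-- A fixed number of copies of the mixture. -/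
theorem fixed_mix (hw : ∀ i, 0 ≤ w i) (hw1 : ∑ i, w i = 1) (h0 : 0 ≤ σ) (h0' : σ ≤ 1 / 2)
    (h1 : 0 ≤ ν) (h1' : ν ≤ 1 / 2) (κ : ℝ) (n : ℕ) :
    mo (mPhi κ) (power (mixNode w ![0, σ, ν]) n)
      = ∑ y ∈ Finset.antidiagonal n, ∑ z ∈ Finset.antidiagonal y.2,
          (n.factorial : ℝ) / ((y.1.factorial : ℝ) * z.1.factorial * z.2.factorial)
            * w 0 ^ y.1 * w 1 ^ z.1 * w 2 ^ z.2 * nodeF κ σ ν z.1 z.2 := by
  rw [mo_power_mix hw hw1 h0 h0' h1 h1']
  simp only [trio, econv, duo, ew, Finset.mul_sum, zero_add]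
  refine Finset.sum_congr rfl fun y _ => Finset.sum_congr rfl fun z _ => ?_
  field_simp

end Window

end Vale.Agent.P154
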