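import Vale.Agent.P154.Window.CertL1Check
import Vale.Agent.P154.Window.Eval
import Vale.Agent.P154.Window.Invariants

/-!
The quotient tables of the extremal-direction inequality are nonnegative on the admissible region.
-/

namespace Vale.Agent.P154

namespace Window

/-- The two certified properties of a quotient table. -/
structure QCert (gs : List ((ℕ × ℕ) × Terms)) : Prop where
  fits : fitsG gs = true
  low : ∀ a m b s : ℝ, 0 ≤ a → 0 ≤ m → 0 ≤ b → 0 ≤ s → 0 ≤ evLow rc a m b s gs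
  high : ∀ a m b s : ℝ, 0 ≤ a → 0 ≤ m → 0 ≤ b → 0 ≤ s → 0 ≤ evHigh rc a m b s gs

lemma val_evLow (ρ : ℕ → ℝ) (gs : List ((ℕ × ℕ) × Terms)) :
    Ex.val ρ (evLow Ex.c (Ex.x 2) (Ex.x 1) (Ex.x 3) (Ex.x 0) gs)
      = evLow rc (ρ 2) (ρ 1) (ρ 3) (ρ 0) gs := by
  simp only [evLow, val_evOut, val_mul, val_add, val_c, val_x]

lemma val_evHigh (ρ : ℕ → ℝ) (gs : List ((ℕ × ℕ) × Terms)) :
    Ex.val ρ (evHigh Ex.c (Ex.x 2) (Ex.x 1) (Ex.x 3) (Ex.x 0) gs)
      = evHigh rc (ρ 2) (ρ 1) (ρ 3) (ρ 0) gs := by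
  simp only [evHigh, highC, val_evOut, val_mul, val_add, val_dif, val_c, val_x]

theorem qcert_lo : QCert quoLo where
  fits := by decide +kernel
  low a m b s ha hm hb hs := by
    have := Ex.nonneg_of_goodR cert_l1LowLo (four s m a b) (four_nonneg hs hm ha hb)
      (four_zero s m a b)
    rwa [val_evLow] at this
  high a m b s ha hm hb hs := by
    have := Ex.nonneg_of_goodR cert_l1HighLo (four s m a b) (four_nonneg hs hm ha hb)
      (four_zero s m a b)
    rwa [val_evHigh] at this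

theorem qcert_hi : QCert quoHi where
  fits := by decide +kernel
  low a m b s ha hm hb hs := by
    have := Ex.nonneg_of_goodR cert_l1LowHi (four s m a b) (four_nonneg hs hm ha hb)
      (four_zero s m a b)
    rwa [val_evLow] at this
  high a m b s ha hm hb hs := by
    have := Ex.nonneg_of_goodR cert_l1HighHi (four s m a b) (four_nonneg hs hm ha hb)
      (four_zero s m a b)
    rwa [val_evHigh] at this

variable {gs : List ((ℕ × ℕ) × Terms)}

lemma low_open (h : QCert gs) {τ η β σ : ℝ} (t0 : 0 ≤ τ) (t1 : τ < 1) (e0 : 0 ≤ η) (e1 : η < 1)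
    (b0 : 0 ≤ β) (b1 : β < 1) (s0 : 0 ≤ σ) (s1 : σ < 1) :
    0 ≤ evG rc ((τ / 2) ^ 2) (η / 2) ((τ / 2) ^ 3 * (2 * β - 1)) ((η / 2) ^ 3 * (2 * σ - 1)) gs := by
  have ht : 0 < 1 - τ := by linarith
  have he : 0 < 1 - η := by linarith
  have hb : 0 < 1 - β := by linarith
  have hs : 0 < 1 - σ := by linarith
  have hh := h.low (τ / (1 - τ)) (η / (1 - η)) (β / (1 - β)) (σ / (1 - σ)) (by positivity)
    (by positivity) (by positivity) (by positivity)
  simp only [evLow, rc] at hh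
  push_cast at hh
  rw [evOut_eq (by positivity) (by positivity) (by positivity) (by positivity) gs h.fits] at hh
  have key : 0 ≤ evG rc ((τ / (1 - τ) / (2 * (1 + τ / (1 - τ)))) ^ 2)
      (η / (1 - η) / (2 * (1 + η / (1 - η))))
      (τ / (1 - τ) * (τ / (1 - τ)) * (τ / (1 - τ)) * (β / (1 - β) + -1)
        / ((1 + β / (1 - β)) * (2 * (1 + τ / (1 - τ))) ^ 3))
      ((η / (1 - η) / (2 * (1 + η / (1 - η)))) ^ 3
        * ((σ / (1 - σ) + -1) / (1 + σ / (1 - σ)))) gs :=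
    nonneg_of_mul_nonneg_right hh (by positivity)
  have q1 : τ / (1 - τ) / (2 * (1 + τ / (1 - τ))) = τ / 2 := by field_simp; ring
  have q2 : η / (1 - η) / (2 * (1 + η / (1 - η))) = η / 2 := by field_simp; ring
  have q3 : τ / (1 - τ) * (τ / (1 - τ)) * (τ / (1 - τ)) * (β / (1 - β) + -1)
      / ((1 + β / (1 - β)) * (2 * (1 + τ / (1 - τ))) ^ 3) = (τ / 2) ^ 3 * (2 * β - 1) := by
    field_simp; ring
  have q4 : (σ / (1 - σ) + -1) / (1 + σ / (1 - σ)) = 2 * σ - 1 := by field_simp; ring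
  rwa [q1, q2, q3, q4] at key

lemma high_open (h : QCert gs) {τ η β σ : ℝ} (t0 : 0 ≤ τ) (t1 : τ < 1) (e0 : 0 ≤ η) (e1 : η < 1)
    (b0 : 0 ≤ β) (b1 : β < 1) (s0 : 0 ≤ σ) (s1 : σ < 1) :
    0 ≤ evG rc (((1 + τ) / 2) ^ 2) (η / 2)
      ((1 - β) * ((3 * ((1 + τ) / 2) ^ 2 - 1) / 2) + β * ((1 + τ) / 2) ^ 3)
      ((η / 2) ^ 3 * (2 * σ - 1)) gs := by
  have ht : 0 < 1 - τ := by linarith
  have he : 0 < 1 - η := by linarith
  have hb : 0 < 1 - β := by linarith
  have hs : 0 < 1 - σ := by linarith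
  have hh := h.high (τ / (1 - τ)) (η / (1 - η)) (β / (1 - β)) (σ / (1 - σ)) (by positivity)
    (by positivity) (by positivity) (by positivity)
  simp only [evHigh, highC, dif, rc] at hh
  push_cast at hh
  rw [evOut_eq (by positivity) (by positivity) (by positivity) (by positivity) gs h.fits] at hh
  have key : 0 ≤ evG rc (((1 + 2 * (τ / (1 - τ))) / (2 * (1 + τ / (1 - τ)))) ^ 2)
      (η / (1 - η) / (2 * (1 + η / (1 - η))))
      ((2 * (1 + τ / (1 - τ))
            * (3 * ((1 + 2 * (τ / (1 - τ))) * (1 + 2 * (τ / (1 - τ))))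
              + -1 * (2 * (1 + τ / (1 - τ)) * (2 * (1 + τ / (1 - τ)))))
          + 2 * (β / (1 - β))
            * ((1 + 2 * (τ / (1 - τ))) * (1 + 2 * (τ / (1 - τ))) * (1 + 2 * (τ / (1 - τ)))))
        / (2 * (1 + β / (1 - β)) * (2 * (1 + τ / (1 - τ))) ^ 3))
      ((η / (1 - η) / (2 * (1 + η / (1 - η)))) ^ 3
        * ((σ / (1 - σ) + -1) / (1 + σ / (1 - σ)))) gs :=
    nonneg_of_mul_nonneg_right hh (by positivity)
  have q1 : (1 + 2 * (τ / (1 - τ))) / (2 * (1 + τ / (1 - τ))) = (1 + τ) / 2 := by field_simp; ring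
  have q2 : η / (1 - η) / (2 * (1 + η / (1 - η))) = η / 2 := by field_simp; ring
  have q3 : (2 * (1 + τ / (1 - τ))
            * (3 * ((1 + 2 * (τ / (1 - τ))) * (1 + 2 * (τ / (1 - τ))))
              + -1 * (2 * (1 + τ / (1 - τ)) * (2 * (1 + τ / (1 - τ)))))
          + 2 * (β / (1 - β))
            * ((1 + 2 * (τ / (1 - τ))) * (1 + 2 * (τ / (1 - τ))) * (1 + 2 * (τ / (1 - τ)))))
        / (2 * (1 + β / (1 - β)) * (2 * (1 + τ / (1 - τ))) ^ 3)
      = (1 - β) * ((3 * ((1 + τ) / 2) ^ 2 - 1) / 2) + β * ((1 + τ) / 2) ^ 3 := by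
    field_simp; ring
  have q4 : (σ / (1 - σ) + -1) / (1 + σ / (1 - σ)) = 2 * σ - 1 := by field_simp; ring
  rwa [q1, q2, q3, q4] at key

/-- A quotient table is nonnegative on the whole region. -/
theorem quo_nonneg (h : QCert gs) {A c m y : ℝ} (hd : Dm A c) (hm : 0 ≤ m) (hm1 : m ≤ 1 / 2)
    (hy : |y| ≤ m ^ 3) : 0 ≤ evG rc A m c y gs := by
  obtain ⟨σ, s0, s1, ey⟩ := sigma_exists hy
  have em : m = 2 * m / 2 := by ring
  rw [ey, em]
  have e0 : (0 : ℝ) ≤ 2 * m := by linarith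
  have e1 : 2 * m ≤ 1 := by linarith
  generalize 2 * m = η at e0 e1 ⊢
  rcases hd.chart with ⟨τ, β, t0, t1, b0, b1, eA, ec⟩ | ⟨τ, β, t0, t1, b0, b1, eA, ec⟩
  · rw [eA, ec]
    have := nonneg_at_one (f := fun t => evG rc ((t * τ / 2) ^ 2) (t * η / 2)
      ((t * τ / 2) ^ 3 * (2 * (t * β) - 1)) ((t * η / 2) ^ 3 * (2 * (t * σ) - 1)) gs)
      (continuous_evG (by fun_prop) (by fun_prop) (by fun_prop) (by fun_prop) gs)
      (fun t ht ht1 => low_open h (mul_nonneg ht t0) (by nlinarith) (mul_nonneg ht e0)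
        (by nlinarith) (mul_nonneg ht b0) (by nlinarith) (mul_nonneg ht s0) (by nlinarith))
    simpa using this
  · rw [eA, ec]
    have := nonneg_at_one (f := fun t => evG rc (((1 + t * τ) / 2) ^ 2) (t * η / 2)
      ((1 - t * β) * ((3 * ((1 + t * τ) / 2) ^ 2 - 1) / 2) + t * β * ((1 + t * τ) / 2) ^ 3)
      ((t * η / 2) ^ 3 * (2 * (t * σ) - 1)) gs)
      (continuous_evG (by fun_prop) (by fun_prop) (by fun_prop) (by fun_prop) gs)
      (fun t ht ht1 => high_open h (mul_nonneg ht t0) (by nlinarith) (mul_nonneg ht e0)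
        (by nlinarith) (mul_nonneg ht b0) (by nlinarith) (mul_nonneg ht s0) (by nlinarith))
    simpa using this

end Window

end Vale.Agent.P154
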