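import Vale.Agent.P154.Window.Garbling

/-!
The comparison with a fixed degree at a stronger negative parameter, and the phase after it.
-/

namespace Vale.Agent.P154

namespace Window

/-- A smaller degree or a weaker negative parameter is below a fixed one. -/
theorem below_ref {m k : ℕ} (hm : m ≤ k) {l0 l : ℝ} (a0 : -(1 / 2) ≤ l0) (a1 : l0 < 0)
    (h0 : l0 ≤ l) (h1 : l ≤ 0) : ∀ n, Below (tab (regularLaw m) l n) (tab (regularLaw k) l0 n)
  | 0 => fun g C _ => le_of_eq rfl
  | n + 1 => fun g C hg => by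
    have hl : -(1 / 2) ≤ l := le_trans a0 h0
    have hA := tab_ok (regular_law m) hl (by linarith : l ≤ 1) n
    have hB := tab_ok (regular_law k) a0 (by linarith : l0 ≤ 1) n
    have t0 : 0 ≤ l / l0 := div_nonneg_of_nonpos h1 a1.le
    have t1 : l / l0 ≤ 1 := by rw [div_le_one_of_neg a1]; exact h0
    have e : shift l (tab (regularLaw m) l n)
        = shift l0 (shift (l / l0) (tab (regularLaw m) l n)) := by
      rw [shift_shift, mul_div_cancel₀ _ a1.ne]
    rw [mo_tab_succ, mo_tab_succ, e]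
    have hs := shift_ok_adm a0 (by linarith : l0 ≤ 1) (shift_ok t0 t1 hA)
    refine le_trans (below_regular hs hm g C hg) ?_
    exact Below.mix (regular_law k) hs (shift_ok_adm a0 (by linarith : l0 ≤ 1) hB)
      (Below.shift a0 (by linarith) ((shift_below hA t0 t1).trans (below_ref hm a0 a1 h0 h1 n))) g C hg

/-- Five children: one depth with a small potential and scalar inequalities below it. -/
theorem nonrec_regular_five {l : ℝ} (h0 : -(1 / 2) ≤ l) (h1 : l ≤ 0) (hd : 5 * l ^ 2 ≤ 1)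
    {κ κ' ε : ℝ} (hc : CC κ κ') (k0 : 0 ≤ κ) (k1 : κ ≤ 12 / 25) (k0' : 0 ≤ κ') (k1' : κ' ≤ 12 / 25)
    (e0 : 0 < ε) (e1 : ε ≤ 1) {B : ℝ}
    (hreach : ∃ n, mo (mPhi κ) (tab (regularLaw 5) (-(17 / 38)) n) ≤ B)
    (hS : ∀ X : ℝ, 0 ≤ X → X ≤ B → Scal κ κ' (5 : ℕ) (fun σ ν => binSum κ σ ν 5) ε X) :
    Nonreconstruction (regularLaw 5) l := by
  obtain ⟨n0, hn0⟩ := hreach
  have hp := regular_law 5
  have ok := tab_ok hp h0 (by linarith : l ≤ 1)
  have h5 : ((5 : ℕ) : ℝ) = 5 := by norm_num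
  have hl0 : -(17 / 38) ≤ l := by nlinarith
  refine nonrec_of_drop (d := ((5 : ℕ) : ℝ)) hp h0 (by linarith) (by norm_num) (by rw [h5]; exact hd)
    k0 e0 e1 B (n0 := n0)
    (le_trans ((below_ref le_rfl (by norm_num) (by norm_num) hl0 h1 n0).pot_le k0) hn0)
    fun n hn => ?_
  have a0 : 0 ≤ info (regularLaw 5) l n := (ok n).mo_nonneg fun _ _ _ => mA_nonneg
  have aB : info (regularLaw 5) l n ≤ B := by
    have hb := hn
    rw [pot_eq ⟨ok 0, ok⟩ κ n] at hb
    have := mul_nonneg k0 ((ok n).mo_nonneg (g := mQ) fun _ _ _ => mQ_nonneg)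
    linarith
  have hX := mul_le_mul_of_nonneg_right hd a0
  refine drop_regular (m := 5) (by norm_num) h0 (by linarith) (by rw [h5]; exact hd) hc k0 k1 k0' k1'
    e0.le n (hS _ (by positivity) ?_)
  rw [h5]; linarith

end Window

end Vale.Agent.P154
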