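import Vale.Agent.P154.Window.Radix
import Vale.Agent.P154.Cert

/-!
Closed forms for the three rotations of a product of two likelihood vectors, in terms of the
invariants of the factors.
-/

namespace Vale.Agent.P154

namespace Window

/-- A table of monomials: coefficient and exponent list. -/
abbrev Terms := List (ℤ × List ℕ)

section generic

variable {α : Type} [Add α] [Mul α] (k : ℤ → α)

/-- Natural powers by repeated products. -/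
def pw (z : α) : ℕ → α
  | 0 => k 1
  | n + 1 => pw z n * z

/-- One monomial. -/
def mon : List α → List ℕ → α
  | z :: zs, e :: es => pw k z e * mon zs es
  | _, _ => k 1

/-- Value of a table of monomials. -/
def evT (vs : List α) : Terms → α
  | [] => k 0
  | t :: ts => k t.1 * mon k vs t.2 + evT vs ts

end generic

/-- `2 ^ 2` times the numerator for the squared length. -/
def formA : Terms :=
  [(2, [0, 0, 0, 0, 1]), (4, [0, 1, 0, 0, 0]), (-4, [0, 1, 1, 0, 0]), (4, [0, 2, 1, 0, 0]),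
    (4, [1, 0, 0, 0, 0]), (-4, [1, 0, 0, 1, 0]), (-4, [1, 1, 0, 0, 0]), (-4, [1, 2, 0, 0, 0]),
    (4, [2, 0, 0, 1, 0]), (-4, [2, 1, 0, 0, 0]), (-4, [2, 2, 0, 0, 0])]

/-- `2 ^ 5` times the numerator for the fourth power of the length. -/
def formQ : Terms :=
  [(-80, [0, 0, 0, 0, 1]), (64, [0, 0, 1, 1, 0]), (96, [0, 0, 1, 1, 1]), (240, [0, 1, 0, 0, 1]),
    (64, [0, 1, 1, 0, 0]), (-224, [0, 1, 1, 0, 1]), (-96, [0, 1, 1, 1, 0]),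
    (-96, [0, 1, 1, 1, 1]), (32, [0, 1, 2, 1, 1]), (32, [0, 2, 0, 0, 0]),
    (-112, [0, 2, 0, 0, 1]), (-384, [0, 2, 1, 0, 0]), (384, [0, 2, 1, 0, 1]),
    (16, [0, 2, 1, 1, 1]), (192, [0, 2, 2, 0, 0]), (-48, [0, 2, 2, 0, 1]),
    (384, [0, 3, 1, 0, 0]), (-96, [0, 3, 1, 0, 1]), (-640, [0, 3, 2, 0, 0]),
    (32, [0, 3, 2, 0, 1]), (384, [0, 4, 2, 0, 0]), (-64, [0, 4, 3, 0, 0]),
    (-32, [0, 5, 2, 0, 0]), (240, [1, 0, 0, 0, 1]), (64, [1, 0, 0, 1, 0]),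
    (-224, [1, 0, 0, 1, 1]), (-96, [1, 0, 1, 1, 0]), (-96, [1, 0, 1, 1, 1]),
    (32, [1, 0, 1, 2, 1]), (128, [1, 1, 0, 0, 0]), (-208, [1, 1, 0, 0, 1]),
    (-192, [1, 1, 0, 1, 0]), (192, [1, 1, 0, 1, 1]), (-192, [1, 1, 1, 0, 0]),
    (192, [1, 1, 1, 0, 1]), (192, [1, 1, 1, 1, 0]), (-176, [1, 1, 1, 1, 1]),
    (-256, [1, 2, 0, 0, 0]), (-304, [1, 2, 0, 0, 1]), (768, [1, 2, 1, 0, 0]),
    (96, [1, 2, 1, 0, 1]), (-96, [1, 2, 1, 1, 0]), (64, [1, 2, 1, 1, 1]), (96, [1, 3, 0, 0, 0]),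
    (48, [1, 3, 0, 0, 1]), (-288, [1, 3, 1, 0, 1]), (96, [1, 3, 2, 0, 0]),
    (-64, [1, 3, 2, 1, 0]), (-576, [1, 4, 1, 0, 0]), (544, [1, 4, 2, 0, 0]),
    (-224, [1, 5, 2, 0, 0]), (32, [2, 0, 0, 0, 0]), (-112, [2, 0, 0, 0, 1]),
    (-384, [2, 0, 0, 1, 0]), (384, [2, 0, 0, 1, 1]), (192, [2, 0, 0, 2, 0]),
    (-48, [2, 0, 0, 2, 1]), (16, [2, 0, 1, 1, 1]), (-256, [2, 1, 0, 0, 0]),
    (-304, [2, 1, 0, 0, 1]), (768, [2, 1, 0, 1, 0]), (96, [2, 1, 0, 1, 1]),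
    (-96, [2, 1, 1, 1, 0]), (64, [2, 1, 1, 1, 1]), (32, [2, 2, 0, 0, 0]),
    (-112, [2, 2, 0, 0, 1]), (-192, [2, 2, 0, 1, 0]), (-96, [2, 2, 0, 1, 1]),
    (-192, [2, 2, 1, 0, 0]), (-96, [2, 2, 1, 0, 1]), (576, [2, 2, 1, 1, 0]),
    (16, [2, 2, 1, 1, 1]), (-384, [2, 3, 0, 0, 0]), (384, [2, 3, 0, 0, 1]),
    (-768, [2, 3, 1, 0, 0]), (-96, [2, 3, 1, 0, 1]), (-32, [2, 3, 2, 0, 0]),
    (288, [2, 4, 0, 0, 0]), (-576, [2, 4, 1, 0, 0]), (64, [2, 4, 2, 0, 0]),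
    (576, [2, 5, 1, 0, 0]), (-32, [2, 5, 2, 0, 0]), (384, [3, 0, 0, 1, 0]),
    (-96, [3, 0, 0, 1, 1]), (-640, [3, 0, 0, 2, 0]), (32, [3, 0, 0, 2, 1]),
    (96, [3, 1, 0, 0, 0]), (48, [3, 1, 0, 0, 1]), (-288, [3, 1, 0, 1, 1]), (96, [3, 1, 0, 2, 0]),
    (-64, [3, 1, 1, 2, 0]), (-384, [3, 2, 0, 0, 0]), (384, [3, 2, 0, 0, 1]),
    (-768, [3, 2, 0, 1, 0]), (-96, [3, 2, 0, 1, 1]), (-32, [3, 2, 0, 2, 0]),
    (2464, [3, 3, 0, 0, 0]), (400, [3, 3, 0, 0, 1]), (-576, [3, 3, 1, 1, 0]),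
    (192, [3, 4, 0, 0, 0]), (832, [3, 4, 1, 0, 0]), (-160, [3, 5, 0, 0, 0]),
    (576, [3, 5, 1, 0, 0]), (384, [4, 0, 0, 2, 0]), (-64, [4, 0, 0, 3, 0]),
    (-576, [4, 1, 0, 1, 0]), (544, [4, 1, 0, 2, 0]), (288, [4, 2, 0, 0, 0]),
    (-576, [4, 2, 0, 1, 0]), (64, [4, 2, 0, 2, 0]), (192, [4, 3, 0, 0, 0]),
    (832, [4, 3, 0, 1, 0]), (-2464, [4, 4, 0, 0, 0]), (-832, [4, 5, 0, 0, 0]),
    (-32, [5, 0, 0, 2, 0]), (-224, [5, 1, 0, 2, 0]), (576, [5, 2, 0, 1, 0]),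
    (-32, [5, 2, 0, 2, 0]), (-160, [5, 3, 0, 0, 0]), (576, [5, 3, 0, 1, 0]),
    (-832, [5, 4, 0, 0, 0]), (-160, [5, 5, 0, 0, 0])]

section generic

variable {α : Type} [Add α] [Mul α] (k : ℤ → α)

/-- The rotation-odd invariant. -/
def vand (p q r : α) : α := dif k p q * dif k q r * dif k r p

/-- The mixed invariant. -/
def mixI (x1 x2 x3 y1 y2 y3 : α) : α :=
  cub k x1 x2 x3 * cub k y1 y2 y3 + k 27 * (vand k x1 x2 x3 * vand k y1 y2 y3)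

/-- The five invariants of two normalised vectors. -/
def invs (x1 x2 x3 y1 y2 y3 : α) : List α :=
  [quad k x1 x2 x3, quad k y1 y2 y3, cub k x1 x2 x3, cub k y1 y2 y3, mixI k x1 x2 x3 y1 y2 y3]

end generic

end Window

end Vale.Agent.P154
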