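import Vale.Agent.P154.Window.Monotone

/-!
An order of channels preserved by the recursion, and the reduction of every small degree and
every weaker negative parameter to degree four with parameter `-1/2`.
-/

namespace Vale.Agent.P154

namespace Window

variable {ι η θ : Type}

/-- Sublinear functions of a row, bounded by the mass. -/
structure Sub3 (g : ℝ → ℝ → ℝ → ℝ) (C : ℝ) : Prop where
  dom : Dom g C
  hom : ∀ c a b e : ℝ, 0 ≤ c → g (c * a) (c * b) (c * e) = c * g a b e
  add : ∀ {p q r p' q' r' : ℝ}, 0 ≤ p → 0 ≤ q → 0 ≤ r → 0 ≤ p' → 0 ≤ q' → 0 ≤ r' →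
    g (p + p') (q + q') (r + r') ≤ g p q r + g p' q' r'

/-- One channel carries at most what another does. -/
def Below (A : Lik ι) (B : Lik η) : Prop := ∀ g C, Sub3 g C → mo g A ≤ mo g B

lemma Below.trans {A : Lik ι} {B : Lik η} {D : Lik θ} (h : Below A B) (k : Below B D) : Below A D :=
  fun g C hg => le_trans (h g C hg) (k g C hg)

lemma Below.refl (A : Lik ι) : Below A A := fun _ _ _ => le_rfl

lemma sub3_mPhi {κ : ℝ} (k0 : 0 ≤ κ) : Sub3 (mPhi κ) (1 + |κ|) where
  dom := dom_mPhi κ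
  hom c a b e _ := mPhi_scale κ c a b e
  add := mPhi_add k0

lemma Below.pot_le {A : Lik ι} {B : Lik η} (h : Below A B) {κ : ℝ} (k0 : 0 ≤ κ) :
    mo (mPhi κ) A ≤ mo (mPhi κ) B := h _ _ (sub3_mPhi k0)

lemma Sub3.fix {g : ℝ → ℝ → ℝ → ℝ} {C : ℝ} (hg : Sub3 g C) {v : Fin 3 → ℝ} (hv : ∀ i, 0 ≤ v i) :
    Sub3 (fun p q r => g (v 0 * p) (v 1 * q) (v 2 * r)) (|C| * (v 0 + v 1 + v 2)) where
  dom p q r hp hq hr := by
    refine le_trans (hg.dom _ _ _ (mul_nonneg (hv 0) hp) (mul_nonneg (hv 1) hq)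
      (mul_nonneg (hv 2) hr)) ?_
    have h1 : C * mS (v 0 * p) (v 1 * q) (v 2 * r) ≤ |C| * mS (v 0 * p) (v 1 * q) (v 2 * r) :=
      mul_le_mul_of_nonneg_right (le_abs_self C)
        (tot_nonneg (mul_nonneg (hv 0) hp) (mul_nonneg (hv 1) hq) (mul_nonneg (hv 2) hr))
    refine le_trans h1 ?_
    rw [mul_assoc]
    refine mul_le_mul_of_nonneg_left ?_ (abs_nonneg C)
    simp only [mS, tot]
    have := mul_nonneg (hv 0) (add_nonneg hq hr)
    have := mul_nonneg (hv 1) (add_nonneg hp hr)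
    have := mul_nonneg (hv 2) (add_nonneg hp hq)
    linarith
  hom c a b e hc := by
    rw [← hg.hom c _ _ _ hc]; ring_nf
  add := fun a b c a' b' c' => by
    simp only [mul_add]
    exact hg.add (mul_nonneg (hv 0) a) (mul_nonneg (hv 1) b) (mul_nonneg (hv 2) c)
      (mul_nonneg (hv 0) a') (mul_nonneg (hv 1) b') (mul_nonneg (hv 2) c')

lemma pair_left {A : Lik ι} {B : Lik η} (hA : Ok A) (hB : Ok B) {g : ℝ → ℝ → ℝ → ℝ} {C : ℝ}
    (hg : Sub3 g C) :
    HasSum (fun a => mo (fun p q r => g (A a 0 * p) (A a 1 * q) (A a 2 * r)) B)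
      (mo g (pair A B)) := by
  have h := ((pair_ok hA hB).summable_mom hg.dom).hasSum.div_const 3
  refine h.prod_fiberwise fun a => ?_
  exact ((hB.summable_mom (hg.fix (hA.nonneg a)).dom).hasSum.div_const 3)

lemma Below.pair_left {A : Lik θ} {B : Lik ι} {D : Lik η} (hA : Ok A) (hB : Ok B) (hD : Ok D)
    (h : Below B D) : Below (pair A B) (pair A D) := fun g C hg =>
  hasSum_le (fun a => h _ _ (hg.fix (hA.nonneg a))) (Window.pair_left hA hB hg)
    (Window.pair_left hA hD hg)

lemma below_pair_comm (A : Lik ι) (B : Lik η) : Below (pair A B) (pair B A) := fun g C _ =>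
  le_of_eq (mo_pair_comm A B g)

lemma Below.power {A : Lik ι} {B : Lik η} (hA : Ok A) (hB : Ok B) (h : Below A B) :
    ∀ N, Below (power A N) (power B N)
  | 0 => fun g C _ => by rw [power_zero_mom, power_zero_mom]
  | N + 1 => fun g C hg => by
    have ih := Below.power hA hB h N
    rw [power_succ, power_succ, mo_reindex, mo_reindex]
    refine le_trans (Below.pair_left hA (power_ok A hA N) (power_ok B hB N) ih g C hg) ?_
    rw [mo_pair_comm A, mo_pair_comm B]
    exact Below.pair_left (power_ok B hB N) hA hB h g C hg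

lemma mix_hasSum {p : ℕ → ℝ} {d : ℝ} (hp : Law p d) {A : Lik ι} (hA : Ok A)
    {g : ℝ → ℝ → ℝ → ℝ} {C : ℝ} (hg : Sub3 g C) :
    HasSum (fun N => p N * mo g (power A N)) (mo g (mix p A)) := by
  have hs := (mix_ok hp hA).summable_mom hg.dom
  have hf : ∀ N, HasSum (fun x : Fin N → ι => row g (mix p A ⟨N, x⟩))
      (p N * (3 * mo g (power A N))) := fun N => by
    have := ((power_ok A hA N).summable_mom hg.dom).hasSum.mul_left (p N)
    have e : (3 * mo g (power A N)) = ∑' x, row g (power A N x) := by rw [mo]; ring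
    rw [e]
    refine this.congr_fun fun x => ?_
    simp only [row, mix]
    exact hg.hom _ _ _ _ (hp.nonneg N)
  have := (hs.hasSum.sigma hf).div_const 3
  refine (this.congr_fun fun N => ?_)
  ring

lemma Below.mix {p : ℕ → ℝ} {d : ℝ} (hp : Law p d) {A : Lik ι} {B : Lik η} (hA : Ok A)
    (hB : Ok B) (h : Below A B) : Below (mix p A) (mix p B) := fun g C hg =>
  hasSum_le (fun N => mul_le_mul_of_nonneg_left (Below.power hA hB h N g C hg) (hp.nonneg N))
    (mix_hasSum hp hA hg) (mix_hasSum hp hB hg)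

lemma sub3_shift {g : ℝ → ℝ → ℝ → ℝ} {C : ℝ} (hg : Sub3 g C) {l : ℝ} (h0 : -(1 / 2) ≤ l)
    (h1 : l ≤ 1) :
    Sub3 (fun p q r => g (l * p + (1 - l) / 3 * (p + q + r)) (l * q + (1 - l) / 3 * (p + q + r))
      (l * r + (1 - l) / 3 * (p + q + r))) C := by
  have nn : ∀ {x y z : ℝ}, 0 ≤ x → 0 ≤ y → 0 ≤ z → 0 ≤ l * x + (1 - l) / 3 * (x + y + z) :=
    fun {x y z} hx hy hz => by
      have h2 : 0 ≤ (1 + 2 * l) / 3 * x + (1 - l) / 3 * y + (1 - l) / 3 * z :=
        add_nonneg (add_nonneg (mul_nonneg (by linarith) hx) (mul_nonneg (by linarith) hy))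
          (mul_nonneg (by linarith) hz)
      linarith
  refine ⟨fun p q r hp hq hr => ?_, fun c a b e hc => ?_, fun a b c a' b' c' => ?_⟩
  · refine le_trans (hg.dom _ _ _ (nn hp hq hr)
      (by have := nn hq hp hr; linarith) (by have := nn hr hp hq; linarith)) (le_of_eq ?_)
    simp only [mS, tot]; ring
  · rw [← hg.hom c _ _ _ hc]; ring_nf
  · refine le_trans (le_of_eq ?_) (hg.add (nn a b c) (by have := nn b a c; linarith)
      (by have := nn c a b; linarith) (nn a' b' c') (by have := nn b' a' c'; linarith)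
      (by have := nn c' a' b'; linarith))
    ring_nf

lemma mo_shift (g : ℝ → ℝ → ℝ → ℝ) (l : ℝ) (A : Lik ι) :
    mo g (shift l A) = mo (fun p q r => g (l * p + (1 - l) / 3 * (p + q + r))
      (l * q + (1 - l) / 3 * (p + q + r)) (l * r + (1 - l) / 3 * (p + q + r))) A := by
  simp only [mo, row, shift_eq]

lemma Below.shift {A : Lik ι} {B : Lik η} {l : ℝ} (h0 : -(1 / 2) ≤ l) (h1 : l ≤ 1)
    (h : Below A B) : Below (shift l A) (shift l B) := fun g C hg => by
  rw [mo_shift, mo_shift]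
  exact h _ _ (sub3_shift hg h0 h1)

/-- Noise on one edge loses information. -/
lemma shift_below {A : Lik ι} (hA : Ok A) {t : ℝ} (t0 : 0 ≤ t) (t1 : t ≤ 1) :
    Below (shift t A) A := by
  intro g C hg
  obtain ⟨e, he⟩ := hA.rot
  have s0 := (hA.summable_mom hg.dom).hasSum
  have s1 := (Equiv.hasSum_iff e).mpr s0
  have s2 := (Equiv.hasSum_iff (e.trans e)).mpr s0
  have hl := ((shift_ok t0 t1 hA).summable_mom hg.dom).hasSum
  have key := hasSum_le (fun x => ?_) hl ((s0.mul_left t).add (((s0.add s1).add s2).mul_left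
    ((1 - t) / 3)))
  · rw [mo, mo]; linarith
  · have a0 : A (e x) 0 = A x 2 := he x 2
    have a1 : A (e x) 1 = A x 0 := he x 0
    have a2 : A (e x) 2 = A x 1 := he x 1
    have b0 : A (e (e x)) 0 = A x 1 := (he (e x) 2).trans a2
    have b1 : A (e (e x)) 1 = A x 2 := (he (e x) 0).trans a0
    have b2 : A (e (e x)) 2 = A x 0 := (he (e x) 1).trans a1
    have n := hA.nonneg x
    have c0 : 0 ≤ (1 - t) / 3 := by linarith
    simp only [Function.comp_apply, row, shift_eq, Equiv.trans_apply, a0, a1, a2, b0, b1, b2]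
    set c := (1 - t) / 3
    have h1 := hg.add (mul_nonneg t0 (n 0)) (mul_nonneg t0 (n 1)) (mul_nonneg t0 (n 2))
      (mul_nonneg c0 (add_nonneg (add_nonneg (n 0) (n 2)) (n 1)))
      (mul_nonneg c0 (add_nonneg (add_nonneg (n 1) (n 0)) (n 2)))
      (mul_nonneg c0 (add_nonneg (add_nonneg (n 2) (n 1)) (n 0)))
    have h2 := hg.add (add_nonneg (n 0) (n 2)) (add_nonneg (n 1) (n 0)) (add_nonneg (n 2) (n 1))
      (n 1) (n 2) (n 0)
    have h3 := hg.add (n 0) (n 1) (n 2) (n 2) (n 0) (n 1)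
    rw [hg.hom t _ _ _ t0, hg.hom c _ _ _ c0] at h1
    have h4 := mul_le_mul_of_nonneg_left (le_trans h2 (add_le_add h3 le_rfl)) c0
    refine le_trans (le_of_eq ?_) (le_trans h1 (by linarith))
    congr 1 <;> ring

lemma shift_shift (a b : ℝ) (A : Lik ι) : shift a (shift b A) = shift (a * b) A := by
  funext x i
  simp only [shift_eq]
  ring

lemma below_pair {A : Lik ι} {B : Lik η} (hA : Ok A) (hB : Ok B) : Below A (pair A B) := by
  intro g C hg
  have key := hasSum_le (fun z : ι × η => ?_) (hasSum_prod_mom hA hB hg.dom dom_mS)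
    (pair_rots hA hB hg.dom)
  · rw [hB.mo_mass, mul_one] at key
    linarith
  · have a := hA.nonneg z.1
    have b := hB.nonneg z.2
    have h1 := hg.add (mul_nonneg (a 0) (b 0)) (mul_nonneg (a 1) (b 1))
      (mul_nonneg (a 2) (b 2)) (mul_nonneg (a 0) (b 1)) (mul_nonneg (a 1) (b 2))
      (mul_nonneg (a 2) (b 0))
    have h2 := hg.add (add_nonneg (mul_nonneg (a 0) (b 0)) (mul_nonneg (a 0) (b 1)))
      (add_nonneg (mul_nonneg (a 1) (b 1)) (mul_nonneg (a 1) (b 2)))
      (add_nonneg (mul_nonneg (a 2) (b 2)) (mul_nonneg (a 2) (b 0)))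
      (mul_nonneg (a 0) (b 2)) (mul_nonneg (a 1) (b 0)) (mul_nonneg (a 2) (b 1))
    have h3 := hg.hom (tot (B z.2 0) (B z.2 1) (B z.2 2)) (A z.1 0) (A z.1 1) (A z.1 2)
      (tot_nonneg (b 0) (b 1) (b 2))
    have q0 : A z.1 0 * B z.2 0 + A z.1 0 * B z.2 1 + A z.1 0 * B z.2 2
        = tot (B z.2 0) (B z.2 1) (B z.2 2) * A z.1 0 := by simp only [tot]; ring
    have q1 : A z.1 1 * B z.2 1 + A z.1 1 * B z.2 2 + A z.1 1 * B z.2 0
        = tot (B z.2 0) (B z.2 1) (B z.2 2) * A z.1 1 := by simp only [tot]; ring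
    have q2 : A z.1 2 * B z.2 2 + A z.1 2 * B z.2 0 + A z.1 2 * B z.2 1
        = tot (B z.2 0) (B z.2 1) (B z.2 2) * A z.1 2 := by simp only [tot]; ring
    rw [q0, q1, q2, h3] at h2
    simp only [rots, row, mS]
    nlinarith

lemma below_regular {A : Lik ι} (hA : Ok A) {m n : ℕ} (h : m ≤ n) :
    Below (mix (regularLaw m) A) (mix (regularLaw n) A) := by
  intro g C hg
  have e : ∀ k, mo g (mix (regularLaw k) A) = mo g (power A k) := fun k => by
    rw [← (mix_hasSum (regular_law k) hA hg).tsum_eq,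
      tsum_eq_single k fun N hN => by simp [regularLaw, hN]]
    simp [regularLaw]
  rw [e, e]
  obtain ⟨K, rfl⟩ := Nat.exists_eq_add_of_le h
  induction K with
  | zero => simp
  | succ K ih =>
    refine le_trans (ih (by omega)) ?_
    rw [show m + (K + 1) = m + K + 1 from rfl, power_succ, mo_reindex, mo_pair_comm]
    exact below_pair (power_ok A hA _) hA g C hg

/-- A smaller degree or a weaker negative parameter is below degree four at `-1/2`. -/
theorem below_four {m : ℕ} (hm : m ≤ 4) {l : ℝ} (h0 : -(1 / 2) ≤ l) (h1 : l ≤ 0) :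
    ∀ n, Below (tab (regularLaw m) l n) (tab (regularLaw 4) (-(1 / 2)) n)
  | 0 => fun g C _ => le_of_eq rfl
  | n + 1 => fun g C hg => by
    have hA := tab_ok (regular_law m) h0 (by linarith : l ≤ 1) n
    have hB := tab_ok (regular_law 4) le_rfl (by norm_num : (-(1 / 2) : ℝ) ≤ 1) n
    have t0 : 0 ≤ -2 * l := by linarith
    have t1 : -2 * l ≤ 1 := by linarith
    have e : shift l (tab (regularLaw m) l n)
        = shift (-(1 / 2)) (shift (-2 * l) (tab (regularLaw m) l n)) := by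
      rw [shift_shift]; congr 1; ring
    rw [mo_tab_succ, mo_tab_succ, e]
    have hs := shift_ok_adm le_rfl (by norm_num : (-(1 / 2) : ℝ) ≤ 1) (shift_ok t0 t1 hA)
    have ih := below_four hm h0 h1 n
    refine le_trans (below_regular hs hm g C hg) ?_
    exact Below.mix (regular_law 4) hs
      (shift_ok_adm le_rfl (by norm_num : (-(1 / 2) : ℝ) ≤ 1) hB)
      (Below.shift le_rfl (by norm_num) ((shift_below hA t0 t1).trans ih)) g C hg

end Window

end Vale.Agent.P154
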