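import Vale.Agent.P154.Window.Step
import Vale.Agent.P154.KSAdm

/-!
One level of the recursion from a scalar inequality.
-/

namespace Vale.Agent.P154

namespace Window

variable {η : Type} {M : Lik η} {κ κ' σ ν d s : ℝ}

/-- The Poisson average of the potential of the reference children. -/
noncomputable def poisSum (κ σ ν Mv b : ℝ) : ℝ :=
  ∑' z : ℕ × ℕ, Real.exp (-(Mv + b)) * Mv ^ z.1 * b ^ z.2
    / ((z.1.factorial : ℝ) * z.2.factorial) * nodeF κ σ ν z.1 z.2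

/-- The average of the potential of a fixed number of children. -/
noncomputable def binSum (κ σ ν : ℝ) (n : ℕ) (Mv b : ℝ) : ℝ :=
  ∑ y ∈ Finset.antidiagonal n, ∑ z ∈ Finset.antidiagonal y.2,
    (n.factorial : ℝ) / ((y.1.factorial : ℝ) * z.1.factorial * z.2.factorial)
      * (1 - (Mv + b) / n) ^ y.1 * (Mv / n) ^ z.1 * (b / n) ^ z.2 * nodeF κ σ ν z.1 z.2

/-- The lower bound for the squared defect. -/
noncomputable def cX (X : ℝ) : ℝ := if 2 * X ≤ 1 then (1 - 2 * X) ^ 2 else 0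

/-- The scalar inequality for one value of the information. -/
def Scal (κ κ' d : ℝ) (T : ℝ → ℝ → ℝ → ℝ → ℝ) (ε X : ℝ) : Prop :=
  ∃ σ ν : ℝ, 0 < σ ∧ σ < ν ∧ ν ≤ 1 / 2 ∧ (1 ≤ d * ν ^ 2 ∨ ν = 1 / 2) ∧
    ∀ Mv b wl Qs c : ℝ, 0 ≤ b → 0 ≤ wl → wl ≤ Mv → σ ^ 2 * Mv + ν ^ 2 * b = X → Mv + b ≤ d →
      Lin d σ ν Mv b wl Qs → Qs ≤ σ ^ 4 * Mv + ν ^ 4 * b → cX X ≤ c → c ≤ 1 →
      T σ ν Mv b ≤ X + κ' * (c * (σ ^ 4 * Mv + ν ^ 4 * b)) + (κ * d - κ' * c) * Qs - ε * X ^ 2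

lemma cX_le {X t : ℝ} (ht0 : 0 ≤ t) (ht : t ≤ 2 * X) (ht1 : t ≤ 1) : cX X ≤ (1 - t) ^ 2 := by
  unfold cX
  split
  · exact pow_le_pow_left₀ (by linarith) (by linarith) 2
  · exact sq_nonneg _

/-- The inequality of one level in the general form. -/
theorem level_of_scal {p : ℕ → ℝ} {ε : ℝ} (hp : Law p d) (hd : 0 < d) (hM : Ok M) (hsw : Sw M)
    (hσ : 0 < σ) (hσν : σ < ν) (hν : ν ≤ 1 / 2) (hs : s ≤ ν ^ 2) (hds : d * s ≤ 1)
    (hb : ∀ y, quad rc (M y 0) (M y 1) (M y 2) ≤ s * tot (M y 0) (M y 1) (M y 2) ^ 2)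
    (hc : CC κ κ') (k0 : 0 ≤ κ) (k1 : κ ≤ 12 / 25) (k0' : 0 ≤ κ') (k1' : κ' ≤ 12 / 25)
    (T : ℝ → ℝ → ℝ → ℝ → ℝ)
    (hT : (∑' N, p N * mo (mPhi κ) (power (mixNode (wt' (tent σ ν M)) ![0, σ, ν]) N))
      = T σ ν (d * wt' (tent σ ν M) 1) (d * wt' (tent σ ν M) 2))
    (hgap : d * (1 - ∑' N, p N * mo mA (power (mixNode (wt' (tent σ ν M)) ![0, σ, ν]) N)) ^ 2
      ≤ ∑' N, p N * wgap (mixNode (wt' (tent σ ν M)) ![0, σ, ν]) N)
    (hscal : ∀ Mv b wl Qs c : ℝ, 0 ≤ b → 0 ≤ wl → wl ≤ Mv →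
      σ ^ 2 * Mv + ν ^ 2 * b = d * mo mA M → Mv + b ≤ d → Lin d σ ν Mv b wl Qs →
      Qs ≤ σ ^ 4 * Mv + ν ^ 4 * b → cX (d * mo mA M) ≤ c → c ≤ 1 →
      T σ ν Mv b ≤ d * mo mA M + κ' * (c * (σ ^ 4 * Mv + ν ^ 4 * b)) + (κ * d - κ' * c) * Qs
        - ε * (d * mo mA M) ^ 2)
    (hε : 0 ≤ ε) :
    mo (mPhi κ) (mix p M)
      ≤ d * mo mA M + κ * d ^ 2 * mo mQ M - ε * (d * mo mA M) ^ 2 := by
  have hbν : ∀ y, quad rc (M y 0) (M y 1) (M y 2) ≤ ν ^ 2 * tot (M y 0) (M y 1) (M y 2) ^ 2 :=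
    fun y => le_trans (hb y) (mul_le_mul_of_nonneg_right hs (sq_nonneg _))
  have hQ := ok_Q hM hσ hσν hν hbν
  set Q := mixNode (wt' (tent σ ν M)) ![0, σ, ν] with hQdef
  set t := ∑' N, p N * mo mA (power Q N) with htdef
  have sA := summable_law_mo hp hQ dom_mA
  have t0 : 0 ≤ t := tsum_nonneg fun N => mul_nonneg (hp.nonneg N)
    ((power_ok Q hQ N).mo_nonneg fun _ _ _ => mA_nonneg)
  have t1 : t ≤ 1 := le_trans (sA.tsum_le_tsum (fun N => by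
    have := mul_le_mul_of_nonneg_left (power_ok Q hQ N).mA_le_one (hp.nonneg N)
    linarith) hp.total.summable) (le_of_eq hp.total.tsum_eq)
  obtain ⟨Mv, b, wl, eM, eb, b0, wl0, wlM, hsum, hX, hlin, hQS, hlev⟩ :=
    level_bound hp hd hM hsw hσ hσν hν hbν hc k0 k1 k0' hgap
  rw [hT, ← eM, ← eb] at hlev
  rw [← eM, ← eb] at hT
  have hnQ : 0 ≤ mo mQ M := hM.mo_nonneg fun _ _ _ => mQ_nonneg
  have hnA : 0 ≤ mo mA M := hM.mo_nonneg fun _ _ _ => mA_nonneg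
  have hQA : mo mQ M ≤ s * mo mA M := by
    have key := hasSum_le (fun y => ?_) (hM.summable_mom dom_mQ).hasSum
      ((hM.summable_mom dom_mA).hasSum.mul_left s)
    · rw [mo, mo]; linarith
    · simp only [row, mA, mQ]
      have h0 := tot_nonneg (hM.nonneg y 0) (hM.nonneg y 1) (hM.nonneg y 2)
      rcases eq_or_lt_of_le h0 with h | h
      · rw [← h]; simp
      · have hq : 0 ≤ quad rc (M y 0) (M y 1) (M y 2) := quad_nonneg
        rw [div_le_iff₀ (by positivity)]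
        have := mul_le_mul_of_nonneg_left (hb y) hq
        calc quad rc (M y 0) (M y 1) (M y 2) ^ 2
            ≤ quad rc (M y 0) (M y 1) (M y 2) * (s * tot (M y 0) (M y 1) (M y 2) ^ 2) := by linarith
          _ = s * (quad rc (M y 0) (M y 1) (M y 2) / tot (M y 0) (M y 1) (M y 2))
              * tot (M y 0) (M y 1) (M y 2) ^ 3 := by field_simp
  have ht : t ≤ 2 * (d * mo mA M) := by
    have h1 := hscal Mv b wl (d * mo mQ M) 1 b0 wl0 wlM hX hsum hlin hQS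
      (le_trans (cX_le (X := d * mo mA M) (t := 0) le_rfl (mul_nonneg two_pos.le
        (mul_nonneg hd.le hnA)) zero_le_one) (by norm_num)) le_rfl
    have h2 : t ≤ T σ ν Mv b := by
      rw [← hT]
      refine sA.tsum_le_tsum (fun N => mul_le_mul_of_nonneg_left ?_ (hp.nonneg N))
        (summable_law_mo hp hQ (dom_mPhi κ))
      rw [mo_mPhi (power_ok Q hQ N)]
      have := mul_nonneg k0 ((power_ok Q hQ N).mo_nonneg (g := mQ) fun _ _ _ => mQ_nonneg)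
      linarith
    have h3 : d * (d * mo mQ M) ≤ d * mo mA M := by
      have := mul_le_mul_of_nonneg_left hQA (mul_nonneg hd.le hd.le)
      have h4 := mul_le_mul_of_nonneg_right hds (mul_nonneg hd.le hnA)
      linarith
    have h5 : σ ^ 4 * Mv + ν ^ 4 * b ≤ ν ^ 2 * (d * mo mA M) := by
      rw [← hX]
      have : σ ^ 2 ≤ ν ^ 2 := pow_le_pow_left₀ hσ.le hσν.le 2
      have := mul_le_mul_of_nonneg_left this (mul_nonneg (sq_nonneg σ) (le_trans wl0 wlM))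
      linarith
    have h6 : ν ^ 2 ≤ 1 / 4 := by nlinarith
    have h7 := mul_le_mul_of_nonneg_left h3 k0
    have h8 := mul_le_mul_of_nonneg_left h5 k0'
    have hXn : 0 ≤ d * mo mA M := mul_nonneg hd.le hnA
    have h9 := mul_le_mul_of_nonneg_right h6 hXn
    have h10 := mul_le_mul_of_nonneg_left h9 k0'
    have h11 := mul_le_mul_of_nonneg_right k1 hXn
    have h12 := mul_le_mul_of_nonneg_right k1' hXn
    have h13 := mul_nonneg hε (sq_nonneg (d * mo mA M))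
    have h14 := mul_nonneg k0' (mul_nonneg hd.le hnQ)
    linarith
  have h1 := hscal Mv b wl (d * mo mQ M) ((1 - t) ^ 2) b0 wl0 wlM hX hsum hlin hQS
    (cX_le t0 ht t1) (pow_le_one₀ (by linarith) (by linarith))
  linarith

/-- One level of a Poisson family. -/
theorem level_poisson {ε : ℝ} (hd : 0 < d) (hM : Ok M) (hsw : Sw M) (hds : d * s ≤ 1)
    (hs4 : s ≤ 1 / 4)
    (hb : ∀ y, quad rc (M y 0) (M y 1) (M y 2) ≤ s * tot (M y 0) (M y 1) (M y 2) ^ 2)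
    (hc : CC κ κ') (k0 : 0 ≤ κ) (k1 : κ ≤ 12 / 25) (k0' : 0 ≤ κ') (k1' : κ' ≤ 12 / 25)
    (hε : 0 ≤ ε) (hS : Scal κ κ' d (poisSum κ) ε (d * mo mA M)) :
    mo (mPhi κ) (mix (poissonLaw d) M)
      ≤ d * mo mA M + κ * d ^ 2 * mo mQ M - ε * (d * mo mA M) ^ 2 := by
  obtain ⟨σ, ν, hσ, hσν, hν, hdν, hscal⟩ := hS
  have hsν : s ≤ ν ^ 2 := by
    rcases hdν with h | h
    · exact le_of_mul_le_mul_left (le_trans hds h) hd
    · rw [h]; linarith
  have hbν : ∀ y, quad rc (M y 0) (M y 1) (M y 2) ≤ ν ^ 2 * tot (M y 0) (M y 1) (M y 2) ^ 2 :=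
    fun y => le_trans (hb y) (mul_le_mul_of_nonneg_right hsν (sq_nonneg _))
  have hSp := tent_spread hM hσ hσν hν hbν
  refine level_of_scal (poisson_law hd) hd hM hsw hσ hσν hν hsν hds hb hc k0 k1 k0' k1'
    (poisSum κ) ?_ (wgap_poisson hd (ok_Q hM hσ hσν hν hbν)) hscal hε
  exact (poisson_mix hSp.wt_nonneg (hSp.wt_sum hM) hσ.le (by linarith) (by linarith) hν κ d).tsum_eq

/-- One level of a regular family. -/
theorem level_regular {ε : ℝ} {n : ℕ} (hn : 0 < n) (hM : Ok M) (hsw : Sw M)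
    (hds : (n : ℝ) * s ≤ 1) (hs4 : s ≤ 1 / 4)
    (hb : ∀ y, quad rc (M y 0) (M y 1) (M y 2) ≤ s * tot (M y 0) (M y 1) (M y 2) ^ 2)
    (hc : CC κ κ') (k0 : 0 ≤ κ) (k1 : κ ≤ 12 / 25) (k0' : 0 ≤ κ') (k1' : κ' ≤ 12 / 25)
    (hε : 0 ≤ ε) (hS : Scal κ κ' n (fun σ ν => binSum κ σ ν n) ε (n * mo mA M)) :
    mo (mPhi κ) (mix (regularLaw n) M)
      ≤ n * mo mA M + κ * (n : ℝ) ^ 2 * mo mQ M - ε * (n * mo mA M) ^ 2 := by
  obtain ⟨σ, ν, hσ, hσν, hν, hdν, hscal⟩ := hS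
  have hd : (0 : ℝ) < n := by exact_mod_cast hn
  have hsν : s ≤ ν ^ 2 := by
    rcases hdν with h | h
    · exact le_of_mul_le_mul_left (le_trans hds h) hd
    · rw [h]; linarith
  have hbν : ∀ y, quad rc (M y 0) (M y 1) (M y 2) ≤ ν ^ 2 * tot (M y 0) (M y 1) (M y 2) ^ 2 :=
    fun y => le_trans (hb y) (mul_le_mul_of_nonneg_right hsν (sq_nonneg _))
  have hSp := tent_spread hM hσ hσν hν hbν
  have hQ := ok_Q hM hσ hσν hν hbν
  have one : ∀ (g : ℕ → ℝ), ∑' N, regularLaw n N * g N = g n := fun g => by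
    rw [tsum_eq_single n fun N hN => by simp [regularLaw, hN]]
    simp [regularLaw]
  refine level_of_scal (regular_law n) hd hM hsw hσ hσν hν hsν hds hb hc k0 k1 k0' k1'
    (fun σ ν => binSum κ σ ν n) ?_ ?_ hscal hε
  · rw [one, fixed_mix hSp.wt_nonneg (hSp.wt_sum hM) hσ.le (by linarith) (by linarith) hν κ n]
    simp only [binSum]
    have ws := hSp.wt_sum hM
    rw [Fin.sum_univ_three] at ws
    set w := wt' (tent σ ν M)
    have e0 : 1 - ((n : ℝ) * w 1 + n * w 2) / n = w 0 := by field_simp; linarith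
    have e1 : (n : ℝ) * w 1 / n = w 1 := by field_simp
    have e2 : (n : ℝ) * w 2 / n = w 2 := by field_simp
    rw [e0, e1, e2]
  · rw [one (fun N => mo mA (power (mixNode (wt' (tent σ ν M)) ![0, σ, ν]) N))]
    exact wgap_regular hQ n

end Window

end Vale.Agent.P154
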