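import Vale.Agent.P154.Window.ScalarDataSlack
import Vale.Agent.P154.Window.ScalarSlack
import Vale.Agent.P154.Window.ScalarLists

/-!
The scalar inequality with slack for Poisson families of mean 19/5.
-/

namespace Vale.Agent.P154

namespace Window

theorem cellS_0_shape : cellS_0.chkShape = true := by decide +kernel

theorem cellS_0_poly : cellS_0.chkPolyS 656 0 = true := by decide +kernel

theorem cellS_0_table : chkTab cellS_0.t lysData 0 cellS_0.tab lxsData = true := by decide +kernel

theorem cellS_0_valid : cellS_0.ValidS :=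
  ⟨cellS_0_shape, ⟨656, 0, cellS_0_poly⟩, ⟨lxsData, lysData, lxsData_ok, lysData_ok, cellS_0_table⟩⟩

theorem cellS_1_shape : cellS_1.chkShape = true := by decide +kernel

theorem cellS_1_poly : cellS_1.chkPolyS 656 0 = true := by decide +kernel

theorem cellS_1_table : chkTab cellS_1.t lysData 0 cellS_1.tab lxsData = true := by decide +kernel

theorem cellS_1_valid : cellS_1.ValidS :=
  ⟨cellS_1_shape, ⟨656, 0, cellS_1_poly⟩, ⟨lxsData, lysData, lxsData_ok, lysData_ok, cellS_1_table⟩⟩

/-- The scalar inequality with slack at mean 19/5. -/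
theorem scalar_slack {X : ℝ} (hX0 : 0 < X) (hX1 : X ≤ 1) :
    ScalSlack (1 / 4) (19 / 5) (poisSum (1 / 4)) (1 / 100) X := by
  rcases le_or_gt X (400 / 1000) with h | h
  · have := Cell.cell_slack cellS_0_valid (by norm_num [cellS_0, Cell.nu, TPar.nu]) hX0
      (by norm_num [cellS_0, Cell.lo]; linarith) (by norm_num [cellS_0, Cell.hi]; linarith)
    norm_num [cellS_0, Cell.kap, TPar.kap, Cell.dR] at this ⊢
    exact this
  · have := Cell.cell_slack cellS_1_valid (by norm_num [cellS_1, Cell.nu, TPar.nu]) hX0
      (by norm_num [cellS_1, Cell.lo]; linarith) (by norm_num [cellS_1, Cell.hi]; linarith)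
    norm_num [cellS_1, Cell.kap, TPar.kap, Cell.dR] at this ⊢
    exact this

end Window

end Vale.Agent.P154
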