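import Vale.Agent.P154.Window.ScalarSlack
import Vale.Agent.P154.Window.ScalarLists
import Vale.Agent.P154.Window.Slack
import Vale.Agent.P154.Window.ScalarCheckSlack

/-!
Nonreconstruction for Poisson trees of mean at most `19/5`.
-/

namespace Vale.Agent.P154

namespace Window

/-- Poisson trees of mean at most `19/5`, every parameter of absolute value at most one half. -/
theorem nonrec_poisson_low {d : ℝ} (hd : 0 < d) (hd19 : d ≤ 19 / 5) {l : ℝ} (h0 : -(1 / 2) ≤ l)
    (h1 : l ≤ 1 / 2) : Nonreconstruction (poissonLaw d) l := by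
  refine nonrec_poisson_slack (κ := 1 / 4) (ε := 1 / 100) hd hd19 h0 h1 (by norm_num) le_rfl
    (by norm_num) (by norm_num) fun X x0 x1 => ?_
  rcases eq_or_lt_of_le x0 with hx | hx
  · subst hx
    exact scalSlack_zero (by norm_num) (by norm_num) (by norm_num) _
  · exact scalar_slack hx x1

end Window

end Vale.Agent.P154
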