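import Vale.Agent.P154.Window.Recursion

/-!
More children give more potential: the reduction of small degrees to degree four.
-/

namespace Vale.Agent.P154

namespace Window

variable {ι η : Type} {L : Lik ι} {M : Lik η}

lemma mQ_eq (p q r : ℝ) : mQ p q r = mA p q r ^ 2 / tot p q r := by
  simp only [mQ, mA]; ring

lemma mQ_add {p q r p' q' r' : ℝ} (a : 0 ≤ p) (b : 0 ≤ q) (c : 0 ≤ r) (a' : 0 ≤ p') (b' : 0 ≤ q')
    (c' : 0 ≤ r') : mQ (p + p') (q + q') (r + r') ≤ mQ p q r + mQ p' q' r' := by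
  rcases eq_or_lt_of_le (tot_nonneg a b c) with h | h
  · have z : p = 0 ∧ q = 0 ∧ r = 0 := by
      simp [tot] at h; exact ⟨by linarith, by linarith, by linarith⟩
    obtain ⟨rfl, rfl, rfl⟩ := z
    simp [mQ, quad, tot, dif]
  rcases eq_or_lt_of_le (tot_nonneg a' b' c') with h' | h'
  · have z : p' = 0 ∧ q' = 0 ∧ r' = 0 := by
      simp [tot] at h'; exact ⟨by linarith, by linarith, by linarith⟩
    obtain ⟨rfl, rfl, rfl⟩ := z
    simp [mQ, quad, tot, dif]
  have ht : tot (p + p') (q + q') (r + r') = tot p q r + tot p' q' r' := by simp only [tot]; ring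
  rw [mQ_eq, mQ_eq, mQ_eq, ht]
  refine le_trans (div_le_div_of_nonneg_right (pow_le_pow_left₀
    (mA_nonneg (add_nonneg a a') (add_nonneg b b') (add_nonneg c c')) (mA_add a b c a' b' c') 2)
    (by linarith)) (sq_div_add h h')

lemma mPhi_add {κ : ℝ} (k0 : 0 ≤ κ) {p q r p' q' r' : ℝ} (a : 0 ≤ p) (b : 0 ≤ q) (c : 0 ≤ r)
    (a' : 0 ≤ p') (b' : 0 ≤ q') (c' : 0 ≤ r') :
    mPhi κ (p + p') (q + q') (r + r') ≤ mPhi κ p q r + mPhi κ p' q' r' := by
  have := mA_add a b c a' b' c'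
  have := mul_le_mul_of_nonneg_left (mQ_add a b c a' b' c') k0
  simp only [mPhi]; linarith

/-- Adding a child cannot decrease the potential. -/
theorem mPhi_le_pair {κ : ℝ} (k0 : 0 ≤ κ) (hL : Ok L) (hM : Ok M) :
    mo (mPhi κ) L ≤ mo (mPhi κ) (pair L M) := by
  have key := hasSum_le (fun z : ι × η => ?_) (hasSum_prod_mom hL hM (dom_mPhi κ) dom_mS)
    (pair_rots hL hM (dom_mPhi κ))
  · rw [hM.mo_mass, mul_one] at key
    linarith
  · have a := hL.nonneg z.1
    have b := hM.nonneg z.2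
    have h1 := mPhi_add k0 (mul_nonneg (a 0) (b 0)) (mul_nonneg (a 1) (b 1))
      (mul_nonneg (a 2) (b 2)) (mul_nonneg (a 0) (b 1)) (mul_nonneg (a 1) (b 2))
      (mul_nonneg (a 2) (b 0))
    have h2 := mPhi_add k0 (add_nonneg (mul_nonneg (a 0) (b 0)) (mul_nonneg (a 0) (b 1)))
      (add_nonneg (mul_nonneg (a 1) (b 1)) (mul_nonneg (a 1) (b 2)))
      (add_nonneg (mul_nonneg (a 2) (b 2)) (mul_nonneg (a 2) (b 0)))
      (mul_nonneg (a 0) (b 2)) (mul_nonneg (a 1) (b 0)) (mul_nonneg (a 2) (b 1))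
    have h3 := mPhi_scale κ (tot (M z.2 0) (M z.2 1) (M z.2 2)) (L z.1 0) (L z.1 1) (L z.1 2)
    have q0 : L z.1 0 * M z.2 0 + L z.1 0 * M z.2 1 + L z.1 0 * M z.2 2
        = tot (M z.2 0) (M z.2 1) (M z.2 2) * L z.1 0 := by simp only [tot]; ring
    have q1 : L z.1 1 * M z.2 1 + L z.1 1 * M z.2 2 + L z.1 1 * M z.2 0
        = tot (M z.2 0) (M z.2 1) (M z.2 2) * L z.1 1 := by simp only [tot]; ring
    have q2 : L z.1 2 * M z.2 2 + L z.1 2 * M z.2 0 + L z.1 2 * M z.2 1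
        = tot (M z.2 0) (M z.2 1) (M z.2 2) * L z.1 2 := by simp only [tot]; ring
    rw [q0, q1, q2, h3] at h2
    simp only [rots, row, mS]
    nlinarith

lemma power_mono {κ : ℝ} (k0 : 0 ≤ κ) (hM : Ok M) (N K : ℕ) :
    mo (mPhi κ) (power M N) ≤ mo (mPhi κ) (power M (N + K)) := by
  induction K with
  | zero => simp
  | succ K ih =>
    refine le_trans ih ?_
    rw [show N + (K + 1) = N + K + 1 from rfl, power_succ, mo_reindex, mo_pair_comm]
    exact mPhi_le_pair k0 (power_ok M hM _) hM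

lemma ew_add (a b : ℝ) (T : ℕ) :
    ∑ z ∈ Finset.antidiagonal T, ew a z.1 * ew b z.2 = ew (a + b) T := by
  have h := (Commute.all a b).add_pow' T
  rw [ew, h, Finset.sum_div]
  refine Finset.sum_congr rfl fun z hz => ?_
  rw [nsmul_eq_mul, Nat.cast_choose ℝ (Nat.le.intro (Finset.mem_antidiagonal.mp hz))]
  have : T - z.1 = z.2 := by have := Finset.mem_antidiagonal.mp hz; omega
  rw [this, ew, ew]
  field_simp

/-- A larger Poisson mean gives a larger potential. -/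
theorem mix_poisson_mono {κ d d' : ℝ} (k0 : 0 ≤ κ) (hd : 0 < d) (hdd : d < d') (hM : Ok M) :
    mo (mPhi κ) (mix (poissonLaw d) M) ≤ mo (mPhi κ) (mix (poissonLaw d') M) := by
  have he : 0 < d' - d := by linarith
  have p1 := poisson_law hd
  have p2 := poisson_law he
  have hA := mix_mom p1 hM (dom_mPhi κ) (mPhi_scale κ)
  have hB := mix_mom (poisson_law (lt_trans hd hdd)) hM (dom_mPhi κ) (mPhi_scale κ)
  set u : ℕ → ℝ := fun N => poissonLaw d N * mo (mPhi κ) (power M N) with hu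
  have pn : ∀ N, 0 ≤ mo (mPhi κ) (power M N) := fun N => by
    rw [mo_mPhi (power_ok M hM N)]
    have := mul_nonneg k0 ((power_ok M hM N).mo_nonneg (g := mQ) fun _ _ _ => mQ_nonneg)
    have := (power_ok M hM N).mo_nonneg (g := mA) fun _ _ _ => mA_nonneg
    linarith
  have su : Summable fun N => ‖u N‖ := hA.summable.abs
  have sw : Summable fun K => ‖poissonLaw (d' - d) K‖ := p2.total.summable.abs
  have e1 := tsum_mul_tsum_eq_tsum_sum_antidiagonal_of_summable_norm su sw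
  have s1 := summable_norm_sum_mul_antidiagonal_of_summable_norm su sw
  rw [p2.total.tsum_eq, mul_one, hA.tsum_eq] at e1
  rw [e1, ← hB.tsum_eq]
  refine s1.of_norm.tsum_le_tsum (fun T => ?_) hB.summable
  have e2 : poissonLaw d' T
      = ∑ z ∈ Finset.antidiagonal T, poissonLaw d z.1 * poissonLaw (d' - d) z.2 := by
    have h : ∀ z : ℕ × ℕ, poissonLaw d z.1 * poissonLaw (d' - d) z.2
        = Real.exp (-d') * (ew d z.1 * ew (d' - d) z.2) := fun z => by
      rw [show -d' = -d + -(d' - d) by ring, Real.exp_add]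
      simp only [poissonLaw, ew]; ring
    simp only [h, ← Finset.mul_sum, ew_add, show d + (d' - d) = d' by ring]
    simp only [poissonLaw, ew]; ring
  rw [e2, Finset.sum_mul]
  refine Finset.sum_le_sum fun z hz => ?_
  simp only [hu]
  rw [← Finset.mem_antidiagonal.mp hz]
  have := mul_le_mul_of_nonneg_left (power_mono k0 hM z.1 z.2)
    (mul_nonneg (p1.nonneg z.1) (p2.nonneg z.2))
  linarith

/-- Fewer children in a regular family. -/
theorem mix_regular_mono {κ : ℝ} (k0 : 0 ≤ κ) {m n : ℕ} (h : m ≤ n) (hM : Ok M) :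
    mo (mPhi κ) (mix (regularLaw m) M) ≤ mo (mPhi κ) (mix (regularLaw n) M) := by
  have e : ∀ k, mo (mPhi κ) (mix (regularLaw k) M) = mo (mPhi κ) (power M k) := fun k => by
    rw [← (mix_mom (regular_law k) hM (dom_mPhi κ) (mPhi_scale κ)).tsum_eq,
      tsum_eq_single k fun N hN => by simp [regularLaw, hN]]
    simp [regularLaw]
  rw [e, e]
  obtain ⟨K, rfl⟩ := Nat.exists_eq_add_of_le h
  exact power_mono k0 hM m K

lemma drop_poisson_small {d l κ κ' ε : ℝ} (hd : 0 < d) (hd4 : d < 4) (h0 : -(1 / 2) ≤ l)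
    (h1 : l ≤ 1 / 2) (hc : CC κ κ') (k0 : 0 ≤ κ) (k1 : κ ≤ 12 / 25) (k0' : 0 ≤ κ')
    (k1' : κ' ≤ 12 / 25) (hε : 0 ≤ ε) (n : ℕ)
    (hS : Scal κ κ' 4 (poisSum κ) ε (4 * l ^ 2 * info (poissonLaw d) l n)) :
    Drop κ ε (poissonLaw d) 4 l n := by
  have hk := tab_ok (poisson_law hd) h0 (by linarith : l ≤ 1) n
  have hl2 : l ^ 2 ≤ 1 / 4 := by nlinarith
  have hMok := shift_ok_adm h0 (by linarith : l ≤ 1) hk
  have e : 4 * mo mA (shift l (tab (poissonLaw d) l n)) = 4 * l ^ 2 * info (poissonLaw d) l n := by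
    rw [shift_mA, info]; ring
  have h := le_trans (mix_poisson_mono k0 hd hd4 hMok)
    (level_poisson (d := 4) (s := l ^ 2) (by norm_num) hMok (shift_sw l (tab_sw _ l n))
      (by linarith) hl2 (fun y => shift_small l hk y) hc k0 k1 k0' k1' hε (by rw [e]; exact hS))
  rw [e, shift_mQ] at h
  unfold Drop
  rw [pot, mo_tab_succ]
  refine le_trans h (le_of_eq ?_)
  ring

lemma drop_regular_small {m : ℕ} {l κ κ' ε : ℝ} (hm : m ≤ 4) (h0 : -(1 / 2) ≤ l)
    (h1 : l ≤ 1 / 2) (hc : CC κ κ') (k0 : 0 ≤ κ) (k1 : κ ≤ 12 / 25) (k0' : 0 ≤ κ')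
    (k1' : κ' ≤ 12 / 25) (hε : 0 ≤ ε) (n : ℕ)
    (hS : Scal κ κ' 4 (fun σ ν => binSum κ σ ν 4) ε (4 * l ^ 2 * info (regularLaw m) l n)) :
    Drop κ ε (regularLaw m) 4 l n := by
  have hk := tab_ok (regular_law m) h0 (by linarith : l ≤ 1) n
  have hl2 : l ^ 2 ≤ 1 / 4 := by nlinarith
  have hMok := shift_ok_adm h0 (by linarith : l ≤ 1) hk
  have e : (4 : ℝ) * mo mA (shift l (tab (regularLaw m) l n))
      = 4 * l ^ 2 * info (regularLaw m) l n := by
    rw [shift_mA, info]; ring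
  have h4 : ((4 : ℕ) : ℝ) = 4 := by norm_num
  have hlev := level_regular (n := 4) (s := l ^ 2) (κ := κ) (κ' := κ') (ε := ε) (by norm_num) hMok
    (shift_sw l (tab_sw _ l n)) (by rw [h4]; linarith) hl2 (fun y => shift_small l hk y) hc k0 k1
    k0' k1' hε (by rw [h4, e]; exact hS)
  have h := le_trans (mix_regular_mono k0 hm hMok) hlev
  rw [h4, e, shift_mQ] at h
  unfold Drop
  rw [pot, mo_tab_succ]
  refine le_trans h (le_of_eq ?_)
  ring

end Window

end Vale.Agent.P154
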