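import Vale.Agent.P154.Window.Potential

/-!
The reference children of the window: the channel with a single negative parameter, and the
potential of several independent copies of two of them.
-/

namespace Vale.Agent.P154

namespace Window

/-- The child with squared length `mu ^ 2`: one step of the channel with parameter `-mu`. -/
noncomputable def node (mu : ℝ) : Lik (Fin 3) := fun s i => potts (-mu) i s

/-- The potential of `i` copies of one reference child and `j` copies of another. -/
noncomputable def nodeF (k mu nu : ℝ) (i j : ℕ) : ℝ :=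
  mo (mPhi k) (pair (power (node mu) i) (power (node nu) j))

lemma node_eq (mu : ℝ) (s i : Fin 3) :
    node mu s i = (if i = s then -mu else 0) + (1 + mu) / 3 := by
  simp [node, potts, sub_neg_eq_add]

lemma node_ok {mu : ℝ} (h0 : 0 ≤ mu) (h1 : mu ≤ 1 / 2) : Ok (node mu) where
  nonneg s i := by rw [node_eq]; split_ifs <;> linarith
  total i := by
    refine hasSum_val (hasSum_fintype _) ?_
    fin_cases i <;> simp [Fin.sum_univ_three, node_eq] <;> ring
  rot := ⟨Equiv.addRight 1, fun s i => by simp [node_eq]⟩

lemma node_sw (mu : ℝ) : Sw (node mu) :=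
  ⟨Equiv.swap 1 2, fun s => by
    fin_cases s <;> simp [node_eq, Equiv.swap_apply_def]⟩

lemma node_tot (mu : ℝ) (s : Fin 3) :
    tot (node mu s 0) (node mu s 1) (node mu s 2) = 1 := by
  fin_cases s <;> simp [node_eq, tot] <;> ring

lemma node_quad (mu : ℝ) (s : Fin 3) :
    quad rc (node mu s 0) (node mu s 1) (node mu s 2) = mu ^ 2 := by
  fin_cases s <;> simp [node_eq, quad, dif] <;> ring

lemma mo_mA_node (mu : ℝ) : mo mA (node mu) = mu ^ 2 := by
  rw [mo, tsum_fintype]
  simp only [row, mA, node_tot, node_quad, Fin.sum_univ_three]; ring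

lemma mo_mQ_node (mu : ℝ) : mo mQ (node mu) = mu ^ 4 := by
  rw [mo, tsum_fintype]
  simp only [row, mQ, node_tot, node_quad, Fin.sum_univ_three]; ring

lemma nodeF_zero (k mu nu : ℝ) : nodeF k mu nu 0 0 = 0 := by
  simp only [nodeF, mo]
  rw [tsum_eq_single default (fun z hz => absurd (Subsingleton.elim z default) hz)]
  simp [row, pair, power, mPhi, mA, mQ, quad, tot, dif, rc]

end Window

end Vale.Agent.P154
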