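import Vale.Agent.P154.Window.Five

/-!
Data processing: the order is preserved in depth and in the Poisson mean, so the information
decreases and later phases only see small values.
-/

namespace Vale.Agent.P154

namespace Window

open Filter Topology

variable {ι : Type} {p : ℕ → ℝ} {d l κ ε : ℝ}

lemma sub3_mA : Sub3 mA 1 where
  dom := dom_mA
  hom c a b e _ := mA_scale c a b e
  add := fun a b c a' b' c' => mA_add a b c a' b' c'

/-- Nothing exceeds a perfect observation. -/
lemma below_leaf {A : Lik ι} (hA : Ok A) (p : ℕ → ℝ) (l : ℝ) : Below A (tab p l 0) := by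
  intro g C hg
  have e : mo g (tab p l 0) = (g 1 0 0 + g 0 1 0 + g 0 0 1) / 3 := by
    have : (∑' x : Obs 0, row g (tab p l 0 x)) = g 1 0 0 + g 0 1 0 + g 0 0 1 := by
      change (∑' x : Fin 3, row g (tab p l 0 x)) = _
      rw [tsum_fintype, Fin.sum_univ_three]
      simp [row, tab, lik]
    rw [mo, this]
  have key := hasSum_le (fun x => ?_) (hA.summable_mom hg.dom).hasSum
    ((((hA.total 0).mul_right (g 1 0 0)).add ((hA.total 1).mul_right (g 0 1 0))).add
      ((hA.total 2).mul_right (g 0 0 1)))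
  · rw [e, mo]; linarith
  · have a := hA.nonneg x
    have z := le_refl (0 : ℝ)
    have h2 := hg.add (add_nonneg (a 0) z) (add_nonneg z (a 1)) (add_nonneg z z) z z (a 2)
    have h1 := hg.add (a 0) z z z (a 1) z
    have h3 := hg.hom (A x 0) 1 0 0 (a 0)
    have h4 := hg.hom (A x 1) 0 1 0 (a 1)
    have h5 := hg.hom (A x 2) 0 0 1 (a 2)
    simp only [mul_one, mul_zero] at h3 h4 h5
    simp only [add_zero, zero_add] at h1 h2
    simp only [row]
    linarith

/-- One more level carries no more. -/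
lemma below_succ (hp : Law p d) (h0 : -(1 / 2) ≤ l) (h1 : l ≤ 1) :
    ∀ n, Below (tab p l (n + 1)) (tab p l n)
  | 0 => below_leaf (tab_ok hp h0 h1 1) p l
  | n + 1 => fun g C hg => by
    have ok := tab_ok hp h0 h1
    rw [mo_tab_succ, mo_tab_succ p l n]
    exact Below.mix hp (shift_ok_adm h0 h1 (ok (n + 1))) (shift_ok_adm h0 h1 (ok n))
      (Below.shift h0 h1 (below_succ hp h0 h1 n)) g C hg

lemma below_antitone (hp : Law p d) (h0 : -(1 / 2) ≤ l) (h1 : l ≤ 1) (n : ℕ) :
    ∀ k, Below (tab p l (n + k)) (tab p l n)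
  | 0 => Below.refl _
  | k + 1 => (below_succ hp h0 h1 (n + k)).trans (below_antitone hp h0 h1 n k)

/-- The information does not increase with the depth. -/
theorem info_antitone (hp : Law p d) (h0 : -(1 / 2) ≤ l) (h1 : l ≤ 1) : Antitone (info p l) :=
  antitone_nat_of_succ_le fun n => below_succ hp h0 h1 n _ _ sub3_mA

lemma Below.power_mono {A : Lik ι} (hA : Ok A) (N : ℕ) :
    ∀ K, Below (Vale.Agent.P154.power A N) (Vale.Agent.P154.power A (N + K))
  | 0 => Below.refl _
  | K + 1 => fun g C hg => by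
    refine le_trans (Below.power_mono hA N K g C hg) ?_
    rw [show N + (K + 1) = N + K + 1 from rfl, power_succ, mo_reindex, mo_pair_comm]
    exact below_pair (power_ok A hA _) hA g C hg

/-- A larger Poisson mean carries more. -/
theorem below_mix_poisson {d' : ℝ} (hd : 0 < d) (hdd : d ≤ d') {A : Lik ι} (hA : Ok A) :
    Below (mix (poissonLaw d) A) (mix (poissonLaw d') A) := by
  intro g C hg
  rcases eq_or_lt_of_le hdd with h | h
  · rw [h]
  have he : 0 < d' - d := by linarith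
  have p1 := poisson_law hd
  have p2 := poisson_law he
  have hA1 := mix_hasSum p1 hA hg
  have hB := mix_hasSum (poisson_law (lt_trans hd h)) hA hg
  have su : Summable fun N => ‖poissonLaw d N * mo g (Vale.Agent.P154.power A N)‖ := hA1.summable.abs
  have sw : Summable fun K => ‖poissonLaw (d' - d) K‖ := p2.total.summable.abs
  have e1 := tsum_mul_tsum_eq_tsum_sum_antidiagonal_of_summable_norm su sw
  have s1 := summable_norm_sum_mul_antidiagonal_of_summable_norm su sw
  rw [p2.total.tsum_eq, mul_one, hA1.tsum_eq] at e1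
  rw [e1, ← hB.tsum_eq]
  refine s1.of_norm.tsum_le_tsum (fun T => ?_) hB.summable
  have e2 : poissonLaw d' T
      = ∑ z ∈ Finset.antidiagonal T, poissonLaw d z.1 * poissonLaw (d' - d) z.2 := by
    have h : ∀ z : ℕ × ℕ, poissonLaw d z.1 * poissonLaw (d' - d) z.2
        = Real.exp (-d') * (ew d z.1 * ew (d' - d) z.2) := fun z => by
      rw [show -d' = -d + -(d' - d) by ring, Real.exp_add]
      simp only [poissonLaw, ew]; ring
    simp only [h, ← Finset.mul_sum, ew_add, show d + (d' - d) = d' by ring]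
    simp only [poissonLaw, ew]; ring
  rw [e2, Finset.sum_mul]
  refine Finset.sum_le_sum fun z hz => ?_
  rw [← Finset.mem_antidiagonal.mp hz]
  have := mul_le_mul_of_nonneg_left (Below.power_mono hA z.1 z.2 g C hg)
    (mul_nonneg (p1.nonneg z.1) (p2.nonneg z.2))
  linarith

/-- A smaller mean and a weaker negative parameter are below a fixed Poisson family. -/
theorem below_poisson_ref {D l0 : ℝ} (hd : 0 < d) (hD : d ≤ D) (a0 : -(1 / 2) ≤ l0) (a1 : l0 < 0)
    (h0 : l0 ≤ l) (h1 : l ≤ 0) : ∀ n, Below (tab (poissonLaw d) l n) (tab (poissonLaw D) l0 n)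
  | 0 => fun g C _ => le_of_eq rfl
  | n + 1 => fun g C hg => by
    have hl : -(1 / 2) ≤ l := le_trans a0 h0
    have hD0 : 0 < D := lt_of_lt_of_le hd hD
    have hA := tab_ok (poisson_law hd) hl (by linarith : l ≤ 1) n
    have hB := tab_ok (poisson_law hD0) a0 (by linarith : l0 ≤ 1) n
    have t0 : 0 ≤ l / l0 := div_nonneg_of_nonpos h1 a1.le
    have t1 : l / l0 ≤ 1 := by rw [div_le_one_of_neg a1]; exact h0
    have e : shift l (tab (poissonLaw d) l n)
        = shift l0 (shift (l / l0) (tab (poissonLaw d) l n)) := by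
      rw [shift_shift, mul_div_cancel₀ _ a1.ne]
    rw [mo_tab_succ, mo_tab_succ (poissonLaw D), e]
    have hs := shift_ok_adm a0 (by linarith : l0 ≤ 1) (shift_ok t0 t1 hA)
    refine le_trans (below_mix_poisson hd hD hs g C hg) ?_
    exact Below.mix (poisson_law hD0) hs (shift_ok_adm a0 (by linarith : l0 ≤ 1) hB)
      (Below.shift a0 (by linarith)
        ((shift_below hA t0 t1).trans (below_poisson_ref hd hD a0 a1 h0 h1 n))) g C hg

/-- Decrease from one depth on is enough. -/
theorem nonrec_of_tail {dm : ℝ} (hp : Law p dm) (h0 : -(1 / 2) ≤ l) (h1 : l ≤ 1 / 2) (hd : 0 ≤ d)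
    (hdl : d * l ^ 2 ≤ 1) (k0 : 0 ≤ κ) (e0 : 0 < ε) (e1 : ε ≤ 1) {n0 : ℕ}
    (hdrop : ∀ n, n0 ≤ n → Drop κ ε p d l n) : Nonreconstruction p l := by
  have ok := tab_ok hp h0 (by linarith : l ≤ 1)
  have anti := info_antitone hp h0 (by linarith : l ≤ 1)
  have nn : ∀ n, 0 ≤ info p l n := fun n => (ok n).mo_nonneg fun _ _ _ => mA_nonneg
  refine nonrec_of_info hp h0 (by linarith) (Metric.tendsto_atTop.mpr fun η hη => ?_)
  by_cases hz : ∃ n, info p l n < η
  · obtain ⟨N, hN⟩ := hz
    refine ⟨N, fun n hn => ?_⟩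
    rw [Real.dist_eq, sub_zero, abs_of_nonneg (nn n)]
    exact lt_of_le_of_lt (anti hn) hN
  exfalso
  push_neg at hz
  have step : ∀ j, pot κ p l (n0 + (j + 1)) ≤ pot κ p l (n0 + j) - ε * η ^ 2 / 2 := fun j => by
    have := pot_step hp h0 h1 hd hdl k0 e0.le e1 (hdrop (n0 + j) (Nat.le_add_right _ _))
    have := mul_le_mul_of_nonneg_left (pow_le_pow_left₀ hη.le (hz (n0 + j)) 2) e0.le
    rw [← add_assoc]
    linarith
  have bound : ∀ j : ℕ, pot κ p l (n0 + j) ≤ pot κ p l n0 - j * (ε * η ^ 2 / 2) := by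
    intro j
    induction j with
    | zero => simp
    | succ j ih => push_cast; have := step j; linarith
  have hpos : 0 < ε * η ^ 2 / 2 := by positivity
  obtain ⟨j, hj⟩ := exists_nat_gt (pot κ p l n0 / (ε * η ^ 2 / 2))
  rw [div_lt_iff₀ hpos] at hj
  have h4 : 0 ≤ pot κ p l (n0 + j) := by
    rw [pot_eq ⟨ok 0, ok⟩ κ]
    have := mul_nonneg k0 ((ok (n0 + j)).mo_nonneg (g := mQ) fun _ _ _ => mQ_nonneg)
    have := nn (n0 + j)
    linarith
  linarith [bound j]

/-- Below a value already reached, a later phase only needs its own range. -/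
theorem nonrec_below_level {dm : ℝ} (hp : Law p dm) (h0 : -(1 / 2) ≤ l) (h1 : l ≤ 1 / 2)
    (hd : 0 ≤ d) (hdl : d * l ^ 2 ≤ 1) (k0 : 0 ≤ κ) (e0 : 0 < ε) (e1 : ε ≤ 1) {X0 : ℝ} {n0 : ℕ}
    (hstart : d * l ^ 2 * info p l n0 ≤ X0)
    (hdrop : ∀ n, d * l ^ 2 * info p l n ≤ X0 → Drop κ ε p d l n) : Nonreconstruction p l :=
  nonrec_of_tail hp h0 h1 hd hdl k0 e0 e1 (n0 := n0) fun n hn => hdrop n
    (le_trans (mul_le_mul_of_nonneg_left (info_antitone hp h0 (by linarith) hn)
      (mul_nonneg hd (sq_nonneg l))) hstart)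

/-- A middle phase lowers the value already reached. -/
theorem reach_between {dm : ℝ} (hp : Law p dm) (h0 : -(1 / 2) ≤ l) (h1 : l ≤ 1 / 2) (hd : 0 ≤ d)
    (hdl : d * l ^ 2 ≤ 1) (k0 : 0 ≤ κ) (e0 : 0 < ε) (e1 : ε ≤ 1) {X1 X0 : ℝ} (hX0 : 0 < X0)
    {n1 : ℕ} (hstart : d * l ^ 2 * info p l n1 ≤ X1)
    (hdrop : ∀ n, X0 ≤ d * l ^ 2 * info p l n → d * l ^ 2 * info p l n ≤ X1 → Drop κ ε p d l n) :
    ∃ n, d * l ^ 2 * info p l n ≤ X0 := by
  by_contra hcon
  push_neg at hcon
  have ok := tab_ok hp h0 (by linarith : l ≤ 1)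
  have anti := info_antitone hp h0 (by linarith : l ≤ 1)
  have nn : ∀ n, 0 ≤ info p l n := fun n => (ok n).mo_nonneg fun _ _ _ => mA_nonneg
  have low : ∀ n, X0 ≤ info p l n := fun n => by
    have := mul_le_mul_of_nonneg_right hdl (nn n)
    have := hcon n
    linarith
  have step : ∀ j, pot κ p l (n1 + (j + 1)) ≤ pot κ p l (n1 + j) - ε * X0 ^ 2 / 2 := fun j => by
    have hm := le_trans (mul_le_mul_of_nonneg_left (anti (Nat.le_add_right n1 j))
      (mul_nonneg hd (sq_nonneg l))) hstart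
    have := pot_step hp h0 h1 hd hdl k0 e0.le e1 (hdrop (n1 + j) (hcon _).le hm)
    have := mul_le_mul_of_nonneg_left (pow_le_pow_left₀ hX0.le (low (n1 + j)) 2) e0.le
    rw [← add_assoc]
    linarith
  have bound : ∀ j : ℕ, pot κ p l (n1 + j) ≤ pot κ p l n1 - j * (ε * X0 ^ 2 / 2) := by
    intro j
    induction j with
    | zero => simp
    | succ j ih => push_cast; have := step j; linarith
  have hpos : 0 < ε * X0 ^ 2 / 2 := by positivity
  obtain ⟨j, hj⟩ := exists_nat_gt (pot κ p l n1 / (ε * X0 ^ 2 / 2))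
  rw [div_lt_iff₀ hpos] at hj
  have h4 : 0 ≤ pot κ p l (n1 + j) := by
    rw [pot_eq ⟨ok 0, ok⟩ κ]
    have := mul_nonneg k0 ((ok (n1 + j)).mo_nonneg (g := mQ) fun _ _ _ => mQ_nonneg)
    have := nn (n1 + j)
    linarith
  linarith [bound j]

end Window

end Vale.Agent.P154
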