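import Vale.Agent.P154.Kron

/-!
Coefficient tests through one packed integer, with a separate radix for every variable and an
arbitrary test on each coefficient.
-/

namespace Vale.Agent.P154

namespace Pol

/-- Product of the radices below `n`. -/
def prodD (D : ℕ → ℕ) : ℕ → ℕ
  | 0 => 1
  | n + 1 => prodD D n * D n

lemma prodD_pos {D d : ℕ → ℕ} (hd : ∀ i, d i < D i) : ∀ n, 1 ≤ prodD D n
  | 0 => le_rfl
  | n + 1 => Nat.one_le_iff_ne_zero.mpr (Nat.mul_ne_zero
      (by have := prodD_pos hd n; omega) (by have := hd n; omega))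

/-- Base used at level `n`. -/
def baseR (bits : ℕ) (D : ℕ → ℕ) (n : ℕ) : ℤ := (2 : ℤ) ^ (bits * prodD D n)

/-- All coefficients pass the test. -/
def allC (f : ℤ → Bool) : (n : ℕ) → Pol n → Bool
  | 0 => fun (a : ℤ) => f a
  | n + 1 => fun (a : List (Pol n)) => List.all a (allC f n)

/-- The digit test, level by level. -/
def checkR (f : ℤ → Bool) (bits : ℕ) (D : ℕ → ℕ) : ℕ → ℤ → Bool
  | 0, N => f N
  | n + 1, N => digits (checkR f bits D n) (baseR bits D n) (D n) N

lemma abs_evalR_le (bits : ℕ) (D d : ℕ → ℕ) (hd : ∀ i, d i < D i) :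
    ∀ n a, Deg d n a → |evalZ (baseR bits D) n a| ≤ size n a * (2 : ℤ) ^ (bits * (prodD D n - 1))
  | 0, a, _ => by
    change |(a : ℤ)| ≤ |(a : ℤ)| * _
    simp [prodD]
  | n + 1, a, ha => by
    change |listEvalZ (evalZ (baseR bits D) n) (baseR bits D n) a|
      ≤ listEvalZ (size n) 1 a * (2 : ℤ) ^ (bits * (prodD D (n + 1) - 1))
    obtain ⟨hl, hm⟩ := ha
    have hD : 0 < D n := lt_of_le_of_lt (Nat.zero_le _) (hd n)
    have key : ∀ as : List (Pol n), (∀ b ∈ as, Deg d n b) →
        ∀ L, as.length ≤ L + 1 →
        |listEvalZ (evalZ (baseR bits D) n) (baseR bits D n) as|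
          ≤ listEvalZ (size n) 1 as * (2 : ℤ) ^ (bits * (prodD D n - 1) + bits * prodD D n * L) := by
      intro as
      induction as with
      | nil => intro _ L _; simp [listEvalZ]
      | cons c cs ih =>
        intro hm L hL
        simp only [listEvalZ, one_mul]
        have h1 := abs_evalR_le bits D d hd n c (hm c List.mem_cons_self)
        have hc0 := size_nonneg n c
        refine le_trans (abs_add_le _ _) ?_
        rw [add_mul]
        refine add_le_add (le_trans h1 ?_) ?_
        · gcongr
          · norm_num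
          · omega
        · rcases L with _ | L
          · have : cs = [] := List.length_eq_zero_iff.mp (by simp only [List.length_cons] at hL; omega)
            subst this
            simp [listEvalZ]
          · have h2 := ih (fun b hb => hm b (List.mem_cons_of_mem _ hb)) L
              (by simp only [List.length_cons] at hL; omega)
            rw [abs_mul, baseR, abs_of_nonneg (by positivity : (0 : ℤ) ≤ 2 ^ (bits * prodD D n))]
            calc (2 : ℤ) ^ (bits * prodD D n) * |listEvalZ (evalZ (baseR bits D) n) _ cs|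
                ≤ 2 ^ (bits * prodD D n) * (listEvalZ (size n) 1 cs
                    * 2 ^ (bits * (prodD D n - 1) + bits * prodD D n * L)) :=
                  mul_le_mul_of_nonneg_left h2 (by positivity)
              _ = listEvalZ (size n) 1 cs
                    * 2 ^ (bits * (prodD D n - 1) + bits * prodD D n * (L + 1)) := by
                  rw [mul_add (bits * prodD D n), mul_one, ← add_assoc, pow_add]; ring
    refine le_trans (key a hm (D n - 1) (le_trans hl (by have := hd n; omega))) ?_
    refine mul_le_mul_of_nonneg_left ?_ (size_nonneg (n + 1) a)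
    refine pow_le_pow_right₀ (by norm_num) ?_
    have h1 : 1 ≤ prodD D n := prodD_pos hd n
    obtain ⟨E, hE⟩ : ∃ E, D n = E + 1 := ⟨D n - 1, by omega⟩
    obtain ⟨p, hp⟩ : ∃ p, prodD D n = p + 1 := ⟨prodD D n - 1, by omega⟩
    rw [show prodD D (n + 1) = prodD D n * D n from rfl, hp, hE, Nat.add_sub_cancel, Nat.add_sub_cancel]
    have e : (p + 1) * (E + 1) = (p + (p + 1) * E) + 1 := by ring
    rw [e, Nat.add_sub_cancel]
    exact le_of_eq (by ring)

lemma checkR_sound (f : ℤ → Bool) (bits : ℕ) (D d : ℕ → ℕ) (hd : ∀ i, d i < D i) :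
    ∀ n a, Deg d n a → 2 * size n a < (2 : ℤ) ^ bits →
      checkR f bits D n (evalZ (baseR bits D) n a) = true → allC f n a = true
  | 0, a, _, _, h => h
  | n + 1, a, ha, hs, h => by
    change List.all a (allC f n) = true
    rw [List.all_eq_true]
    obtain ⟨hl, hm⟩ := ha
    change 2 * listEvalZ (size n) 1 a < _ at hs
    change digits (checkR f bits D n) (baseR bits D n) (D n)
      (listEvalZ (evalZ (baseR bits D) n) (baseR bits D n) a) = true at h
    have key : ∀ as : List (Pol n), (∀ b ∈ as, Deg d n b) →
        2 * listEvalZ (size n) 1 as < (2 : ℤ) ^ bits → ∀ k, as.length ≤ k →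
        digits (checkR f bits D n) (baseR bits D n) k
          (listEvalZ (evalZ (baseR bits D) n) (baseR bits D n) as) = true →
        ∀ b ∈ as, allC f n b = true := by
      intro as
      induction as with
      | nil => intro _ _ _ _ _ b hb; exact absurd hb List.not_mem_nil
      | cons c cs ih =>
        intro hm hs k hk hdig
        simp only [List.length_cons] at hk
        obtain ⟨k, rfl⟩ : ∃ j, k = j + 1 := ⟨k - 1, by omega⟩
        simp only [digits, Bool.and_eq_true] at hdig
        obtain ⟨⟨h1', h2⟩, h3⟩ := hdig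
        have h1 := of_decide_eq_true h1'
        simp only [listEvalZ] at h1 h2 h3
        simp only [listEvalZ, one_mul] at hs
        have hcs : 0 ≤ listEvalZ (size n) 1 cs := size_nonneg (n + 1) cs
        have hc0 := size_nonneg n c
        have hb := abs_evalR_le bits D d hd n c (hm c List.mem_cons_self)
        set X := baseR bits D n with hX
        set v := evalZ (baseR bits D) n c
        set t := listEvalZ (evalZ (baseR bits D) n) X cs
        have hXpos : 0 < X := by rw [hX, baseR]; positivity
        have hsmall : 2 * |v| < X := by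
          have h4 : 2 * |v| ≤ (2 * size n c) * (2 : ℤ) ^ (bits * (prodD D n - 1)) := by linarith
          have h5 : (2 * size n c) * (2 : ℤ) ^ (bits * (prodD D n - 1))
              < (2 : ℤ) ^ bits * (2 : ℤ) ^ (bits * (prodD D n - 1)) :=
            mul_lt_mul_of_pos_right (by linarith) (by positivity)
          have h6 : (2 : ℤ) ^ bits * (2 : ℤ) ^ (bits * (prodD D n - 1)) = X := by
            rw [hX, baseR, ← pow_add]; congr 1
            have h7 : 1 ≤ prodD D n := prodD_pos hd n
            obtain ⟨p, hp⟩ : ∃ p, prodD D n = p + 1 := ⟨prodD D n - 1, by omega⟩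
            rw [hp, Nat.add_sub_cancel]; ring
          linarith
        have hmod : (v + X * t) % X = v % X := Int.add_mul_emod_self_left v X t
        have hv : 0 ≤ v := by
          by_contra hneg
          have h8 : (v + X) % X = v % X := Int.add_emod_right v X
          have h9 : (v + X) % X = v + X := Int.emod_eq_of_lt
            (by have := abs_lt.mp (show |v| < X by linarith [abs_nonneg v]); linarith) (by linarith)
          rw [hmod, ← h8, h9] at h1
          rw [abs_of_neg (by linarith)] at hsmall
          linarith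
        have hvX : v < X := by rw [abs_of_nonneg hv] at hsmall; linarith
        have hdiv : (v + X * t) / X = t := by
          rw [Int.add_mul_ediv_left v t (ne_of_gt hXpos), Int.ediv_eq_zero_of_lt hv hvX, zero_add]
        rw [hmod, Int.emod_eq_of_lt hv hvX] at h2
        rw [hdiv] at h3
        intro b hb'
        rcases List.mem_cons.mp hb' with rfl | hb'
        · exact checkR_sound f bits D d hd n _ (hm _ List.mem_cons_self) (by linarith) h2
        · exact ih (fun z hz => hm z (List.mem_cons_of_mem _ hz)) (by linarith) k (by omega) h3 b hb'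
    exact key a hm hs (D n) (le_trans hl (by have := hd n; omega)) h


lemma eval_allC_nonneg (x : ℕ → ℝ) (hx : ∀ i, 0 ≤ x i) :
    ∀ n a, allC (fun z => decide (0 ≤ z)) n a = true → 0 ≤ eval x n a
  | 0, a, h => Int.cast_nonneg (R := ℝ) (of_decide_eq_true h)
  | n + 1, a, h => listEval_nonneg _ _ (hx n) a
      (fun b hb => eval_allC_nonneg x hx n b (List.all_eq_true.mp h b hb))

lemma eval_allC_zero (x : ℕ → ℝ) :
    ∀ n a, allC (fun z => decide (z = 0)) n a = true → eval x n a = 0
  | 0, a, h => by
    change ((a : ℤ) : ℝ) = 0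
    have : (a : ℤ) = 0 := of_decide_eq_true h
    rw [this, Int.cast_zero]
  | n + 1, a, h => by
    have key : ∀ as : List (Pol n), (∀ b ∈ as, eval x n b = 0) →
        listEval (eval x n) (x n) as = 0 := by
      intro as
      induction as with
      | nil => intro _; rfl
      | cons c cs ih =>
        intro hh
        simp only [listEval]
        rw [hh c List.mem_cons_self, ih fun b hb => hh b (List.mem_cons_of_mem _ hb)]; ring
    exact key a fun b hb => eval_allC_zero x n b (List.all_eq_true.mp h b hb)

end Pol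

namespace Ex

/-- The radix of each variable. -/
def rad (D0 D1 D2 D3 : ℕ) : ℕ → ℕ
  | 0 => D0
  | 1 => D1
  | 2 => D2
  | 3 => D3
  | _ => 1

/-- The packed substitution. -/
def packR (bits : ℕ) (D : ℕ → ℕ) (i : ℕ) : ℤ := if i < 4 then Pol.baseR bits D i else 0

lemma evalR_norm (bits : ℕ) (D : ℕ → ℕ) (e : Ex) :
    Pol.evalZ (Pol.baseR bits D) 4 (norm e) = valZ (packR bits D) e := by
  have h : ∀ e : Ex, Pol.eval (fun i => ((Pol.baseR bits D i : ℤ) : ℝ)) 4 (norm e)
      = ((valZ (packR bits D) e : ℤ) : ℝ) := by
    intro e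
    induction e with
    | c z => exact Pol.eval_const _ 4 z
    | x i =>
      by_cases h : i < 4
      · simp only [norm, if_pos h, valZ, packR, Pol.eval_var _ 4 i h]
      · simp only [norm, if_neg h, valZ, packR, Pol.eval_zero, Int.cast_zero]
    | add a b iha ihb => simp only [norm, valZ, Pol.eval_add, iha, ihb, Int.cast_add]
    | mul a b iha ihb => simp only [norm, valZ, Pol.eval_mul, iha, ihb, Int.cast_mul]
  have h2 := (Pol.evalZ_cast (Pol.baseR bits D) 4 (norm e)).trans (h e)
  exact_mod_cast h2

/-- All the tests for one expression. -/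
def goodR (f : ℤ → Bool) (bits D0 D1 D2 D3 : ℕ) (e : Ex) : Bool :=
  decide (deg 0 e < D0) && decide (deg 1 e < D1) && decide (deg 2 e < D2) && decide (deg 3 e < D3)
    && decide (2 * bound e < (2 : ℤ) ^ bits)
    && Pol.checkR f bits (rad D0 D1 D2 D3) 4 (valZ (packR bits (rad D0 D1 D2 D3)) e)

lemma goodR_sound {f : ℤ → Bool} {bits D0 D1 D2 D3 : ℕ} {e : Ex}
    (h : goodR f bits D0 D1 D2 D3 e = true) : Pol.allC f 4 (norm e) = true := by
  simp only [goodR, Bool.and_eq_true, decide_eq_true_eq] at h
  obtain ⟨⟨⟨⟨⟨h0, h1⟩, h2⟩, h3⟩, hb⟩, hc⟩ := h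
  have hdeg : Pol.Deg (fun i => if i < 4 then deg i e else 0) 4 (norm e) := by
    have := deg_norm e
    refine ⟨?_, fun b hb => ⟨?_, fun c hc => ⟨?_, fun d hd => ⟨?_, fun _ _ => trivial⟩⟩⟩⟩
    · simpa using this.1
    · simpa using (this.2 b hb).1
    · simpa using ((this.2 b hb).2 c hc).1
    · simpa using (((this.2 b hb).2 c hc).2 d hd).1
  refine Pol.checkR_sound f bits (rad D0 D1 D2 D3) _ (fun i => ?_) 4 _ hdeg ?_ ?_
  · rcases i with _ | _ | _ | _ | i <;> simp only [rad]
    · simpa using h0
    · simpa using h1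
    · simpa using h2
    · simpa using h3
    · simp
  · have := size_norm e; linarith
  · rw [evalR_norm]; exact hc

/-- Nonnegativity on the orthant. -/
lemma nonneg_of_goodR {bits D0 D1 D2 D3 : ℕ} {e : Ex}
    (h : goodR (fun z => decide (0 ≤ z)) bits D0 D1 D2 D3 e = true) (ρ : ℕ → ℝ)
    (h0 : ∀ i, 0 ≤ ρ i) (h1 : ∀ i, 4 ≤ i → ρ i = 0) : 0 ≤ val ρ e := by
  rw [← eval_norm ρ h1 e]; exact Pol.eval_allC_nonneg ρ h0 4 _ (goodR_sound h)

/-- A polynomial identity. -/
lemma zero_of_goodR {bits D0 D1 D2 D3 : ℕ} {e : Ex}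
    (h : goodR (fun z => decide (z = 0)) bits D0 D1 D2 D3 e = true) (ρ : ℕ → ℝ)
    (h1 : ∀ i, 4 ≤ i → ρ i = 0) : val ρ e = 0 := by
  rw [← eval_norm ρ h1 e]; exact Pol.eval_allC_zero ρ 4 _ (goodR_sound h)

end Ex

end Vale.Agent.P154
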