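import Vale.Agent.P154.Window.ChildConvex
import Vale.Agent.P154.Window.Node
import Vale.Agent.P154.Channel

/-!
Replacing one child channel by a mixture of reference children.
-/

namespace Vale.Agent.P154

namespace Window

variable {ι η : Type} {L : Lik ι} {M : Lik η}

lemma dom_childT {κ μ : ℝ} (h0 : 0 ≤ μ) (h1 : μ ≤ 1 / 2) :
    Dom (fun p q r => childT κ p q r μ) (1 + |κ|) := by
  intro p q r hp hq hr
  have a : 0 ≤ (1 - 2 * μ) / 3 := by linarith
  have b : 0 ≤ (1 + μ) / 3 := by linarith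
  have d := dom_mPhi κ
  have l0 := d (p * ((1 - 2 * μ) / 3)) (q * ((1 + μ) / 3)) (r * ((1 + μ) / 3))
    (mul_nonneg hp a) (mul_nonneg hq b) (mul_nonneg hr b)
  have l1 := d (p * ((1 + μ) / 3)) (q * ((1 + μ) / 3)) (r * ((1 - 2 * μ) / 3))
    (mul_nonneg hp b) (mul_nonneg hq b) (mul_nonneg hr a)
  have l2 := d (p * ((1 + μ) / 3)) (q * ((1 - 2 * μ) / 3)) (r * ((1 + μ) / 3))
    (mul_nonneg hp b) (mul_nonneg hq a) (mul_nonneg hr b)
  simp only [childT, rot6]
  refine le_trans (abs_add_three _ _ _) (le_trans (add_le_add (add_le_add l0 l1) l2) (le_of_eq ?_))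
  simp only [mS, tot]; ring

lemma node_rots (κ μ : ℝ) (v : Fin 3 → ℝ) (s : Fin 3) :
    rots (mPhi κ) v (node μ s) = childT κ (v 0) (v 1) (v 2) μ := by
  fin_cases s <;> simp [rots, node_eq, childT, rot6] <;> ring_nf

lemma mo_pair_node (hL : Ok L) (κ : ℝ) {μ : ℝ} (h0 : 0 ≤ μ) (h1 : μ ≤ 1 / 2) :
    mo (mPhi κ) (pair L (node μ)) = mo (fun p q r => childT κ p q r μ) L := by
  have h := pair_rots hL (node_ok h0 h1) (dom_mPhi κ)
  have hx : ∀ x, HasSum (fun s => rots (mPhi κ) (L x) (node μ s))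
      (3 * row (fun p q r => childT κ p q r μ) (L x)) := fun x => by
    refine hasSum_val (hasSum_fintype _) ?_
    simp only [node_rots, Fin.sum_univ_three, row]; ring
  have h2 := (h.prod_fiberwise hx).unique ((hL.summable_mom (dom_childT h0 h1)).hasSum.mul_left 3)
  rw [mo]; rw [mo] at h2 ⊢
  linarith

lemma mo_mO (hL : Ok L) : mo mO L = 1 - 2 * mo mA L + mo mQ L := by
  have := (hL.hasSum_mass.sub ((hL.summable_mom dom_mA).hasSum.mul_left 2)).add
    (hL.summable_mom dom_mQ).hasSum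
  rw [mo, show (∑' x, row mO (L x)) = _ from this.tsum_eq, mo, mo]; ring

lemma sq_le_mo_mQ (hL : Ok L) : mo mA L ^ 2 ≤ mo mQ L := by
  set a := mo mA L with ha
  have h := hasSum_le (fun x => ?_)
    (((hL.summable_mom dom_mA).hasSum.mul_left (2 * a)).sub (hL.hasSum_mass.mul_left (a ^ 2)))
    (hL.summable_mom dom_mQ).hasSum
  · rw [ha, mo] at h ⊢
    rw [mo]
    nlinarith [h]
  · have hS : 0 ≤ tot (L x 0) (L x 1) (L x 2) :=
      tot_nonneg (hL.nonneg x 0) (hL.nonneg x 1) (hL.nonneg x 2)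
    simp only [row, mA, mQ, mS]
    rcases eq_or_lt_of_le hS with h0 | h0
    · rw [← h0]; simp
    · generalize tot (L x 0) (L x 1) (L x 2) = S at h0 ⊢
      generalize quad rc (L x 0) (L x 1) (L x 2) = q
      have e : q ^ 2 / S ^ 3 - (2 * a * (q / S) - a ^ 2 * S) = (q - a * S ^ 2) ^ 2 / S ^ 3 := by
        field_simp; ring
      have : 0 ≤ (q - a * S ^ 2) ^ 2 / S ^ 3 := by positivity
      linarith

lemma mo_mO_ge (hL : Ok L) : (1 - mo mA L) ^ 2 ≤ mo mO L := by
  have := sq_le_mo_mQ hL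
  rw [mo_mO hL]; nlinarith

/-- A spreading of the children onto finitely many reference lengths, preserving the mass and
the squared length. -/
structure Spread (M : Lik η) {k : ℕ} (μ : Fin k → ℝ) (h : η → Fin k → ℝ) : Prop where
  small : ∀ y, quad rc (M y 0) (M y 1) (M y 2) ≤ tot (M y 0) (M y 1) (M y 2) ^ 2 / 4
  range : ∀ i, 0 ≤ μ i ∧ μ i ≤ 1 / 2
  nonneg : ∀ y i, 0 ≤ h y i
  mass : ∀ y, ∑ i, h y i = row mS (M y)
  length : ∀ y, ∑ i, h y i * μ i ^ 2 = row mA (M y)

/-- The weight of one reference length. -/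
noncomputable def wt' {k : ℕ} (h : η → Fin k → ℝ) (i : Fin k) : ℝ := (∑' y, h y i) / 3

/-- The gain from spreading. -/
noncomputable def gain (M : Lik η) {k : ℕ} (μ : Fin k → ℝ) (h : η → Fin k → ℝ) : ℝ :=
  (∑ i, wt' h i * μ i ^ 4) - mo mQ M

variable {k : ℕ} {μ : Fin k → ℝ} {h : η → Fin k → ℝ}

lemma Spread.summable (hS : Spread M μ h) (hM : Ok M) (i : Fin k) : Summable fun y => h y i :=
  Summable.of_nonneg_of_le (fun y => hS.nonneg y i)
    (fun y => by
      rw [← hS.mass y]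
      exact Finset.single_le_sum (fun j _ => hS.nonneg y j) (Finset.mem_univ i))
    hM.hasSum_mass.summable

lemma Spread.row_le {κ κ' : ℝ} (hS : Spread M μ h) (hM : Ok M) (hc : CC κ κ') (k0 : 0 ≤ κ)
    (k1 : κ ≤ 12 / 25) {v : Fin 3 → ℝ} (hv : ∀ i, 0 ≤ v i) (y : η) :
    rot6 κ (v 0) (v 1) (v 2) (M y 0) (M y 1) (M y 2)
        + rot6 κ (v 0) (v 1) (v 2) (M y 0) (M y 2) (M y 1)
      ≤ 2 * ((∑ i, h y i * row (fun p q r => childT κ p q r (μ i)) v)
          - κ' * (row mO v * ((∑ i, h y i * μ i ^ 4) - row mQ (M y)))) := by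
  have hR0 : 0 ≤ tot (M y 0) (M y 1) (M y 2) :=
    tot_nonneg (hM.nonneg y 0) (hM.nonneg y 1) (hM.nonneg y 2)
  rcases eq_or_lt_of_le hR0 with hR | hR
  · have z : M y 0 = 0 ∧ M y 1 = 0 ∧ M y 2 = 0 := by
      have := hM.nonneg y 0; have := hM.nonneg y 1; have := hM.nonneg y 2
      simp [tot] at hR; exact ⟨by linarith, by linarith, by linarith⟩
    have hh : ∀ i, h y i = 0 := by
      intro i
      have hm := hS.mass y
      simp only [row, mS, ← hR] at hm
      exact (Finset.sum_eq_zero_iff_of_nonneg fun j _ => hS.nonneg y j).mp hm i (Finset.mem_univ i)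
    obtain ⟨z0, z1, z2⟩ := z
    simp [rot6, z0, z1, z2, hh, row, mPhi, mA, mQ, tot, quad, dif]
  set R := tot (M y 0) (M y 1) (M y 2) with hRdef
  set q := quad rc (M y 0) (M y 1) (M y 2) with hqdef
  have hq0 : 0 ≤ q := quad_nonneg
  set s := q / R ^ 2 with hs
  have hs0 : 0 ≤ s := by positivity
  have hs1 : s ≤ 1 / 4 := by
    rw [hs, div_le_iff₀ (by positivity)]; linarith [hS.small y]
  have hm1 : Real.sqrt s ≤ 1 / 2 := by
    rw [Real.sqrt_le_iff]; exact ⟨by norm_num, by linarith⟩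
  have hB : q = Real.sqrt s * Real.sqrt s * R ^ 2 := by
    rw [Real.mul_self_sqrt hs0, hs]; field_simp
  have hex := extremal k0 k1 (hv 0) (hv 1) (hv 2) (hM.nonneg y 0) (hM.nonneg y 1) (hM.nonneg y 2)
    (Real.sqrt_nonneg s) hm1 hB
  have hmass := hS.mass y
  have hlen := hS.length y
  simp only [row, mS, mA, ← hRdef, ← hqdef] at hmass hlen
  have hw1 : ∑ i, h y i / R = 1 := by
    simp only [div_eq_mul_inv, ← Finset.sum_mul]
    rw [hmass, mul_inv_cancel₀ hR.ne']
  have hsum : ∑ i, (h y i / R) • μ i ^ 2 = s := by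
    simp only [smul_eq_mul, div_mul_eq_mul_div]
    simp only [div_eq_mul_inv, ← Finset.sum_mul]
    rw [hlen, hs]
    field_simp
  have hjen := (hc (v 0) (v 1) (v 2) (hv 0) (hv 1) (hv 2)).map_sum_le
    (t := Finset.univ) (w := fun i => h y i / R) (p := fun i => μ i ^ 2)
    (fun i _ => div_nonneg (hS.nonneg y i) hR.le) hw1
    (fun i _ => by
      obtain ⟨a, b⟩ := hS.range i
      exact ⟨sq_nonneg _, by nlinarith⟩)
  rw [hsum] at hjen
  have hjen2 := mul_le_mul_of_nonneg_left hjen hR.le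
  simp only [smul_eq_mul, Finset.mul_sum] at hjen2
  have e : ∀ i, R * (h y i / R * (childT κ (v 0) (v 1) (v 2) (Real.sqrt (μ i ^ 2))
      - κ' * mO (v 0) (v 1) (v 2) * (μ i ^ 2) ^ 2))
      = h y i * childT κ (v 0) (v 1) (v 2) (μ i)
        - κ' * mO (v 0) (v 1) (v 2) * (h y i * μ i ^ 4) := fun i => by
    rw [Real.sqrt_sq (hS.range i).1]; field_simp
  simp only [e, Finset.sum_sub_distrib, ← Finset.mul_sum] at hjen2
  have hQ : row mQ (M y) = R * s ^ 2 := by
    simp only [row, mQ, ← hRdef, ← hqdef, hs]; field_simp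
  rw [hQ]
  simp only [row, childT] at *
  nlinarith [hex, hjen2]

/-- The replacement inequality. -/
theorem replace {κ κ' : ℝ} (hL : Ok L) (hM : Ok M) (hsw : Sw M) (hS : Spread M μ h)
    (hc : CC κ κ') (k0 : 0 ≤ κ) (k1 : κ ≤ 12 / 25) :
    mo (mPhi κ) (pair L M)
      ≤ (∑ i, wt' h i * mo (mPhi κ) (pair L (node (μ i)))) - κ' * (gain M μ h * mo mO L) := by
  obtain ⟨e, he⟩ := hsw
  have hl := pair_rots hL hM (dom_mPhi κ)
  have hl2 := (Equiv.hasSum_iff (Equiv.prodCongr (Equiv.refl ι) e)).mpr hl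
  have prod : ∀ (g : ℝ → ℝ → ℝ → ℝ) (C : ℝ), Dom g C → ∀ f : η → ℝ, Summable f →
      HasSum (fun z : ι × η => f z.2 * row g (L z.1)) ((∑' y, f y) * (3 * mo g L)) := by
    intro g C hg f hf
    have sL : Summable fun x => ‖row g (L x)‖ := (hL.summable_mom hg).abs
    have := (hL.summable_mom hg).hasSum.mul hf.hasSum (summable_mul_of_summable_norm sL hf.abs)
    have e2 : (∑' y, f y) * (3 * mo g L) = (∑' x, row g (L x)) * ∑' y, f y := by rw [mo]; ring
    rw [e2]
    simpa only [mul_comm (f _)] using this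
  have dO : Dom mO (1 + 2 + 1) := fun p q r hp hq hr => by
    have h1 := dom_mA p q r hp hq hr
    have h2 := dom_mQ p q r hp hq hr
    have h3 := dom_mS p q r hp hq hr
    rw [mO]
    refine le_trans (abs_add_le _ _) ?_
    refine le_trans (add_le_add (abs_sub _ _) le_rfl) ?_
    rw [abs_mul, abs_two]; linarith
  have hsum : ∀ i, Summable fun y => h y i := hS.summable hM
  have r1 : HasSum (fun z : ι × η => ∑ i, h z.2 i * row (fun p q r => childT κ p q r (μ i)) (L z.1))
      (∑ i, (3 * wt' h i) * (3 * mo (mPhi κ) (pair L (node (μ i))))) := by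
    refine hasSum_sum fun i _ => ?_
    obtain ⟨a, b⟩ := hS.range i
    rw [mo_pair_node hL κ a b, wt', mul_div_cancel₀ _ (three_ne_zero)]
    exact prod _ _ (dom_childT a b) _ (hsum i)
  have hf4 : HasSum (fun y => (∑ i, h y i * μ i ^ 4) - row mQ (M y))
      (3 * gain M μ h) := by
    have h1 : HasSum (fun y => ∑ i, h y i * μ i ^ 4) (∑ i, (∑' y, h y i) * μ i ^ 4) :=
      hasSum_sum fun i _ => (hsum i).hasSum.mul_right _
    refine hasSum_val (h1.sub (hM.summable_mom dom_mQ).hasSum) ?_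
    rw [gain, mo, mul_sub, Finset.mul_sum, mul_div_cancel₀ _ three_ne_zero]
    congr 1
    exact Finset.sum_congr rfl fun i _ => by rw [wt']; ring
  have r2 := prod mO _ dO _ hf4.summable
  rw [hf4.tsum_eq] at r2
  have key := hasSum_le (fun z : ι × η => ?_) (hl.add hl2)
    ((r1.sub (r2.mul_left κ')).mul_left 2)
  · have e3 : (∑ i, (3 * wt' h i) * (3 * mo (mPhi κ) (pair L (node (μ i)))))
        = 9 * ∑ i, wt' h i * mo (mPhi κ) (pair L (node (μ i))) := by
      rw [Finset.mul_sum]; exact Finset.sum_congr rfl fun i _ => by ring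
    rw [e3] at key
    linarith
  · have hrow := hS.row_le hM hc k0 k1 (v := L z.1) (hL.nonneg z.1) z.2
    simp only [Function.comp_apply, Equiv.prodCongr_apply, Prod.map_fst, Prod.map_snd,
      Equiv.refl_apply, rots_eq_rot6, (he z.2).1, (he z.2).2.1, (he z.2).2.2]
    linarith

end Window

end Vale.Agent.P154
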