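import Vale.Agent.P154.Window.Forms
import Vale.Agent.P154.Moments
import Mathlib.Tactic.FieldSimp

/-!
The three-rotation sums of the two moment functions, as rational functions of the invariants.
-/

namespace Vale.Agent.P154

namespace Window

section generic

variable {α : Type} [Add α] [Mul α] (k : ℤ → α)

/-- Twice the common denominator. -/
def den2 (a b v : α) : α := dif k (k 2 + v) (k 6 * a * b)

/-- The identity for the product of the three masses. -/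
def idD (x1 x2 x3 y1 y2 y3 : α) : α :=
  dif k (k 54 * (tot (x1 * y1) (x2 * y2) (x3 * y3) * tot (x1 * y2) (x2 * y3) (x3 * y1)
      * tot (x1 * y3) (x2 * y1) (x3 * y2)))
    (den2 k (quad k x1 x2 x3) (quad k y1 y2 y3) (mixI k x1 x2 x3 y1 y2 y3))

/-- The identity for the squared length. -/
def idA (x1 x2 x3 y1 y2 y3 : α) : α :=
  let t0 := tot (x1 * y1) (x2 * y2) (x3 * y3)
  let t1 := tot (x1 * y2) (x2 * y3) (x3 * y1)
  let t2 := tot (x1 * y3) (x2 * y1) (x3 * y2)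
  let q0 := quad k (x1 * y1) (x2 * y2) (x3 * y3)
  let q1 := quad k (x1 * y2) (x2 * y3) (x3 * y1)
  let q2 := quad k (x1 * y3) (x2 * y1) (x3 * y2)
  dif k (k 108 * (q0 * (t1 * t2) + q1 * (t0 * t2) + q2 * (t0 * t1)))
    (evT k (invs k x1 x2 x3 y1 y2 y3) formA)

/-- The identity for the fourth power of the length. -/
def idQ (x1 x2 x3 y1 y2 y3 : α) : α :=
  let t0 := tot (x1 * y1) (x2 * y2) (x3 * y3)
  let t1 := tot (x1 * y2) (x2 * y3) (x3 * y1)
  let t2 := tot (x1 * y3) (x2 * y1) (x3 * y2)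
  let q0 := quad k (x1 * y1) (x2 * y2) (x3 * y3)
  let q1 := quad k (x1 * y2) (x2 * y3) (x3 * y1)
  let q2 := quad k (x1 * y3) (x2 * y1) (x3 * y2)
  dif k (k 629856 * (q0 * q0 * pw k (t1 * t2) 3 + q1 * q1 * pw k (t0 * t2) 3
      + q2 * q2 * pw k (t0 * t1) 3))
    (evT k (invs k x1 x2 x3 y1 y2 y3) formQ)

end generic

lemma val_pw (ρ : ℕ → ℝ) (e : Ex) : ∀ n, Ex.val ρ (pw Ex.c e n) = pw rc (Ex.val ρ e) n
  | 0 => rfl
  | n + 1 => by
    change Ex.val ρ (pw Ex.c e n) * Ex.val ρ e = _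
    rw [val_pw ρ e n]; rfl

lemma val_mon (ρ : ℕ → ℝ) : ∀ (vs : List Ex) (es : List ℕ),
    Ex.val ρ (mon Ex.c vs es) = mon rc (vs.map (Ex.val ρ)) es
  | [], _ => rfl
  | _ :: _, [] => rfl
  | z :: zs, e :: es => by
    change Ex.val ρ (pw Ex.c z e) * Ex.val ρ (mon Ex.c zs es) = _
    rw [val_pw, val_mon ρ zs es]; rfl

lemma val_evT (ρ : ℕ → ℝ) (vs : List Ex) : ∀ ts : Terms,
    Ex.val ρ (evT Ex.c vs ts) = evT rc (vs.map (Ex.val ρ)) ts
  | [] => rfl
  | t :: ts => by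
    change (t.1 : ℝ) * Ex.val ρ (mon Ex.c vs t.2) + Ex.val ρ (evT Ex.c vs ts) = _
    rw [val_mon, val_evT ρ vs ts]; rfl

/-- The third coordinate of a normalised vector, as an expression. -/
def e3 (a b : ℕ) : Ex := Ex.c 1 + Ex.c (-1) * (Ex.x a + Ex.x b)

theorem cert_idD : Ex.goodR (fun z => decide (z = 0)) 20 4 4 4 4
    (idD Ex.c (Ex.x 0) (Ex.x 1) (e3 0 1) (Ex.x 2) (Ex.x 3) (e3 2 3)) = true := by
  decide +kernel

theorem cert_idA : Ex.goodR (fun z => decide (z = 0)) 24 5 5 5 5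
    (idA Ex.c (Ex.x 0) (Ex.x 1) (e3 0 1) (Ex.x 2) (Ex.x 3) (e3 2 3)) = true := by
  decide +kernel

theorem cert_idQ : Ex.goodR (fun z => decide (z = 0)) 58 11 11 11 11
    (idQ Ex.c (Ex.x 0) (Ex.x 1) (e3 0 1) (Ex.x 2) (Ex.x 3) (e3 2 3)) = true := by
  decide +kernel

end Window

end Vale.Agent.P154
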