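import Mathlib.Analysis.SpecialFunctions.Complex.LogBounds
import Mathlib.Analysis.SpecialFunctions.Exp
import Mathlib.Data.Nat.Choose.Basic
import Mathlib.Tactic.Linarith
import Mathlib.Tactic.FieldSimp

/-!
Two-coloured binomial expectations of functions with nonnegative second differences are below
their Poisson limits.
-/

namespace Vale.Agent.P154

namespace Window

open Finset Filter Topology

/-- One more trial: nothing, or one count of either colour. -/
def bstep (p q : ℝ) (g : ℕ → ℕ → ℝ) : ℕ → ℕ → ℝ :=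
  fun k j => (1 - p - q) * g k j + p * g (k + 1) j + q * g k (j + 1)

/-- `n` trials. -/
def bin (p q : ℝ) : ℕ → (ℕ → ℕ → ℝ) → ℕ → ℕ → ℝ
  | 0, g => g
  | n + 1, g => bstep p q (bin p q n g)

/-- Nonnegative second differences. -/
def DConv (g : ℕ → ℕ → ℝ) : Prop :=
  ∀ k j, 2 * g (k + 1) j ≤ g (k + 2) j + g k j
    ∧ g (k + 1) j + g k (j + 1) ≤ g (k + 1) (j + 1) + g k j
    ∧ 2 * g k (j + 1) ≤ g k (j + 2) + g k j

lemma bin_comm (p q : ℝ) : ∀ n g, bin p q n (bstep p q g) = bin p q (n + 1) g
  | 0, _ => rfl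
  | n + 1, g => by
    change bstep p q (bin p q n (bstep p q g)) = _
    rw [bin_comm p q n g]; rfl

section

variable {p q : ℝ} (hp : 0 ≤ p) (hq : 0 ≤ q) (hs : p + q ≤ 1)
include hp hq hs

lemma bstep_mono {f g : ℕ → ℕ → ℝ} (h : ∀ k j, f k j ≤ g k j) (k j : ℕ) :
    bstep p q f k j ≤ bstep p q g k j := by
  have := mul_le_mul_of_nonneg_left (h k j) (show 0 ≤ 1 - p - q by linarith)
  have := mul_le_mul_of_nonneg_left (h (k + 1) j) hp
  have := mul_le_mul_of_nonneg_left (h k (j + 1)) hq
  simp only [bstep]; linarith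

lemma bin_mono {f g : ℕ → ℕ → ℝ} (h : ∀ k j, f k j ≤ g k j) :
    ∀ n k j, bin p q n f k j ≤ bin p q n g k j
  | 0 => h
  | n + 1 => bstep_mono hp hq hs (bin_mono h n)

lemma bstep_conv {g : ℕ → ℕ → ℝ} (h : DConv g) : DConv (bstep p q g) := by
  intro k j
  have hr : 0 ≤ 1 - p - q := by linarith
  obtain ⟨a0, b0, c0⟩ := h k j
  obtain ⟨a1, b1, c1⟩ := h (k + 1) j
  obtain ⟨a2, b2, c2⟩ := h k (j + 1)
  refine ⟨?_, ?_, ?_⟩
  · have := mul_le_mul_of_nonneg_left a0 hr
    have := mul_le_mul_of_nonneg_left a1 hp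
    have := mul_le_mul_of_nonneg_left a2 hq
    simp only [bstep]; linarith
  · have := mul_le_mul_of_nonneg_left b0 hr
    have := mul_le_mul_of_nonneg_left b1 hp
    have := mul_le_mul_of_nonneg_left b2 hq
    simp only [bstep]; linarith
  · have := mul_le_mul_of_nonneg_left c0 hr
    have := mul_le_mul_of_nonneg_left c1 hp
    have := mul_le_mul_of_nonneg_left c2 hq
    simp only [bstep]; linarith

lemma bin_conv {g : ℕ → ℕ → ℝ} (h : DConv g) : ∀ n, DConv (bin p q n g)
  | 0 => h
  | n + 1 => bstep_conv hp hq hs (bin_conv h n)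

lemma bstep_le_two {g : ℕ → ℕ → ℝ} (h : DConv g) (k j : ℕ) :
    bstep p q g k j ≤ bstep (p / 2) (q / 2) (bstep (p / 2) (q / 2) g) k j := by
  obtain ⟨a, b, c⟩ := h k j
  have := mul_le_mul_of_nonneg_left a (mul_nonneg hp hp)
  have := mul_le_mul_of_nonneg_left b (mul_nonneg hp hq)
  have := mul_le_mul_of_nonneg_left c (mul_nonneg hq hq)
  simp only [bstep]; linarith

lemma bin_le_double {g : ℕ → ℕ → ℝ} (h : DConv g) :
    ∀ n k j, bin p q n g k j ≤ bin (p / 2) (q / 2) (2 * n) g k j
  | 0, _, _ => le_rfl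
  | n + 1, k, j => by
    refine le_trans (bstep_mono hp hq hs (bin_le_double h n) k j) ?_
    refine le_trans (bstep_le_two hp hq hs (bin_conv (by linarith) (by linarith)
      (by linarith) h (2 * n)) k j) (le_of_eq ?_)
    rfl

end

lemma bin_le_pow {p q : ℝ} (hp : 0 ≤ p) (hq : 0 ≤ q) (hs : p + q ≤ 1) {g : ℕ → ℕ → ℝ}
    (h : DConv g) (n k j : ℕ) : ∀ m : ℕ,
    bin p q n g k j ≤ bin (p / 2 ^ m) (q / 2 ^ m) (2 ^ m * n) g k j
  | 0 => by simp
  | m + 1 => by
    refine le_trans (bin_le_pow hp hq hs h n k j m) ?_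
    have e : ∀ x : ℝ, x / 2 ^ m / 2 = x / 2 ^ (m + 1) := fun x => by rw [pow_succ, div_div]
    have h2 : (1 : ℝ) ≤ 2 ^ m := one_le_pow₀ (by norm_num)
    have := bin_le_double (p := p / 2 ^ m) (q := q / 2 ^ m) (by positivity) (by positivity)
      (by rw [← add_div, div_le_one (by positivity)]; linarith) h (2 ^ m * n) k j
    rwa [e, e, show 2 * (2 ^ m * n) = 2 ^ (m + 1) * n by ring] at this

/-- The weight of the counts `(a, c)` after `n` trials. -/
noncomputable def bw (p q : ℝ) (n a c : ℕ) : ℝ :=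
  ((n.choose a * (n - a).choose c : ℕ) : ℝ) * (p ^ a * q ^ c * (1 - p - q) ^ (n - a - c))

lemma bw_zero {p q : ℝ} {n a c : ℕ} (h : n < a + c) : bw p q n a c = 0 := by
  rcases lt_or_ge n a with h' | h'
  · simp [bw, Nat.choose_eq_zero_of_lt h']
  · simp [bw, Nat.choose_eq_zero_of_lt (show n - a < c by omega)]

lemma bw_rec (p q : ℝ) (n a c : ℕ) :
    bw p q (n + 1) a c = (1 - p - q) * bw p q n a c
      + (if 1 ≤ a then p * bw p q n (a - 1) c else 0)
      + (if 1 ≤ c then q * bw p q n a (c - 1) else 0) := by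
  rcases lt_or_ge (n + 1) (a + c) with h | h
  · rw [bw_zero h, bw_zero (show n < a + c by omega), mul_zero]
    split_ifs <;> simp only [add_zero, zero_add]
    · rw [bw_zero (show n < a - 1 + c by omega), bw_zero (show n < a + (c - 1) by omega)]; ring
    · rw [bw_zero (show n < a - 1 + c by omega)]; ring
    · rw [bw_zero (show n < a + (c - 1) by omega)]; ring
  obtain ⟨f, hf⟩ : ∃ f, n + 1 = a + c + f := ⟨n + 1 - a - c, by omega⟩
  have hpow : ∀ F : ℕ, f = F + 1 → (1 - p - q) ^ f = (1 - p - q) * (1 - p - q) ^ F := by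
    rintro F rfl; rw [pow_succ']
  have r0 : (1 - p - q) * bw p q n a c
      = ((n.choose a * (n - a).choose c : ℕ) : ℝ) * (p ^ a * q ^ c * (1 - p - q) ^ f) := by
    rcases Nat.eq_zero_or_pos f with rfl | hf'
    · rw [bw_zero (show n < a + c by omega), mul_zero]
      have : n.choose a * (n - a).choose c = 0 := by
        rcases lt_or_ge n a with h' | h'
        · simp [Nat.choose_eq_zero_of_lt h']
        · simp [Nat.choose_eq_zero_of_lt (show n - a < c by omega)]
      simp [this]
    · rw [hpow (f - 1) (by omega), bw, show n - a - c = f - 1 by omega]; ring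
  rw [r0, bw, show n + 1 - a - c = f by omega]
  rcases a with _ | a
  · rcases c with _ | c
    · simp
    · simp only [bw, Nat.choose_zero_right, one_mul, Nat.sub_zero, pow_zero,
        Nat.not_succ_le_zero, ↓reduceIte, Nat.le_add_left, Nat.add_sub_cancel, add_zero,
        show n - c = f by omega, Nat.choose_succ_succ, pow_succ]
      push_cast; ring
  · rw [if_pos (Nat.le_add_left 1 a), Nat.add_sub_cancel, Nat.choose_succ_succ,
      show n + 1 - (a + 1) = n - a by omega]
    rcases c with _ | c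
    · simp only [bw, Nat.choose_zero_right, mul_one, Nat.not_succ_le_zero, ↓reduceIte,
        Nat.sub_zero, pow_zero, add_zero, show n - a = f by omega, pow_succ]
      push_cast; ring
    · rw [if_pos (Nat.le_add_left 1 c), Nat.add_sub_cancel]
      simp only [bw, show n - a - (c + 1) = f by omega, show n - (a + 1) - c = f by omega,
        pow_succ]
      rcases lt_or_ge a n with h' | h'
      · rw [show n - a = (n - (a + 1)) + 1 by omega, Nat.choose_succ_succ]
        push_cast; ring
      · omega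

lemma bin_sum (p q : ℝ) : ∀ (n : ℕ) (g : ℕ → ℕ → ℝ) (N : ℕ), n < N →
    bin p q n g 0 0 = ∑ a ∈ range N, ∑ c ∈ range N, bw p q n a c * g a c
  | 0, g, N, h => by
    rw [sum_eq_single_of_mem 0 (mem_range.mpr h), sum_eq_single_of_mem 0 (mem_range.mpr h)]
    · simp [bin, bw]
    · intro c _ hc; rw [bw_zero (by omega), zero_mul]
    · intro a _ ha
      exact sum_eq_zero fun c _ => by rw [bw_zero (by omega), zero_mul]
  | n + 1, g, N, h => by
    obtain ⟨N, rfl⟩ : ∃ M, N = M + 1 := ⟨N - 1, by omega⟩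
    rw [← bin_comm, bin_sum p q n _ (N + 1) (by omega)]
    simp only [bstep, mul_add, sum_add_distrib, bw_rec, add_mul, ite_mul, zero_mul]
    refine congr_arg₂ _ (congr_arg₂ _ ?_ ?_) ?_
    · exact sum_congr rfl fun a _ => sum_congr rfl fun c _ => by ring
    · rw [sum_range_succ, sum_range_succ' (fun a => ∑ c ∈ range (N + 1), if 1 ≤ a then _ else _)]
      simp only [Nat.le_add_left, ↓reduceIte, Nat.add_sub_cancel, show ¬ (1 ≤ 0) by omega,
        sum_const_zero, add_zero]
      rw [sum_eq_zero (s := range (N + 1)) (fun c _ => by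
        rw [bw_zero (show n < N + c by omega), zero_mul]), add_zero]
      exact sum_congr rfl fun a _ => sum_congr rfl fun c _ => by ring
    · refine sum_congr rfl fun a _ => ?_
      rw [sum_range_succ, sum_range_succ' (fun c => if 1 ≤ c then _ else _)]
      simp only [Nat.le_add_left, ↓reduceIte, Nat.add_sub_cancel, show ¬ (1 ≤ 0) by omega, add_zero]
      rw [bw_zero (show n < a + N by omega), zero_mul, add_zero]
      exact sum_congr rfl fun c _ => by ring

lemma bin_add (p q : ℝ) (f g : ℕ → ℕ → ℝ) :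
    ∀ n k j, bin p q n (fun a c => f a c + g a c) k j = bin p q n f k j + bin p q n g k j
  | 0, _, _ => rfl
  | n + 1, k, j => by simp only [bin, bstep, bin_add p q f g n]; ring

/-- A quadratic function of the counts. -/
noncomputable def qpol (A B C D E G : ℝ) (k j : ℕ) : ℝ :=
  A * ((k : ℝ) * ((k : ℝ) - 1) / 2) + B * ((k : ℝ) * j) + C * ((j : ℝ) * ((j : ℝ) - 1) / 2)
    + D * k + E * j + G

lemma bin_qpol (p q A B C D E G : ℝ) : ∀ (n k j : ℕ),
    bin p q n (qpol A B C D E G) k j = qpol A B C D E G k j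
      + (n : ℝ) * (p * (A * k + B * j + D) + q * (B * k + C * j + E))
      + (n : ℝ) * ((n : ℝ) - 1) / 2 * (A * p ^ 2 + 2 * B * (p * q) + C * q ^ 2)
  | 0, k, j => by simp [bin]
  | n + 1, k, j => by
    simp only [bin, bstep, bin_qpol p q A B C D E G n, qpol]
    push_cast; ring

lemma choose_div_tendsto (a : ℕ) : ∀ c : ℕ,
    Tendsto (fun N : ℕ => (((N - a).choose c : ℕ) : ℝ) / (N : ℝ) ^ c) atTop
      (𝓝 (1 / (c.factorial : ℝ)))
  | 0 => by simp
  | c + 1 => by
    have h1 : Tendsto (fun N : ℕ => 1 - ((a + c : ℕ) : ℝ) / N) atTop (𝓝 1) := by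
      simpa using (tendsto_const_div_atTop_nhds_zero_nat ((a + c : ℕ) : ℝ)).const_sub 1
    have h2 := ((choose_div_tendsto a c).mul h1).div_const ((c + 1 : ℕ) : ℝ)
    have e : (1 : ℝ) / c.factorial * 1 / ((c + 1 : ℕ) : ℝ) = 1 / ((c + 1).factorial : ℝ) := by
      rw [Nat.factorial_succ]; push_cast; field_simp
    rw [e] at h2
    refine h2.congr' ?_
    filter_upwards [eventually_ge_atTop (a + c + 1)] with N hN
    have h := Nat.choose_succ_right_eq (N - a) c
    have hR : (((N - a).choose (c + 1) : ℕ) : ℝ) * ((c : ℝ) + 1)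
        = (((N - a).choose c : ℕ) : ℝ) * ((N : ℝ) - a - c) := by
      have := congrArg (fun t : ℕ => (t : ℝ)) h
      push_cast [Nat.cast_sub (show c ≤ N - a by omega), Nat.cast_sub (show a ≤ N by omega)] at this
      exact this
    have hN0 : (N : ℝ) ≠ 0 := by exact_mod_cast (show N ≠ 0 by omega)
    have hc : (c : ℝ) + 1 ≠ 0 := by positivity
    push_cast
    rw [pow_succ]
    field_simp
    linear_combination -hR

lemma one_sub_pow_tendsto (T : ℝ) (s : ℕ) :
    Tendsto (fun N : ℕ => (1 - T / (N : ℝ)) ^ (N - s)) atTop (𝓝 (Real.exp (-T))) := by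
  have h1 : Tendsto (fun N : ℕ => (1 - T / (N : ℝ)) ^ N) atTop (𝓝 (Real.exp (-T))) := by
    refine (Real.tendsto_one_add_div_pow_exp (-T)).congr fun N => ?_
    rw [neg_div, ← sub_eq_add_neg]
  have h0 : Tendsto (fun N : ℕ => 1 - T / (N : ℝ)) atTop (𝓝 1) := by
    simpa using (tendsto_const_div_atTop_nhds_zero_nat T).const_sub 1
  have h2 := h1.div (h0.pow s) (by simp)
  rw [one_pow, div_one] at h2
  refine h2.congr' ?_
  filter_upwards [eventually_ge_atTop s, h0.eventually_ne one_ne_zero] with N hN hne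
  simp only [Pi.div_apply]
  rw [div_eq_iff (pow_ne_zero _ hne), ← pow_add, Nat.sub_add_cancel hN]

lemma bw_tendsto (M b : ℝ) (a c : ℕ) :
    Tendsto (fun N : ℕ => bw (M / N) (b / N) N a c) atTop
      (𝓝 (Real.exp (-(M + b)) * (M ^ a / a.factorial * (b ^ c / c.factorial)))) := by
  have h := (((choose_div_tendsto 0 a).mul_const (M ^ a)).mul
    ((choose_div_tendsto a c).mul_const (b ^ c))).mul (one_sub_pow_tendsto (M + b) (a + c))
  have e : 1 / (a.factorial : ℝ) * M ^ a * (1 / (c.factorial : ℝ) * b ^ c) * Real.exp (-(M + b))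
      = Real.exp (-(M + b)) * (M ^ a / a.factorial * (b ^ c / c.factorial)) := by ring
  rw [e] at h
  refine h.congr' (Eventually.of_forall fun N => ?_)
  simp only [bw, Nat.sub_zero, Nat.sub_sub, div_pow]
  rw [show (1 : ℝ) - M / N - b / N = 1 - (M + b) / N by ring]
  push_cast
  ring

/-- The binomial expectation of a function with nonnegative second differences which is a
quadratic plus a function supported in a box is at most its Poisson limit. -/
theorem bin_le_poisson {M b A B C D E G : ℝ} {n L : ℕ} (hn : 0 < n) (hM : 0 ≤ M) (hb : 0 ≤ b)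
    (hs : M + b ≤ n) {h : ℕ → ℕ → ℝ} (hh : ∀ a c, L ≤ a ∨ L ≤ c → h a c = 0)
    (hconv : DConv fun a c => qpol A B C D E G a c + h a c) :
    bin (M / n) (b / n) n (fun a c => qpol A B C D E G a c + h a c) 0 0
      ≤ (G + D * M + E * b + (A * M ^ 2 + 2 * B * (M * b) + C * b ^ 2) / 2)
        + Real.exp (-(M + b))
          * ∑ a ∈ range L, ∑ c ∈ range L, M ^ a / a.factorial * (b ^ c / c.factorial) * h a c := by
  have hn' : (0 : ℝ) < n := by exact_mod_cast hn
  have hle := bin_le_pow (p := M / n) (q := b / n) (by positivity) (by positivity)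
    (by rw [← add_div, div_le_one hn']; exact hs) hconv n 0 0
  have hN : Tendsto (fun m : ℕ => 2 ^ m * n) atTop atTop :=
    tendsto_atTop_mono (fun m => Nat.le_mul_of_pos_right _ hn)
      (tendsto_pow_atTop_atTop_of_one_lt one_lt_two)
  have e : ∀ m : ℕ, ∀ x : ℝ, x / n / 2 ^ m = x / ((2 ^ m * n : ℕ) : ℝ) := fun m x => by
    push_cast; rw [div_div, mul_comm]
  simp only [e] at hle
  suffices H : Tendsto (fun N : ℕ => bin (M / N) (b / N) N
      (fun a c => qpol A B C D E G a c + h a c) 0 0) atTop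
      (𝓝 ((G + D * M + E * b + (A * M ^ 2 + 2 * B * (M * b) + C * b ^ 2) / 2)
        + Real.exp (-(M + b))
          * ∑ a ∈ range L, ∑ c ∈ range L, M ^ a / a.factorial * (b ^ c / c.factorial) * h a c)) from
    ge_of_tendsto (H.comp hN) (Eventually.of_forall hle)
  simp only [bin_add]
  refine Tendsto.add ?_ ?_
  · have h1 : Tendsto (fun N : ℕ => G + D * M + E * b
        + (1 - 1 / (N : ℝ)) * ((A * M ^ 2 + 2 * B * (M * b) + C * b ^ 2) / 2)) atTop
        (𝓝 (G + D * M + E * b + (A * M ^ 2 + 2 * B * (M * b) + C * b ^ 2) / 2)) := by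
      simpa using (((tendsto_const_div_atTop_nhds_zero_nat (1 : ℝ)).const_sub 1).mul_const
        ((A * M ^ 2 + 2 * B * (M * b) + C * b ^ 2) / 2)).const_add (G + D * M + E * b)
    refine h1.congr' ?_
    filter_upwards [eventually_gt_atTop 0] with N hN
    have : (N : ℝ) ≠ 0 := by exact_mod_cast hN.ne'
    rw [bin_qpol]; simp only [qpol, Nat.cast_zero]; field_simp; ring
  · have h2 : ∀ N : ℕ, L ≤ N → bin (M / N) (b / N) N h 0 0
        = ∑ a ∈ range L, ∑ c ∈ range L, bw (M / N) (b / N) N a c * h a c := fun N hN => by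
      rw [bin_sum _ _ N h (N + 1) (Nat.lt_succ_self N)]
      have hsub : range L ⊆ range (N + 1) := range_subset_range.mpr (by omega)
      rw [← sum_subset hsub fun a _ ha => sum_eq_zero fun c _ => by
        rw [hh a c (Or.inl (by simpa using ha)), mul_zero]]
      exact sum_congr rfl fun a _ => (sum_subset hsub fun c _ hc => by
        rw [hh a c (Or.inr (by simpa using hc)), mul_zero]).symm
    have h3 : Tendsto (fun N : ℕ => ∑ a ∈ range L, ∑ c ∈ range L,
        bw (M / N) (b / N) N a c * h a c) atTop (𝓝 (∑ a ∈ range L, ∑ c ∈ range L,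
          Real.exp (-(M + b)) * (M ^ a / a.factorial * (b ^ c / c.factorial)) * h a c)) :=
      tendsto_finsetSum _ fun a _ => tendsto_finsetSum _ fun c _ =>
        (bw_tendsto M b a c).mul_const _
    simp only [mul_sum, ← mul_assoc] at h3 ⊢
    refine h3.congr' ?_
    filter_upwards [eventually_ge_atTop L] with N hN
    exact (h2 N hN).symm

end Window

end Vale.Agent.P154
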