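import Vale.Agent.P154.Window.ScalarTable
import Vale.Agent.P154.Window.ScalarFrac

/-!
The polynomial attached to one cell of the scalar contraction inequality, and its test.
-/

namespace Vale.Agent.P154

namespace Window

/-- The data of one cell `[a / den, b / den]` of the first moment. -/
structure Cell where
  /-- the nodes, the weight and the denominator of the table -/
  t : TPar
  /-- upper bounds for the potential, scaled -/
  tab : List (List ℕ)
  /-- the largest total count of the table -/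
  N : ℕ
  /-- the degree of the exponential polynomial -/
  n : ℕ
  /-- left end, numerator -/
  a : ℕ
  /-- right end, numerator -/
  b : ℕ
  /-- the denominator of the ends -/
  den : ℕ
  /-- the least mean degree -/
  d0 : ℕ
  /-- whether the information factor is used -/
  gam : Bool
  /-- the scaled kink weight -/
  J : ℕ
  /-- scaled second differences, first node -/
  D11 : ℕ
  /-- scaled second differences, mixed -/
  D12 : ℕ
  /-- scaled second differences, second node -/
  D22 : ℕ
  /-- the denominator of the least mean degree -/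
  dd : ℕ := 1

namespace Cell

variable (C : Cell)

/-- One plus the weight, scaled. -/
def topE : ℕ := C.t.E * (C.t.cd + C.t.cn) / C.t.cd

/-- A deficiency `top - T`. -/
def defic (T : ℕ) : RE := .q ((C.topE : ℤ) - (T : ℤ)) C.t.E

end Cell

namespace Cell

variable (C : Cell)

/-- The scaled first moment. -/
def xv : RE := .v 0
/-- Mean count at the first node, per unit moment. -/
def zv : RE := .v 1
/-- Mean count at the second node, per unit moment. -/
def yv : RE := .v 2
/-- The mean total count. -/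
def tv : RE := xv * (zv + yv)
/-- The first squared node. -/
def sgE : RE := .q ((C.t.P0 * C.t.P0 : ℕ) : ℤ) (C.t.Q0 * C.t.Q0)
/-- The second squared node. -/
def s1E : RE := .q ((C.t.P1 * C.t.P1 : ℕ) : ℤ) (C.t.Q1 * C.t.Q1)

/-- The table part. -/
def hX : RE :=
  zv * hor (xv * zv) (C.tab.tail.map fun r => hor (xv * yv) (r.map C.defic) 0) 1
    + yv * hor (xv * yv) ((C.tab.headD []).tail.map C.defic) 1

/-- The last coefficient of the exponential polynomial. -/
def lastC : RE :=
  .q (((C.n + 2) * (C.den * (C.t.P0 * C.t.P0)) : ℕ) : ℤ)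
    ((C.n + 2) * (C.den * (C.t.P0 * C.t.P0)) - C.b * (C.t.Q0 * C.t.Q0))

/-- The exponential polynomial without its constant, per unit moment. -/
def ehX : RE := (zv + yv) * hor tv (List.replicate C.n (.q 1 1) ++ [C.lastC]) 1

/-- The last coefficient of the kink. -/
def kinkC : RE :=
  .q (((C.N + 3) * (C.den * (C.t.P0 * C.t.P0)) : ℕ) ^ 2 : ℕ)
    (((C.N + 3) * (C.den * (C.t.P0 * C.t.P0)) - C.b * (C.t.Q0 * C.t.Q0)) ^ 2)

/-- The kink, per unit moment. -/
def kinkX : RE := (zv + yv) * hor tv (List.replicate (C.N + 1) (.q 0 1) ++ [C.kinkC]) 1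

/-- The slope of the linearisation. -/
def etaH : RE := .q C.dd C.d0 * (.q 1 1 + .q (-2) 1 * ((C.s1E + .q (-1) 1 * C.sgE) * yv))
/-- The point of tangency. -/
def zetaE : RE := .q 2 1 * C.sgE + .q (-1) 1 * (xv * C.etaH)
/-- The linear coefficient of the first node. -/
def phiH : RE := C.zetaE * C.etaH
/-- The lower bound for the fourth moment, per unit moment. -/
def linH : RE :=
  C.zetaE * ((.q 2 1 * C.s1E + .q (-1) 1 * C.zetaE) * yv) + xv * (C.phiH * zv)
    + .q (-(((C.d0 * (C.t.Q0 * C.t.Q0) ^ 2 : ℕ) : ℤ))) (4 * (C.t.P0 * C.t.P0) ^ 2 * C.dd)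
      * (xv * (C.phiH * C.phiH))
/-- The fourth moment of the nodes, per unit moment. -/
def s2H : RE := C.sgE * (C.sgE * zv) + C.s1E * (C.s1E * yv)
/-- The information factor. -/
def gamE : RE :=
  if C.gam then (.q 1 1 + .q (-2) 1 * xv) * (.q 1 1 + .q (-2) 1 * xv) else .q 0 1
/-- The slop of the second differences, per unit moment. -/
def slopH : RE :=
  .q (-(C.dd : ℤ)) (2 * C.d0) * (xv * (.q C.D11 C.t.E * (zv * zv) + .q (2 * C.D12 : ℕ) C.t.E * (zv * yv)
    + .q C.D22 C.t.E * (yv * yv)))
/-- The right side, per unit moment. -/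
def rH : RE :=
  .q 1 1 + .q C.t.cn C.t.cd * (C.gamE * (C.s2H + .q (-1) 1 * C.linH) + .q C.d0 C.dd * C.linH)
    + .q (-1) 100 * xv + C.slopH

/-- The polynomial of the cell. -/
def poly : RE :=
  C.hX + .q (-(C.J : ℤ)) C.t.E * C.kinkX
    + (C.rH * xv + .q (-(C.topE : ℤ)) C.t.E) * C.ehX + C.rH

/-- First denominator. -/
def D1 : Ex := Ex.c 1 + Ex.x 0
/-- Second denominator. -/
def D2 : Ex := Ex.c 1 + Ex.x 1

/-- The substitution of the cell. -/
def env : ℕ → Fr
  | 0 => ⟨Ex.c C.a + Ex.c C.b * Ex.x 0, C.den, 1, 0⟩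
  | 1 => ⟨Ex.c ((C.t.Q0 * C.t.Q0 : ℕ) : ℤ), C.t.P0 * C.t.P0, 0, 1⟩
  | 2 => ⟨Ex.c ((C.t.Q1 * C.t.Q1 : ℕ) : ℤ) * Ex.x 1, C.t.P1 * C.t.P1, 0, 1⟩
  | _ => ⟨Ex.c 0, 1, 0, 0⟩

/-- The test of the polynomial. -/
def chkPoly (bits : ℕ) : Bool := chkRE bits D1 D2 C.env C.poly

end Cell

end Window

end Vale.Agent.P154
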