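import Vale.Agent.P154.Window.ScalarFrac
import Mathlib.Analysis.SpecialFunctions.Exponential
import Mathlib.Analysis.SpecificLimits.Normed
import Mathlib.Analysis.SpecificLimits.Basic

/-!
The exponential function between truncated series, and Horner sums.
-/

namespace Vale.Agent.P154

namespace Window

open Finset

lemma exp_series (T : ℝ) : HasSum (fun i : ℕ => T ^ i / (i.factorial : ℝ)) (Real.exp T) := by
  rw [Real.exp_eq_exp_ℝ]; exact NormedSpace.expSeries_div_hasSum_exp T

lemma exp_series_mean (T : ℝ) :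
    HasSum (fun i : ℕ => (i : ℝ) * (T ^ i / (i.factorial : ℝ))) (T * Real.exp T) := by
  have h : HasSum (fun i : ℕ => ((i + 1 : ℕ) : ℝ) * (T ^ (i + 1) / ((i + 1).factorial : ℝ)))
      (T * Real.exp T) := by
    refine ((exp_series T).mul_left T).congr_fun fun i => ?_
    rw [Nat.factorial_succ, pow_succ]
    push_cast
    have : (i.factorial : ℝ) ≠ 0 := by positivity
    field_simp
  simpa using (hasSum_nat_add_iff (f := fun i : ℕ => (i : ℝ) * (T ^ i / (i.factorial : ℝ))) 1).mp h

lemma term_tail_le {T : ℝ} (hT : 0 ≤ T) (L : ℕ) : ∀ m : ℕ,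
    T ^ (L + m) / ((L + m).factorial : ℝ)
      ≤ T ^ L / (L.factorial : ℝ) * (T / ((L + 1 : ℕ) : ℝ)) ^ m
  | 0 => by simp
  | m + 1 => by
    rw [← add_assoc, pow_succ, Nat.factorial_succ, pow_succ (T / _)]
    push_cast
    rw [mul_comm ((L : ℝ) + m + 1) _, mul_div_mul_comm, ← mul_assoc]
    have h := term_tail_le hT L m
    push_cast at h
    refine mul_le_mul h ?_ (by positivity) (by positivity)
    exact div_le_div_of_nonneg_left hT (by positivity) (by have := m.cast_nonneg (α := ℝ); linarith)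

/-- The exponential series below a geometric continuation. -/
lemma exp_le_trunc {T c : ℝ} (n : ℕ) (hT : 0 ≤ T) (hc : 0 < c)
    (hc' : 1 ≤ c * (1 - T / ((n + 2 : ℕ) : ℝ))) :
    Real.exp T ≤ (∑ i ∈ range (n + 1), T ^ i / (i.factorial : ℝ))
      + c * (T ^ (n + 1) / ((n + 1).factorial : ℝ)) := by
  set r : ℝ := T / ((n + 2 : ℕ) : ℝ) with hr
  have hr0 : 0 ≤ r := by positivity
  have hr1 : r < 1 := by
    by_contra h
    nlinarith [not_lt.mp h]
  have h1 := (hasSum_nat_add_iff' (n + 1)).mpr (exp_series T)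
  have h2 := (hasSum_geometric_of_lt_one hr0 hr1).mul_left (T ^ (n + 1) / ((n + 1).factorial : ℝ))
  have h3 := hasSum_le (fun m => by
    have := term_tail_le hT (n + 1) m
    rwa [show m + (n + 1) = n + 1 + m by omega]) h1 h2
  have h4 : (1 - r)⁻¹ ≤ c := by
    rw [inv_le_iff_one_le_mul₀ (by linarith)]; linarith
  have h5 := mul_le_mul_of_nonneg_left h4
    (show 0 ≤ T ^ (n + 1) / ((n + 1).factorial : ℝ) by positivity)
  linarith

/-- The expected excess over a level, times the exponential. -/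
noncomputable def kinkS (T : ℝ) (L : ℕ) : ℝ :=
  (T - L) * Real.exp T + ∑ i ∈ range L, ((L : ℝ) - i) * (T ^ i / (i.factorial : ℝ))

lemma kinkS_sum (T : ℝ) (L : ℕ) :
    HasSum (fun m : ℕ => ((m + 1 : ℕ) : ℝ) * (T ^ (L + 1 + m) / ((L + 1 + m).factorial : ℝ)))
      (kinkS T L) := by
  have h : HasSum (fun i : ℕ => ((i : ℝ) - L) * (T ^ i / (i.factorial : ℝ)))
      ((T - L) * Real.exp T) := by
    rw [sub_mul]
    exact ((exp_series_mean T).sub ((exp_series T).mul_left (L : ℝ))).congr_fun fun i => by ring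
  have h' := (hasSum_nat_add_iff' (L + 1)).mpr h
  have e : (T - L) * Real.exp T - ∑ i ∈ range (L + 1), ((i : ℝ) - L) * (T ^ i / (i.factorial : ℝ))
      = kinkS T L := by
    rw [kinkS, sum_range_succ, sub_self, zero_mul, add_zero, sub_eq_add_neg, ← sum_neg_distrib]
    congr 1
    exact sum_congr rfl fun i _ => by ring
  rw [e] at h'
  refine h'.congr_fun fun m => ?_
  rw [show m + (L + 1) = L + 1 + m by omega]
  push_cast; ring

lemma kinkS_nonneg {T : ℝ} (hT : 0 ≤ T) (L : ℕ) : 0 ≤ kinkS T L :=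
  (kinkS_sum T L).nonneg fun m => by positivity

lemma kinkS_le {T c : ℝ} (L : ℕ) (hT : 0 ≤ T) (hr1 : T < ((L + 2 : ℕ) : ℝ))
    (hc' : 1 ≤ c * (1 - T / ((L + 2 : ℕ) : ℝ)) ^ 2) :
    kinkS T L ≤ c * (T ^ (L + 1) / ((L + 1).factorial : ℝ)) := by
  set r : ℝ := T / ((L + 2 : ℕ) : ℝ) with hr
  have hr0 : 0 ≤ r := by positivity
  have hr1' : r < 1 := by rw [hr, div_lt_one (by positivity)]; exact hr1
  have hn : ‖r‖ < 1 := by rwa [Real.norm_eq_abs, abs_of_nonneg hr0]
  have g := ((hasSum_coe_mul_geometric_of_norm_lt_one hn).add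
    (hasSum_geometric_of_lt_one hr0 hr1')).mul_left (T ^ (L + 1) / ((L + 1).factorial : ℝ))
  have h3 := hasSum_le (fun m => by
    have := mul_le_mul_of_nonneg_left (term_tail_le hT (L + 1) m)
      (show (0 : ℝ) ≤ ((m + 1 : ℕ) : ℝ) by positivity)
    refine le_trans this (le_of_eq ?_)
    rw [hr]; push_cast; ring) (kinkS_sum T L) g
  refine le_trans h3 ?_
  rw [mul_comm c]
  refine mul_le_mul_of_nonneg_left ?_ (by positivity)
  have h0 : 0 < 1 - r := by linarith
  rw [show r / (1 - r) ^ 2 + (1 - r)⁻¹ = 1 / (1 - r) ^ 2 by field_simp; ring,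
    div_le_iff₀ (by positivity)]
  exact hc'

lemma ev_hor (z : ℕ → ℝ) (v : RE) : ∀ (l : List RE) (i : ℕ),
    RE.ev z (hor v l i) = ∑ m ∈ range l.length,
      RE.ev z (l.getD m (.q 0 1)) * RE.ev z v ^ m * ((i.factorial : ℝ) / ((i + m).factorial : ℝ))
  | [], i => by simp [hor, RE.ev]
  | a :: l, i => by
    simp only [hor, RE.ev_add, RE.ev_mul, List.length_cons, sum_range_succ',
      ev_hor z v l (i + 1), List.getD_cons_succ, List.getD_cons_zero, RE.ev]
    rw [add_comm (∑ _ ∈ _, _)]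
    congr 1
    · have : (i.factorial : ℝ) ≠ 0 := by positivity
      simp [this]
    · rw [mul_sum, mul_sum]
      refine sum_congr rfl fun m _ => ?_
      rw [show i + (m + 1) = i + 1 + m by omega, Nat.factorial_succ i, pow_succ]
      push_cast
      have : ((i : ℝ) + 1) ≠ 0 := by positivity
      field_simp

end Window

end Vale.Agent.P154
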