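import Vale.Agent.P154.Window.Level
import Vale.Agent.P154.Window.ScalarPoly
import Vale.Agent.P154.Window.ScalarChk
import Vale.Agent.P154.Window.ScalarSeries
import Vale.Agent.P154.Window.ScalarBin
import Mathlib.Algebra.BigOperators.Intervals
import Mathlib.Data.List.GetD

/-!
Soundness of the test of one cell: the scalar contraction inequality for Poisson and for
binomial numbers of reference children.
-/

namespace Vale.Agent.P154

namespace Window

open Finset Filter Topology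

/-- The weight of the counts `(i, j)` under two independent Poisson numbers. -/
noncomputable def pw2 (M b : ℝ) (i j : ℕ) : ℝ :=
  Real.exp (-(M + b)) * M ^ i * b ^ j / ((i.factorial : ℝ) * (j.factorial : ℝ))

lemma pw2_nonneg {M b : ℝ} (hM : 0 ≤ M) (hb : 0 ≤ b) (i j : ℕ) : 0 ≤ pw2 M b i j := by
  unfold pw2; positivity

lemma pw2_sum (M b : ℝ) : HasSum (fun x : ℕ × ℕ => pw2 M b x.1 x.2) 1 := by
  have hM := exp_series M
  have hb := exp_series b
  have hs : Summable fun x : ℕ × ℕ =>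
      M ^ x.1 / (x.1.factorial : ℝ) * (b ^ x.2 / (x.2.factorial : ℝ)) :=
    summable_mul_of_summable_norm (f := fun i : ℕ => M ^ i / (i.factorial : ℝ))
      (g := fun j : ℕ => b ^ j / (j.factorial : ℝ)) hM.summable.norm hb.summable.norm
  have h := (hM.mul hb hs).mul_left (Real.exp (-(M + b)))
  have e : Real.exp (-(M + b)) * (Real.exp M * Real.exp b) = 1 := by
    rw [← Real.exp_add, ← Real.exp_add]; simp
  rw [e] at h
  refine h.congr_fun fun x => ?_
  simp only [pw2]; ring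

lemma nodeF_le {κ mu nu : ℝ} (hκ : 0 ≤ κ) (hm : 0 ≤ mu) (hm' : mu ≤ 1 / 2) (hn : 0 ≤ nu)
    (hn' : nu ≤ 1 / 2) (i j : ℕ) : nodeF κ mu nu i j ≤ 1 + κ := by
  have h := pair_ok (power_ok _ (node_ok hm hm') i) (power_ok _ (node_ok hn hn') j)
  have hs := h.summable_mom (dom_mPhi κ)
  rw [nodeF, mo, div_le_iff₀ (by norm_num : (0 : ℝ) < 3)]
  have := hasSum_le (fun x => by
    have := dom_mPhi κ _ _ _ (h.nonneg x 0) (h.nonneg x 1) (h.nonneg x 2)
    rw [abs_of_nonneg hκ] at this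
    exact le_trans (le_abs_self _) this) hs.hasSum ((h.hasSum_mass).mul_left (1 + κ))
  linarith

lemma nodeF_nonneg {κ mu nu : ℝ} (hκ : 0 ≤ κ) (hm : 0 ≤ mu) (hm' : mu ≤ 1 / 2) (hn : 0 ≤ nu)
    (hn' : nu ≤ 1 / 2) (i j : ℕ) : 0 ≤ nodeF κ mu nu i j :=
  (pair_ok (power_ok _ (node_ok hm hm') i) (power_ok _ (node_ok hn hn') j)).mo_nonneg
    fun p q r hp hq hr => by
      have := mQ_nonneg hp hq hr
      have := mA_nonneg hp hq hr
      rw [mPhi]; positivity

namespace Cell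

variable (C : Cell)

/-- The deficiency at given counts. -/
noncomputable def defV (k j : ℕ) : ℝ := ((C.topE : ℝ) - (C.tabV k j : ℝ)) / C.t.E

/-- The weight. -/
noncomputable def kap : ℝ := C.t.kap
/-- The first node. -/
noncomputable def mu : ℝ := C.t.mu
/-- The second node. -/
noncomputable def nu : ℝ := C.t.nu
/-- Left end. -/
noncomputable def lo : ℝ := (C.a : ℝ) / C.den
/-- Right end. -/
noncomputable def hi : ℝ := (C.b : ℝ) / C.den

structure Facts (C : Cell) : Prop where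
  good : C.t.good = true
  top : (C.topE : ℝ) / C.t.E = 1 + C.kap
  len : C.tab.length = C.N + 1
  rows : ∀ k ≤ C.N, (C.tab.getD k []).length + k = C.N + 1
  le_top : ∀ k j, C.tabV k j ≤ C.topE
  t00 : C.tabV 0 0 = 0
  hE : (0 : ℝ) < C.t.E
  hk : 0 ≤ C.kap
  hmu : 0 < C.mu
  hmn : C.mu < C.nu
  hnu : C.nu ≤ 1 / 2
  hd0 : 0 < C.dd ∧ C.dd ≤ C.d0
  hab : C.a < C.b
  hden : 0 < C.den
  hgam : C.gam = true → 2 * C.b ≤ C.den
  hn : C.b * (C.t.Q0 * C.t.Q0) < (C.n + 2) * (C.den * (C.t.P0 * C.t.P0))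
  hN : C.J = 0 ∨ C.b * (C.t.Q0 * C.t.Q0) < (C.N + 3) * (C.den * (C.t.P0 * C.t.P0))

lemma facts (h : C.chkShape = true) : Facts C := by
  simp only [chkShape, Bool.and_eq_true, decide_eq_true_eq, List.all_eq_true, List.mem_range,
    Bool.or_eq_true, Bool.not_eq_true', Nat.ble_eq] at h
  obtain ⟨⟨⟨⟨⟨⟨⟨⟨⟨⟨⟨⟨hg, hm⟩, hl⟩, hr⟩, h00⟩, hP⟩, hd⟩, hmn⟩, hab⟩, hgam⟩, hn⟩, hN⟩, hden⟩ := h
  have hg' := hg
  simp only [TPar.good, Bool.and_eq_true, decide_eq_true_eq] at hg'
  obtain ⟨⟨⟨hcd, h0⟩, ⟨h1, h1'⟩⟩, hE⟩ := hg'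
  have hQ0 : (0 : ℝ) < C.t.Q0 := by exact_mod_cast (show 0 < C.t.Q0 by omega)
  have hQ1 : (0 : ℝ) < C.t.Q1 := by exact_mod_cast (show 0 < C.t.Q1 by omega)
  have hE' : (0 : ℝ) < C.t.E := by exact_mod_cast hE
  have hcd' : (0 : ℝ) < C.t.cd := by exact_mod_cast hcd
  refine ⟨hg, ?_, hl, fun k hk => (hr k (by omega)).1, fun k j => ?_, h00, hE', ?_, ?_, ?_, ?_,
    hd, hab, hden, fun e => hgam.resolve_left (by simp [e]), hn, hN⟩
  · have h := Nat.div_mul_cancel (Nat.dvd_of_mod_eq_zero hm)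
    have hR : (C.topE : ℝ) * C.t.cd = (C.t.E : ℝ) * ((C.t.cd : ℝ) + C.t.cn) := by
      exact_mod_cast h
    rw [kap, TPar.kap]; field_simp; linear_combination hR
  · rw [tabV]
    by_cases hj : j < (C.tab.getD k []).length
    · rw [List.getD_eq_getElem _ _ hj]
      rcases Nat.lt_or_ge k (C.N + 1) with hk | hk
      · exact (hr k hk).2 _ (List.getElem_mem hj)
      · rw [List.getD_eq_default _ _ (by omega : C.tab.length ≤ k)] at hj
        simp at hj
    · rw [List.getD_eq_default _ _ (by omega)]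
  · rw [kap, TPar.kap]; positivity
  · rw [Cell.mu, TPar.mu]; exact div_pos (by exact_mod_cast hP) hQ0
  · rw [Cell.mu, TPar.mu, Cell.nu, TPar.nu, div_lt_div_iff₀ hQ0 hQ1]
    refine lt_of_pow_lt_pow_left₀ 2 (by positivity) ?_
    have : ((C.t.P0 * C.t.P0 * (C.t.Q1 * C.t.Q1) : ℕ) : ℝ)
        < ((C.t.P1 * C.t.P1 * (C.t.Q0 * C.t.Q0) : ℕ) : ℝ) := by exact_mod_cast hmn
    push_cast at this; linarith
  · rw [Cell.nu, TPar.nu, div_le_iff₀ hQ1]
    have : (2 : ℝ) * C.t.P1 ≤ C.t.Q1 := by exact_mod_cast h1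
    linarith

variable {C}

lemma tabV_out (hF : Facts C) {k j : ℕ} (h : C.N < k + j) : C.tabV k j = C.topE := by
  rw [tabV]
  rcases Nat.lt_or_ge C.N k with hk | hk
  · rw [List.getD_eq_default _ _ (by have := hF.len; omega : C.tab.length ≤ k)]; rfl
  · rw [List.getD_eq_default _ _ (by have := hF.rows k hk; omega)]

lemma defV_nonneg (hF : Facts C) (k j : ℕ) : 0 ≤ C.defV k j :=
  div_nonneg (sub_nonneg.mpr (by exact_mod_cast hF.le_top k j)) hF.hE.le

lemma defV_out (hF : Facts C) {k j : ℕ} (h : C.N < k + j) : C.defV k j = 0 := by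
  rw [defV, tabV_out hF h, sub_self, zero_div]

lemma defV_zero (hF : Facts C) : C.defV 0 0 = 1 + C.kap := by
  rw [defV, hF.t00, Nat.cast_zero, sub_zero, hF.top]

lemma nodeF_le_tab (hF : Facts C) {lxs lys : List (List (Cnt × ℕ))}
    (hx : chainL srt (cntL srt 0) lxs = true) (hy : chainL id (cntL id 0) lys = true)
    (ht : chkTab C.t lys 0 C.tab lxs = true) (k j : ℕ) :
    nodeF C.kap C.mu C.nu k j ≤ 1 + C.kap - C.defV k j := by
  by_cases h : k < C.tab.length ∧ j < (C.tab.getD k []).length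
  · obtain ⟨hk, hj⟩ := h
    have e : C.tab.getD k [] = C.tab[k] := List.getD_eq_getElem _ _ hk
    have hj' : j < C.tab[k].length := by rwa [e] at hj
    have := chkTab_sound hF.good hx hy ht hk hj'
    rw [defV, tabV, e, List.getD_eq_getElem _ _ hj', ← hF.top, ← sub_div]
    simpa [Cell.kap, Cell.mu, Cell.nu] using this
  · have hout : C.tabV k j = C.topE := by
      rw [tabV]
      rcases Nat.lt_or_ge k C.tab.length with hk | hk
      · exact List.getD_eq_default _ _ (Nat.not_lt.mp fun hh => h ⟨hk, hh⟩)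
      · rw [List.getD_eq_default (d := []) C.tab hk]; rfl
    rw [defV, hout, sub_self, zero_div, sub_zero]
    exact nodeF_le hF.hk hF.hmu.le (by linarith [hF.hmn, hF.hnu])
      (by linarith [hF.hmn, hF.hmu]) hF.hnu k j

/-- The deficiency sum. -/
noncomputable def hSum (C : Cell) (M b : ℝ) : ℝ :=
  ∑ k ∈ range (C.N + 1), ∑ j ∈ range (C.N + 1),
    M ^ k / k.factorial * (b ^ j / j.factorial) * C.defV k j

lemma hor_row (hF : Facts C) (z : ℕ → ℝ) (v : RE) {k : ℕ} (hk : k ≤ C.N) :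
    RE.ev z (hor v ((C.tab.getD k []).map C.defic) 0)
      = ∑ j ∈ range (C.N + 1), RE.ev z v ^ j / j.factorial * C.defV k j := by
  rw [ev_hor, List.length_map]
  refine sum_congr_of_eq_on_inter ?_ ?_ ?_
  · intro j hj hj'
    exact absurd (mem_range.mpr (by have := hF.rows k hk; have := mem_range.mp hj; omega)) hj'
  · intro j hj hj'
    rw [defV_out hF (by have := hF.rows k hk; simp only [mem_range] at hj'; omega), mul_zero]
  · intro j hj _
    have hj' : j < (C.tab.getD k []).length := mem_range.mp hj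
    rw [List.getD_eq_getElem _ _ (by simpa using hj'), List.getElem_map, defV, tabV,
      List.getD_eq_getElem _ _ hj']
    simp only [defic, RE.ev]
    push_cast
    simp [div_eq_mul_inv]; ring

lemma ev_hX (hF : Facts C) (z : ℕ → ℝ) :
    z 0 * RE.ev z C.hX = C.hSum (z 0 * z 1) (z 0 * z 2) - (1 + C.kap) := by
  rw [hSum, sum_range_succ', sum_range_succ' (fun j => (z 0 * z 1) ^ 0 / _ * _ * C.defV 0 j),
    defV_zero hF]
  simp only [hX, RE.ev_add, RE.ev_mul, pow_zero, Nat.factorial_zero, Nat.cast_one, div_one,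
    one_mul]
  have hlen : (C.tab.tail.map fun r => hor (xv * yv) (r.map C.defic) 0).length = C.N := by
    simp [hF.len]
  have hrow : ((C.tab.headD []).tail.map C.defic).length = C.N := by
    have h := hF.rows 0 (Nat.zero_le _)
    have : C.tab.headD [] = C.tab.getD 0 [] := by cases C.tab <;> rfl
    rw [List.length_map, List.length_tail, this]; omega
  rw [ev_hor, hlen, ev_hor, hrow, mul_add]
  simp only [RE.ev_mul, xv, zv, yv, RE.ev]
  rw [mul_sum, mul_sum, mul_sum, mul_sum]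
  have e1 : ∀ k ∈ range C.N, z 0 * (z 1 * (RE.ev z ((C.tab.tail.map fun r =>
      hor (RE.v 0 * RE.v 2) (r.map C.defic) 0).getD k (.q 0 1)) * (z 0 * z 1) ^ k
        * (((1 : ℕ).factorial : ℝ) / ((1 + k).factorial : ℝ))))
      = ∑ j ∈ range (C.N + 1), (z 0 * z 1) ^ (k + 1) / ((k + 1).factorial : ℝ)
          * ((z 0 * z 2) ^ j / (j.factorial : ℝ)) * C.defV (k + 1) j := by
    intro k hk
    have hk' : k < C.N := mem_range.mp hk
    have hl : k + 1 < C.tab.length := by have := hF.len; omega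
    rw [List.getD_eq_getElem _ _ (by simp; omega), List.getElem_map, List.getElem_tail,
      ← List.getD_eq_getElem C.tab [] hl, hor_row hF z _ (by omega : k + 1 ≤ C.N), sum_mul,
      sum_mul, mul_sum, mul_sum]
    refine sum_congr rfl fun j _ => ?_
    simp only [RE.ev_mul, RE.ev, Nat.factorial_one, Nat.cast_one, Nat.add_comm 1 k, pow_succ]
    ring
  have e2 : ∀ j ∈ range C.N, z 0 * (z 2 * (RE.ev z (((C.tab.headD []).tail.map C.defic).getD j
      (.q 0 1)) * (z 0 * z 2) ^ j * (((1 : ℕ).factorial : ℝ) / ((1 + j).factorial : ℝ))))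
      = (z 0 * z 2) ^ (j + 1) / ((j + 1).factorial : ℝ) * C.defV 0 (j + 1) := by
    intro j hj
    have h0 : C.tab.headD [] = C.tab.getD 0 [] := by cases C.tab <;> rfl
    have hl : j + 1 < (C.tab.getD 0 []).length := by
      have := hF.rows 0 (Nat.zero_le _); have := mem_range.mp hj; omega
    simp only [h0]
    rw [List.getD_eq_getElem _ _ (by simp only [List.length_map, List.length_tail]; omega),
      List.getElem_map, List.getElem_tail, defV,
      tabV, List.getD_eq_getElem _ _ hl]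
    simp only [defic, RE.ev, Nat.factorial_one, Nat.cast_one, Nat.add_comm 1 j, pow_succ]
    push_cast
    ring
  rw [sum_congr rfl e1, sum_congr rfl e2]
  ring

lemma ev_last (z : ℕ → ℝ) (v c : RE) (c0 : ℝ) (c0' : RE) (hc : RE.ev z c0' = c0) (m : ℕ) :
    RE.ev z (hor v (List.replicate m c0' ++ [c]) 1)
      = c0 * (∑ i ∈ range m, RE.ev z v ^ i / ((i + 1).factorial : ℝ))
        + RE.ev z c * (RE.ev z v ^ m / ((m + 1).factorial : ℝ)) := by
  rw [ev_hor, List.length_append, List.length_replicate, List.length_singleton, sum_range_succ,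
    mul_sum]
  congr 1
  · refine sum_congr rfl fun i hi => ?_
    rw [List.getD_append _ _ _ _ (by simpa using mem_range.mp hi),
      List.getD_replicate _ (mem_range.mp hi), hc, Nat.add_comm 1 i]
    simp only [Nat.factorial_one, Nat.cast_one]; ring
  · rw [List.getD_append_right _ _ _ _ (by simp), List.length_replicate, Nat.sub_self,
      List.getD_cons_zero, Nat.add_comm 1 m]
    simp only [Nat.factorial_one, Nat.cast_one]; ring

/-- The last coefficient of the exponential polynomial, as a number. -/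
noncomputable def lastR (C : Cell) : ℝ := RE.ev (fun _ => 0) C.lastC
/-- The last coefficient of the kink, as a number. -/
noncomputable def kinkR (C : Cell) : ℝ := RE.ev (fun _ => 0) C.kinkC

lemma ev_ehX (z : ℕ → ℝ) :
    z 0 * RE.ev z C.ehX = (∑ i ∈ range (C.n + 1), (z 0 * (z 1 + z 2)) ^ i / (i.factorial : ℝ))
      + C.lastR * ((z 0 * (z 1 + z 2)) ^ (C.n + 1) / ((C.n + 1).factorial : ℝ)) - 1 := by
  simp only [ehX, RE.ev_mul, RE.ev_add]
  rw [ev_last z tv _ 1 (.q 1 1) (by simp [RE.ev])]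
  simp only [tv, xv, zv, yv, RE.ev_mul, RE.ev_add, RE.ev]
  rw [show RE.ev z C.lastC = C.lastR from rfl, sum_range_succ']
  simp only [pow_zero, Nat.factorial_zero, Nat.cast_one, div_one]
  rw [show (∑ i ∈ range C.n, (z 0 * (z 1 + z 2)) ^ (i + 1) / ((i + 1).factorial : ℝ))
    = z 0 * (z 1 + z 2) * ∑ i ∈ range C.n, (z 0 * (z 1 + z 2)) ^ i / ((i + 1).factorial : ℝ) from by
      rw [mul_sum]; exact sum_congr rfl fun i _ => by rw [pow_succ]; ring, pow_succ]
  ring

lemma ev_kinkX (z : ℕ → ℝ) :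
    z 0 * RE.ev z C.kinkX = C.kinkR
      * ((z 0 * (z 1 + z 2)) ^ (C.N + 1 + 1) / ((C.N + 1 + 1).factorial : ℝ)) := by
  simp only [kinkX, RE.ev_mul, RE.ev_add]
  rw [ev_last z tv _ 0 (.q 0 1) (by simp [RE.ev])]
  simp only [tv, xv, zv, yv, RE.ev_mul, RE.ev_add, RE.ev]
  rw [show RE.ev z C.kinkC = C.kinkR from rfl, pow_succ _ (C.N + 1)]
  ring

/-- The least mean degree. -/
noncomputable def dR (C : Cell) : ℝ := (C.d0 : ℝ) / C.dd

lemma one_le_dR (hF : Facts C) : (1 : ℝ) ≤ C.dR := by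
  rw [dR, le_div_iff₀ (by exact_mod_cast hF.hd0.1), one_mul]
  exact_mod_cast hF.hd0.2

lemma dR_pos (hF : Facts C) : 0 < C.dR := lt_of_lt_of_le zero_lt_one (one_le_dR hF)

/-- The information factor used in the cell. -/
noncomputable def gR (C : Cell) (X : ℝ) : ℝ := if C.gam then (1 - 2 * X) ^ 2 else 0

/-- The point of tangency, as a number. -/
noncomputable def zR (C : Cell) (X b : ℝ) : ℝ :=
  2 * C.mu ^ 2 - (X - 2 * ((C.nu ^ 2 - C.mu ^ 2) * b)) / C.dR

/-- The second slope, as a number. -/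
noncomputable def eR (C : Cell) (X b : ℝ) : ℝ :=
  C.zR X b * ((X - 2 * ((C.nu ^ 2 - C.mu ^ 2) * b)) / C.dR) / (2 * C.mu ^ 2)

/-- The slop. -/
noncomputable def slopR (C : Cell) (M b : ℝ) : ℝ :=
  ((C.D11 : ℝ) * M ^ 2 + 2 * (C.D12 : ℝ) * (M * b) + (C.D22 : ℝ) * b ^ 2) / (C.t.E * (2 * C.dR))

/-- The right side proved. -/
noncomputable def rhsR (C : Cell) (X M b : ℝ) : ℝ :=
  X + C.kap * (C.gR X * (C.mu ^ 4 * M + C.nu ^ 4 * b)
      + (C.dR - C.gR X) * (C.zR X b * (2 * C.nu ^ 2 - C.zR X b) * b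
        + C.zR X b * (2 * C.mu ^ 2 - C.zR X b) * M - C.eR X b ^ 2 * C.dR))
    - X ^ 2 / 100

lemma ev_rH (hF : Facts C) (z : ℕ → ℝ) :
    z 0 * RE.ev z C.rH
      = C.rhsR (z 0) (z 0 * z 1) (z 0 * z 2) - C.slopR (z 0 * z 1) (z 0 * z 2) := by
  have hg := hF.good
  simp only [TPar.good, Bool.and_eq_true, decide_eq_true_eq] at hg
  obtain ⟨⟨⟨hcd, h0⟩, ⟨h1, h1'⟩⟩, hE⟩ := hg
  have hQ0 : (C.t.Q0 : ℝ) ≠ 0 := by exact_mod_cast (show C.t.Q0 ≠ 0 by omega)
  have hQ1 : (C.t.Q1 : ℝ) ≠ 0 := by exact_mod_cast (show C.t.Q1 ≠ 0 by omega)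
  have hd : (C.d0 : ℝ) ≠ 0 := by
    have := hF.hd0; exact_mod_cast (show C.d0 ≠ 0 by omega)
  have hP : (C.t.P0 : ℝ) ≠ 0 := by
    intro h; have := hF.hmu; rw [Cell.mu, TPar.mu, h, zero_div] at this; exact lt_irrefl _ this
  have hEE := hF.hE.ne'
  have hdd : (C.dd : ℝ) ≠ 0 := by have := hF.hd0.1; exact_mod_cast this.ne'
  have hC : (C.t.cd : ℝ) ≠ 0 := by exact_mod_cast hcd.ne'
  simp only [rH, s2H, linH, phiH, zetaE, etaH, slopH, sgE, s1E, xv, zv, yv, RE.ev_add, RE.ev_mul,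
    RE.ev, rhsR, slopR, eR, zR, dR, gR, gamE, Cell.mu, Cell.nu, Cell.kap, TPar.mu, TPar.nu, TPar.kap]
  cases C.gam <;>
  · simp only [Bool.false_eq_true, ↓reduceIte, RE.ev_add, RE.ev_mul, RE.ev, xv]
    push_cast
    field_simp
    ring

lemma ev_poly (hF : Facts C) (z : ℕ → ℝ) :
    z 0 * RE.ev z C.poly = C.hSum (z 0 * z 1) (z 0 * z 2)
      - (C.J : ℝ) / C.t.E * (C.kinkR
        * ((z 0 * (z 1 + z 2)) ^ (C.N + 1 + 1) / ((C.N + 1 + 1).factorial : ℝ)))
      - (1 + C.kap - (C.rhsR (z 0) (z 0 * z 1) (z 0 * z 2) - C.slopR (z 0 * z 1) (z 0 * z 2)))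
        * ((∑ i ∈ range (C.n + 1), (z 0 * (z 1 + z 2)) ^ i / (i.factorial : ℝ))
          + C.lastR * ((z 0 * (z 1 + z 2)) ^ (C.n + 1) / ((C.n + 1).factorial : ℝ))) := by
  have a := ev_hX hF z
  have b := ev_ehX (C := C) z
  have c := ev_kinkX (C := C) z
  have d := ev_rH hF z
  rw [← hF.top] at a ⊢
  simp only [poly, RE.ev_add, RE.ev_mul, xv, RE.ev] at *
  push_cast at *
  linear_combination a + (-(C.J : ℝ) / (C.t.E : ℝ)) * c
    + (z 0 * RE.ev z C.rH - (C.topE : ℝ) / (C.t.E : ℝ)) * b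
    + ((∑ i ∈ range (C.n + 1), (z 0 * (z 1 + z 2)) ^ i / (i.factorial : ℝ))
          + C.lastR * ((z 0 * (z 1 + z 2)) ^ (C.n + 1) / ((C.n + 1).factorial : ℝ))) * d

/-- A passed coefficient test gives nonnegativity at every point of the substitution. -/
def Tested (C : Cell) (e : RE) : Prop :=
  ∀ ρ : ℕ → ℝ, (∀ i, 0 ≤ ρ i) → (∀ i, 4 ≤ i → ρ i = 0) → 0 < Ex.val ρ D1 → 0 < Ex.val ρ D2 →
    ∀ z : ℕ → ℝ, (∀ i, Rep ρ D1 D2 (C.env i) (z i)) → 0 ≤ RE.ev z e

lemma poly_nonneg (hF : Facts C) {e : RE}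
    (hp : Tested C e) {x u w : ℝ}
    (hx0 : C.lo ≤ x) (hx1 : x ≤ C.hi) (hu : 0 ≤ u) (hw : 0 ≤ w)
    (h1 : C.mu ^ 2 * u + C.nu ^ 2 * w = 1) :
    0 ≤ RE.ev (fun i => if i = 0 then x else if i = 1 then u else if i = 2 then w else 0)
      e := by
  have hden : (0 : ℝ) < C.den := by exact_mod_cast hF.hden
  have hg := hF.good
  simp only [TPar.good, Bool.and_eq_true, decide_eq_true_eq] at hg
  obtain ⟨⟨⟨-, h0⟩, ⟨h0', h0''⟩⟩, -⟩ := hg
  have hP0 : 0 < C.t.P0 := Nat.pos_of_ne_zero fun h => by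
    have := hF.hmu; simp [Cell.mu, TPar.mu, h] at this
  have hP1 : 0 < C.t.P1 := Nat.pos_of_ne_zero fun h => by
    have := hF.hmn; have := hF.hmu; simp [Cell.nu, TPar.nu, h] at *; linarith
  have hm2 : 0 < C.mu ^ 2 := pow_pos hF.hmu 2
  have hlh : C.lo < C.hi := by
    rw [lo, hi, div_lt_div_iff_of_pos_right hden]; exact_mod_cast hF.hab
  let pt : ℝ → ℕ → ℝ := fun s i =>
    if i = 0 then x * (1 - s) + C.lo * s
    else if i = 1 then u * (1 - s) + s / C.mu ^ 2 else if i = 2 then w * (1 - s) else 0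
  have key : ∀ s : ℝ, 0 < s → s < 1 → 0 ≤ RE.ev (pt s) e := by
    intro s s0 s1
    have hu' : 0 < u * (1 - s) + s / C.mu ^ 2 := by
      have := mul_nonneg hu (show (0 : ℝ) ≤ 1 - s by linarith)
      have := div_pos s0 hm2
      linarith
    have hw' : 0 ≤ w * (1 - s) := mul_nonneg hw (by linarith)
    have hxl : C.lo ≤ x * (1 - s) + C.lo * s := by nlinarith
    have hxh : x * (1 - s) + C.lo * s < C.hi := by nlinarith
    have e1 : C.mu ^ 2 * (u * (1 - s) + s / C.mu ^ 2) + C.nu ^ 2 * (w * (1 - s)) = 1 := by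
      have : C.mu ^ 2 * (s / C.mu ^ 2) = s := mul_div_cancel₀ s hm2.ne'
      linear_combination this + (1 - s) * h1
    set X' := x * (1 - s) + C.lo * s with hX'
    set U := u * (1 - s) + s / C.mu ^ 2 with hU
    set W := w * (1 - s) with hW
    have hdx : 0 < (C.b : ℝ) - C.den * X' := by
      rw [hi, lt_div_iff₀ hden] at hxh; linarith
    let ρ : ℕ → ℝ := fun i =>
      if i = 0 then (C.den * X' - C.a) / ((C.b : ℝ) - C.den * X')
      else if i = 1 then C.nu ^ 2 * W / (C.mu ^ 2 * U) else 0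
    have r0 : 0 ≤ ρ 0 := by
      rw [lo, div_le_iff₀ hden] at hxl
      exact div_nonneg (by linarith) hdx.le
    have r1 : 0 ≤ ρ 1 := by simp only [ρ]; simp; positivity
    refine hp ρ (fun i => ?_) (fun i hi => ?_) ?_ ?_ (pt s) (fun i => ?_)
    · by_cases a : i = 0
      · subst a; exact r0
      by_cases b : i = 1
      · subst b; exact r1
      simp [ρ, a, b]
    · simp only [ρ]; rw [if_neg (by omega), if_neg (by omega)]
    · change (0 : ℝ) < ((1 : ℤ) : ℝ) + ρ 0; push_cast; linarith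
    · change (0 : ℝ) < ((1 : ℤ) : ℝ) + ρ 1; push_cast; linarith
    have p0 : (C.t.P0 : ℝ) ≠ 0 := by exact_mod_cast hP0.ne'
    have p1 : (C.t.P1 : ℝ) ≠ 0 := by exact_mod_cast hP1.ne'
    have q0 : (C.t.Q0 : ℝ) ≠ 0 := by exact_mod_cast (show C.t.Q0 ≠ 0 by omega)
    have q1 : (C.t.Q1 : ℝ) ≠ 0 := by exact_mod_cast (show C.t.Q1 ≠ 0 by omega)
    have hmU : C.mu ^ 2 * U ≠ 0 := by positivity
    have hsum : (1 : ℝ) + C.nu ^ 2 * W / (C.mu ^ 2 * U) = 1 / (C.mu ^ 2 * U) := by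
      rw [eq_div_iff hmU, add_mul, div_mul_cancel₀ _ hmU]; linarith
    rcases i with _ | _ | _ | i
    · refine ⟨hF.hden, ?_⟩
      change ((C.a : ℤ) : ℝ) + ((C.b : ℤ) : ℝ) * ρ 0
        = X' * ((C.den : ℝ) * (((1 : ℤ) : ℝ) + ρ 0) ^ 1 * (((1 : ℤ) : ℝ) + ρ 1) ^ 0)
      simp only [ρ, ↓reduceIte]
      push_cast
      field_simp
      ring
    · refine ⟨Nat.mul_pos hP0 hP0, ?_⟩
      change (((C.t.Q0 * C.t.Q0 : ℕ) : ℤ) : ℝ)
        = U * (((C.t.P0 * C.t.P0 : ℕ) : ℝ) * (((1 : ℤ) : ℝ) + ρ 0) ^ 0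
            * (((1 : ℤ) : ℝ) + ρ 1) ^ 1)
      simp only [ρ, ↓reduceIte, one_ne_zero, pow_zero, pow_one]
      push_cast
      rw [hsum, Cell.mu, TPar.mu]
      field_simp
    · refine ⟨Nat.mul_pos hP1 hP1, ?_⟩
      change (((C.t.Q1 * C.t.Q1 : ℕ) : ℤ) : ℝ) * ρ 1
        = W * (((C.t.P1 * C.t.P1 : ℕ) : ℝ) * (((1 : ℤ) : ℝ) + ρ 0) ^ 0
            * (((1 : ℤ) : ℝ) + ρ 1) ^ 1)
      simp only [ρ, ↓reduceIte, one_ne_zero, pow_zero, pow_one]
      push_cast
      rw [hsum, Cell.nu, TPar.nu]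
      field_simp
    · refine ⟨Nat.one_pos, ?_⟩
      simp [Ex.val, env, pt]
  have hc : Continuous fun s : ℝ => RE.ev (pt s) e := by
    refine (RE.continuous_ev e).comp (continuous_pi fun i => ?_)
    simp only [pt]
    split_ifs <;> fun_prop
  have h0 : pt 0 = fun i => if i = 0 then x else if i = 1 then u else if i = 2 then w else 0 := by
    funext i; simp [pt]
  rw [← h0]
  refine ge_of_tendsto (x := 𝓝[>] (0 : ℝ)) ((hc.tendsto 0).mono_left nhdsWithin_le_nhds) ?_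
  filter_upwards [Ioo_mem_nhdsGT (show (0 : ℝ) < 1 by norm_num)] with s hs
  exact key s hs.1 hs.2

/-- The core of a cell: the deficiency sum dominates. -/
lemma main_ineq (hF : Facts C) (hp : ∃ bits, C.chkPoly bits = true) {X M b : ℝ} (hX0 : 0 < X)
    (hlo : C.lo ≤ X) (hhi : X ≤ C.hi) (hM : 0 ≤ M) (hb : 0 ≤ b)
    (hX : C.mu ^ 2 * M + C.nu ^ 2 * b = X) (hR : C.rhsR X M b - C.slopR M b ≤ 1 + C.kap) :
    (1 + C.kap - (C.rhsR X M b - C.slopR M b)) * Real.exp (M + b)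
      + (C.J : ℝ) / C.t.E * kinkS (M + b) (C.N + 1) ≤ C.hSum M b := by
  have h := poly_nonneg hF (e := C.poly) (fun _ a b c d _ g => hp.elim fun _ h => chkRE_sound h a b c d g) hlo hhi (u := M / X) (w := b / X) (by positivity) (by positivity)
    (by field_simp; linarith)
  set z : ℕ → ℝ := fun i => if i = 0 then X else if i = 1 then M / X else if i = 2 then b / X
    else 0 with hz
  have key := mul_nonneg (show 0 ≤ z 0 from hX0.le) h
  rw [ev_poly hF z] at key
  have z0 : z 0 = X := rfl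
  have e1 : z 0 * z 1 = M := by
    rw [show z 1 = M / X from rfl, z0]; exact mul_div_cancel₀ M hX0.ne'
  have e2 : z 0 * z 2 = b := by
    rw [show z 2 = b / X from rfl, z0]; exact mul_div_cancel₀ b hX0.ne'
  rw [mul_add, e1, e2, z0] at key
  have hden : (0 : ℝ) < C.den := by exact_mod_cast hF.hden
  have hm : 0 < C.mu ^ 2 := pow_pos hF.hmu 2
  have hT : M + b ≤ C.hi / C.mu ^ 2 := by
    rw [le_div_iff₀ hm]
    have : C.mu ^ 2 ≤ C.nu ^ 2 := pow_le_pow_left₀ hF.hmu.le hF.hmn.le 2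
    nlinarith
  have hQ0 : (0 : ℝ) < C.t.Q0 := by
    have := hF.hmu; rw [Cell.mu, TPar.mu] at this
    rcases Nat.eq_zero_or_pos C.t.Q0 with h | h
    · simp [h] at this
    · exact_mod_cast h
  have hP0 : (0 : ℝ) < C.t.P0 := by
    have := mul_pos hF.hmu hQ0; rwa [Cell.mu, TPar.mu, div_mul_cancel₀ _ hQ0.ne'] at this
  have conv : ∀ (m : ℕ) (hm : C.b * (C.t.Q0 * C.t.Q0) < m * (C.den * (C.t.P0 * C.t.P0))),
      M + b < (m : ℝ) ∧ 1 ≤ ((m * (C.den * (C.t.P0 * C.t.P0)) : ℕ) : ℝ)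
        / ((m * (C.den * (C.t.P0 * C.t.P0)) - C.b * (C.t.Q0 * C.t.Q0) : ℕ) : ℝ)
          * (1 - (M + b) / (m : ℝ)) := by
    intro m hm
    have hm0 : (0 : ℝ) < m := by
      rcases Nat.eq_zero_or_pos m with rfl | h
      · simp at hm
      · exact_mod_cast h
    have hd2 : C.hi / C.mu ^ 2 = (C.b : ℝ) * ((C.t.Q0 : ℝ) * C.t.Q0)
        / ((C.den : ℝ) * ((C.t.P0 : ℝ) * C.t.P0)) := by
      rw [hi, Cell.mu, TPar.mu]; field_simp
    have hmR : (C.b : ℝ) * ((C.t.Q0 : ℝ) * C.t.Q0)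
        < (m : ℝ) * ((C.den : ℝ) * ((C.t.P0 : ℝ) * C.t.P0)) := by exact_mod_cast hm
    set A : ℝ := (C.b : ℝ) * ((C.t.Q0 : ℝ) * C.t.Q0) with hA
    set B : ℝ := (C.den : ℝ) * ((C.t.P0 : ℝ) * C.t.P0) with hB
    have hB0 : 0 < B := by positivity
    rw [hd2, le_div_iff₀ hB0] at hT
    refine ⟨lt_of_mul_lt_mul_right (lt_of_le_of_lt hT hmR) hB0.le, ?_⟩
    rw [Nat.cast_sub hm.le]
    push_cast
    rw [← hA, ← hB, div_mul_eq_mul_div, le_div_iff₀ (by linarith), one_mul]
    have : (m : ℝ) * B * (1 - (M + b) / m) = (m : ℝ) * B - (M + b) * B := by field_simp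
    linarith
  obtain ⟨-, c1⟩ := conv (C.n + 2) hF.hn
  have hl : C.lastR = ((((C.n + 2) * (C.den * (C.t.P0 * C.t.P0)) : ℕ)) : ℝ)
      / (((C.n + 2) * (C.den * (C.t.P0 * C.t.P0)) - C.b * (C.t.Q0 * C.t.Q0) : ℕ) : ℝ) := by
    simp only [lastR, lastC, RE.ev, Int.cast_natCast]
  rw [← hl] at c1
  have hT0 : 0 ≤ M + b := by linarith
  have hlast : 0 < C.lastR := by
    rw [hl]; refine div_pos ?_ ?_ <;> exact_mod_cast (by have := hF.hn; omega)
  have h2 : (C.J : ℝ) / C.t.E * kinkS (M + b) (C.N + 1) ≤ (C.J : ℝ) / C.t.E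
      * (C.kinkR * ((M + b) ^ (C.N + 1 + 1) / ((C.N + 1 + 1).factorial : ℝ))) := by
    rcases hF.hN with hJ | hJ
    · simp [hJ]
    refine mul_le_mul_of_nonneg_left ?_ (by positivity)
    obtain ⟨c2, c3⟩ := conv (C.N + 3) hJ
    refine kinkS_le (C.N + 1) hT0 (by rwa [show C.N + 1 + 2 = C.N + 3 by omega]) ?_
    have e : C.kinkR = (((((C.N + 3) * (C.den * (C.t.P0 * C.t.P0)) : ℕ)) : ℝ)
        / (((C.N + 3) * (C.den * (C.t.P0 * C.t.P0)) - C.b * (C.t.Q0 * C.t.Q0) : ℕ) : ℝ)) ^ 2 := by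
      simp only [kinkR, kinkC, RE.ev, Int.cast_natCast, div_pow]
      push_cast
      rfl
    rw [e, show C.N + 1 + 2 = C.N + 3 by omega, ← mul_pow]
    exact one_le_pow₀ c3
  have h1 := mul_le_mul_of_nonneg_left (exp_le_trunc C.n hT0 hlast c1) (sub_nonneg.mpr hR)
  linarith

lemma slop_nonneg (hF : Facts C) {M b : ℝ} (hM : 0 ≤ M) (hb : 0 ≤ b) : 0 ≤ C.slopR M b := by
  have := hF.hE; have := dR_pos hF; rw [slopR]; positivity

lemma rhs_le (hF : Facts C) {X M b wl Qs c d : ℝ} (hX0 : 0 ≤ X) (hhi : X ≤ C.hi)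
    (hd : C.dR ≤ d) (hL : Lin d C.mu C.nu M b wl Qs)
    (hQ : Qs ≤ C.mu ^ 4 * M + C.nu ^ 4 * b) (hc : cX X ≤ c) (hc1 : c ≤ 1) :
    C.rhsR X M b
      ≤ X + C.kap * (c * (C.mu ^ 4 * M + C.nu ^ 4 * b) + (d - c) * Qs) - X ^ 2 / 100 := by
  set g := C.gR X with hg
  have hcX : 0 ≤ cX X := by rw [cX]; split_ifs <;> positivity
  have hg0 : 0 ≤ g := by rw [hg, gR]; split_ifs <;> positivity
  have hgc : g ≤ c := by
    rw [hg, gR]
    split_ifs with h
    · have h2 := hF.hgam h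
      have hden : (0 : ℝ) < C.den := by exact_mod_cast hF.hden
      have : 2 * X ≤ 1 := by
        have h2' : (2 : ℝ) * C.b ≤ C.den := by exact_mod_cast h2
        rw [hi, le_div_iff₀ hden] at hhi
        nlinarith
      rw [cX, if_pos this] at hc; exact hc
    · linarith
  have h1 : (1 : ℝ) ≤ C.dR := one_le_dR hF
  have hd0 : (0 : ℝ) < C.dR := by linarith
  have hdp : 0 < d := by linarith
  set ζ := C.zR X b with hζ
  set η := C.eR X b with hη
  set A := 2 * η * C.mu ^ 2 * wl - η ^ 2 * C.dR with hA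
  set U := 2 * ζ * (C.mu ^ 2 * (M - wl) + C.nu ^ 2 * b) - ζ ^ 2 * (M - wl + b) with hU
  have a00 := hL 0 0
  have a01 := hL 0 ζ
  have a10 := hL (η * C.dR / d) 0
  have a11 := hL (η * C.dR / d) ζ
  have eA : 2 * (η * C.dR / d) * C.mu ^ 2 * wl - (η * C.dR / d) ^ 2 * d
      = C.dR / d * A := by
    rw [hA]; field_simp
  have key : (C.dR - g) * (A + U) ≤ (d - g) * Qs := by
    have hr : C.dR / d * A + U ≤ Qs := by linarith
    have hr0 : C.dR / d * A ≤ Qs := by linarith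
    have hr1 : U ≤ Qs := by linarith
    have hQ0 : 0 ≤ Qs := by linarith
    have hdg : 0 ≤ d - g := by linarith
    have hrat : C.dR - g ≤ (d - g) * (C.dR / d) := by
      rw [← mul_div_assoc, le_div_iff₀ hdp]
      linarith [mul_le_mul_of_nonneg_left hd hg0]
    have hd0g : 0 ≤ C.dR - g := by linarith
    rcases le_total 0 A with hA0 | hA0 <;> rcases le_total 0 U with hU0 | hU0
    · have := mul_le_mul_of_nonneg_left hr hdg
      have := mul_le_mul_of_nonneg_right hrat hA0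
      have := mul_le_mul_of_nonneg_right (show C.dR - g ≤ d - g by linarith) hU0
      linarith
    · have := mul_le_mul_of_nonneg_left hr0 hdg
      have := mul_le_mul_of_nonneg_right hrat hA0
      have := mul_nonpos_of_nonneg_of_nonpos hd0g hU0
      linarith
    · have := mul_le_mul_of_nonneg_left hr1 hdg
      have := mul_le_mul_of_nonneg_right (show C.dR - g ≤ d - g by linarith) hU0
      have := mul_nonpos_of_nonneg_of_nonpos hd0g hA0
      linarith
    · have := mul_nonneg hdg hQ0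
      have := mul_nonpos_of_nonneg_of_nonpos hd0g (add_nonpos hA0 hU0)
      linarith
  have eAU : A + U = ζ * (2 * C.nu ^ 2 - ζ) * b + ζ * (2 * C.mu ^ 2 - ζ) * M
      - η ^ 2 * C.dR := by
    have hm : C.mu ^ 2 ≠ 0 := (pow_pos hF.hmu 2).ne'
    have e : 2 * η * C.mu ^ 2 = ζ * (2 * C.mu ^ 2 - ζ) := by
      have hmu := hF.hmu.ne'
      rw [hη, eR, hζ, zR]; field_simp; ring
    rw [hA, hU]; linear_combination wl * e
  rw [eAU] at key
  have h3 : 0 ≤ (c - g) * (C.mu ^ 4 * M + C.nu ^ 4 * b - Qs) :=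
    mul_nonneg (by linarith) (by linarith)
  have h4 : g * (C.mu ^ 4 * M + C.nu ^ 4 * b)
      + (C.dR - g) * (ζ * (2 * C.nu ^ 2 - ζ) * b + ζ * (2 * C.mu ^ 2 - ζ) * M - η ^ 2 * C.dR)
      ≤ c * (C.mu ^ 4 * M + C.nu ^ 4 * b) + (d - c) * Qs := by linarith
  have h5 := mul_le_mul_of_nonneg_left h4 hF.hk
  rw [rhsR]
  linarith

/-- The Poisson inequality in a cell. -/
theorem cell_poisson (hv : C.Valid) {X M b wl Qs c d : ℝ} (hX0 : 0 < X) (hlo : C.lo ≤ X)
    (hhi : X ≤ C.hi) (hM : 0 ≤ M) (hb : 0 ≤ b) (hX : C.mu ^ 2 * M + C.nu ^ 2 * b = X)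
    (hd : C.dR ≤ d) (hL : Lin d C.mu C.nu M b wl Qs)
    (hQ : Qs ≤ C.mu ^ 4 * M + C.nu ^ 4 * b) (hc : cX X ≤ c) (hc1 : c ≤ 1) :
    ∑' x : ℕ × ℕ, pw2 M b x.1 x.2 * nodeF C.kap C.mu C.nu x.1 x.2
      ≤ X + C.kap * (c * (C.mu ^ 4 * M + C.nu ^ 4 * b) + (d - c) * Qs) - X ^ 2 / 100 := by
  have hF := C.facts hv.shape
  obtain ⟨lxs, lys, hx, hy, ht⟩ := hv.table
  refine le_trans ?_ (rhs_le hF hX0.le hhi hd hL hQ hc hc1)
  have hm' : C.mu ≤ 1 / 2 := by linarith [hF.hmn, hF.hnu]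
  have hn0 : 0 ≤ C.nu := by linarith [hF.hmn, hF.hmu]
  have hsum : Summable fun x : ℕ × ℕ => pw2 M b x.1 x.2 * nodeF C.kap C.mu C.nu x.1 x.2 :=
    Summable.of_nonneg_of_le (fun x => mul_nonneg (pw2_nonneg hM hb _ _)
      (nodeF_nonneg hF.hk hF.hmu.le hm' hn0 hF.hnu _ _))
      (fun x => mul_le_mul_of_nonneg_left (nodeF_le hF.hk hF.hmu.le hm' hn0 hF.hnu _ _)
        (pw2_nonneg hM hb _ _)) ((pw2_sum M b).summable.mul_right (1 + C.kap))
  have hfin : HasSum (fun x : ℕ × ℕ => pw2 M b x.1 x.2 * C.defV x.1 x.2)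
      (Real.exp (-(M + b)) * C.hSum M b) := by
    have := hasSum_sum_of_ne_finset_zero (L := SummationFilter.unconditional _)
      (f := fun x : ℕ × ℕ => pw2 M b x.1 x.2 * C.defV x.1 x.2)
      (s := range (C.N + 1) ×ˢ range (C.N + 1)) fun x hx => by
      simp only [mem_product, mem_range, not_and_or, not_lt] at hx
      rw [defV_out hF (by omega), mul_zero]
    refine hasSum_val this ?_
    rw [hSum, sum_product, mul_sum]
    refine sum_congr rfl fun k _ => ?_
    rw [mul_sum]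
    exact sum_congr rfl fun j _ => by rw [pw2]; ring
  have h1 := hasSum_le (fun x => by
    have := mul_le_mul_of_nonneg_left (nodeF_le_tab hF hx hy ht x.1 x.2)
      (pw2_nonneg hM hb x.1 x.2)
    rw [mul_sub] at this
    exact this) hsum.hasSum (((pw2_sum M b).mul_right (1 + C.kap)).sub hfin)
  have hs := slop_nonneg hF hM hb
  rw [one_mul] at h1
  have hH : 0 ≤ C.hSum M b := sum_nonneg fun k _ => sum_nonneg fun j _ =>
    mul_nonneg (by positivity) (defV_nonneg hF k j)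
  rcases le_total (C.rhsR X M b - C.slopR M b) (1 + C.kap) with hR | hR
  · have := main_ineq hF hv.poly hX0 hlo hhi hM hb hX hR
    have hk := mul_nonneg (show (0 : ℝ) ≤ (C.J : ℝ) / C.t.E by positivity)
      (kinkS_nonneg (add_nonneg hM hb) (C.N + 1))
    have h2 := mul_le_mul_of_nonneg_left
      (show (1 + C.kap - (C.rhsR X M b - C.slopR M b)) * Real.exp (M + b) ≤ C.hSum M b by linarith)
      (Real.exp_pos (-(M + b))).le
    have e : Real.exp (-(M + b)) * Real.exp (M + b) = 1 := by rw [← Real.exp_add]; simp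
    have h3 : Real.exp (-(M + b))
        * ((1 + C.kap - (C.rhsR X M b - C.slopR M b)) * Real.exp (M + b))
        = 1 + C.kap - (C.rhsR X M b - C.slopR M b) := by
      linear_combination (1 + C.kap - (C.rhsR X M b - C.slopR M b)) * e
    linarith
  · have := mul_nonneg (Real.exp_pos (-(M + b))).le hH
    linarith

lemma box_diag (M b : ℝ) (L : ℕ) :
    ∑ k ∈ range L, ∑ j ∈ range L,
        M ^ k / k.factorial * (b ^ j / j.factorial) * (((L - (k + j) : ℕ)) : ℝ)
      = ∑ i ∈ range L, ((L : ℝ) - i) * ((M + b) ^ i / (i.factorial : ℝ)) := by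
  have e : ∀ k ∈ range L, (∑ j ∈ range L,
      M ^ k / k.factorial * (b ^ j / j.factorial) * (((L - (k + j) : ℕ)) : ℝ))
      = ∑ j ∈ range (L - k),
          M ^ k / k.factorial * (b ^ j / j.factorial) * (((L - (k + j) : ℕ)) : ℝ) := by
    intro k _
    refine (sum_subset (range_subset_range.mpr (Nat.sub_le L k)) fun j _ hj => ?_).symm
    simp only [mem_range, not_lt] at hj
    simp [show L - (k + j) = 0 by omega]
  rw [sum_congr rfl e, ← sum_range_diag_flip L fun k j =>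
    M ^ k / k.factorial * (b ^ j / j.factorial) * (((L - (k + j) : ℕ)) : ℝ)]
  refine sum_congr rfl fun i hi => ?_
  have hi' := mem_range.mp hi
  rw [add_pow, sum_div, mul_sum]
  refine sum_congr rfl fun k hk => ?_
  have hk' := mem_range.mp hk
  rw [show k + (i - k) = i by omega, Nat.cast_sub hi'.le,
    Nat.cast_choose ℝ (show k ≤ i by omega)]
  have : (i.factorial : ℝ) ≠ 0 := by positivity
  field_simp

/-- The binomial inequality in a cell. -/
theorem cell_regular (hv : C.Valid) (hD : C.chkConv = true) {n : ℕ} {X M b wl Qs c : ℝ}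
    (hX0 : 0 < X) (hlo : C.lo ≤ X) (hhi : X ≤ C.hi) (hM : 0 ≤ M) (hb : 0 ≤ b)
    (hX : C.mu ^ 2 * M + C.nu ^ 2 * b = X) (hMb : M + b ≤ n) (hn : C.dR ≤ (n : ℝ))
    (hL : Lin n C.mu C.nu M b wl Qs) (hQ : Qs ≤ C.mu ^ 4 * M + C.nu ^ 4 * b)
    (hc : cX X ≤ c) (hc1 : c ≤ 1) :
    bin (M / n) (b / n) n (fun i j => nodeF C.kap C.mu C.nu i j) 0 0
      ≤ X + C.kap * (c * (C.mu ^ 4 * M + C.nu ^ 4 * b) + ((n : ℝ) - c) * Qs) - X ^ 2 / 100 := by
  have hF := C.facts hv.shape
  obtain ⟨lxs, lys, hx, hy, ht⟩ := hv.table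
  refine le_trans ?_ (rhs_le hF hX0.le hhi hn hL hQ hc hc1)
  have hn0 : 0 < n := by
    have : (0 : ℝ) < n := lt_of_lt_of_le (dR_pos hF) hn
    exact_mod_cast this
  have hnR : (0 : ℝ) < n := by exact_mod_cast hn0
  have hp : 0 ≤ M / n := by positivity
  have hq : 0 ≤ b / n := by positivity
  have hpq : M / n + b / n ≤ 1 := by rw [← add_div, div_le_one hnR]; exact hMb
  set E : ℝ := (C.t.E : ℝ) with hEdef
  have hE : 0 < E := hF.hE
  set L := C.N + 1 with hLdef
  set A := (C.D11 : ℝ) / E with hAdef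
  set B := (C.D12 : ℝ) / E with hBdef
  set D := (C.D22 : ℝ) / E with hDdef
  set J := (C.J : ℝ) / E with hJdef
  set h : ℕ → ℕ → ℝ := fun k j => -C.defV k j + J * (((L - (k + j) : ℕ)) : ℝ) with hh
  have hkink : ∀ k j : ℕ, (((L - (k + j) : ℕ)) : ℝ) + ((k : ℝ) + j - L)
      = (((k + j - L : ℕ)) : ℝ) := by
    intro k j
    rcases le_total (k + j) L with h' | h'
    · rw [Nat.cast_sub h', Nat.sub_eq_zero_of_le h']; push_cast; ring
    · rw [Nat.cast_sub h', Nat.sub_eq_zero_of_le h']; push_cast; ring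
  have hg : ∀ k j, qpol A B D J J (1 + C.kap - J * L) k j + h k j
      = (1 + C.kap - C.defV k j) + qpol A B D 0 0 0 k j + J * (((k + j - L : ℕ)) : ℝ) := by
    intro k j; rw [← hkink k j, hh]; simp only [qpol]; ring
  have hconv : DConv fun k j => qpol A B D J J (1 + C.kap - J * L) k j + h k j := by
    intro k j
    simp only [hg]
    have hdef : ∀ k j, (1 + C.kap - C.defV k j) = (C.tabV k j : ℝ) / E := fun k j => by
      rw [← hF.top, defV, ← sub_div]; simp [hEdef]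
    simp only [hdef, hAdef, hBdef, hDdef, hJdef, qpol]
    rcases Nat.lt_or_ge C.N (k + j) with ho | hi
    · rw [tabV_out hF (show C.N < k + 2 + j by omega), tabV_out hF (show C.N < k + 1 + j by omega),
        tabV_out hF (show C.N < k + (j + 2) by omega),
        tabV_out hF (show C.N < k + (j + 1) by omega),
        tabV_out hF (show C.N < k + 1 + (j + 1) by omega), tabV_out hF ho,
        Nat.cast_sub (show L ≤ k + 2 + j by omega), Nat.cast_sub (show L ≤ k + 1 + j by omega),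
        Nat.cast_sub (show L ≤ k + (j + 2) by omega), Nat.cast_sub (show L ≤ k + (j + 1) by omega),
        Nat.cast_sub (show L ≤ k + 1 + (j + 1) by omega), Nat.cast_sub (show L ≤ k + j by omega)]
      have a1 : (0 : ℝ) ≤ C.D11 / E := by positivity
      have a2 : (0 : ℝ) ≤ C.D12 / E := by positivity
      have a3 : (0 : ℝ) ≤ C.D22 / E := by positivity
      refine ⟨?_, ?_, ?_⟩ <;> push_cast <;> linarith
    · have hc' : C.chkD k j = true := by
        simp only [chkConv, List.all_eq_true, List.mem_range] at hD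
        exact hD k (by omega) j (by omega)
      simp only [chkD, Bool.and_eq_true, Nat.ble_eq] at hc'
      obtain ⟨⟨c1, c2⟩, c3⟩ := hc'
      have z1 : k + 1 + j - L = 0 := by omega
      have z2 : k + (j + 1) - L = 0 := by omega
      have z3 : k + j - L = 0 := by omega
      have hNat : k + 2 + j - L = (if Nat.beq (k + j) C.N then 1 else 0)
          ∧ k + (j + 2) - L = (if Nat.beq (k + j) C.N then 1 else 0)
          ∧ k + 1 + (j + 1) - L = (if Nat.beq (k + j) C.N then 1 else 0) := by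
        by_cases h' : k + j = C.N <;> simp [Nat.beq_eq, h'] <;> omega
      rw [hNat.1, hNat.2.1, hNat.2.2, z1, z2, z3]
      have d1 := div_le_div_of_nonneg_right (Nat.cast_le (α := ℝ).mpr c1) hE.le
      have d2 := div_le_div_of_nonneg_right (Nat.cast_le (α := ℝ).mpr c2) hE.le
      have d3 := div_le_div_of_nonneg_right (Nat.cast_le (α := ℝ).mpr c3) hE.le
      push_cast [add_div, mul_div_assoc] at d1 d2 d3
      split_ifs at d1 d2 d3 ⊢ <;> push_cast [zero_div] at d1 d2 d3 ⊢ <;>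
        refine ⟨?_, ?_, ?_⟩ <;> linarith
  have hsupp : ∀ a c, L ≤ a ∨ L ≤ c → h a c = 0 := by
    intro a c hac
    simp [hh, defV_out hF (show C.N < a + c by omega), show L - (a + c) = 0 by omega]
  have lim := bin_le_poisson hn0 hM hb hMb hsupp hconv
  have hle : ∀ k j, (fun i j => nodeF C.kap C.mu C.nu i j + qpol A B D 0 0 0 i j) k j
      ≤ (fun i j => qpol A B D J J (1 + C.kap - J * L) i j + h i j) k j := by
    intro k j
    simp only [hg]
    have := nodeF_le_tab hF hx hy ht k j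
    have : 0 ≤ J * (((k + j - L : ℕ)) : ℝ) := by positivity
    linarith
  have h1 := le_trans (bin_mono hp hq hpq hle n 0 0) lim
  rw [bin_add, bin_qpol] at h1
  have hsplit : ∑ a ∈ range L, ∑ c ∈ range L, M ^ a / a.factorial * (b ^ c / c.factorial) * h a c
      = -C.hSum M b + J * ∑ i ∈ range L, ((L : ℝ) - i) * ((M + b) ^ i / (i.factorial : ℝ)) := by
    rw [← box_diag, hSum, mul_sum, ← sum_neg_distrib, ← sum_add_distrib]
    refine sum_congr rfl fun a _ => ?_
    rw [mul_sum, ← sum_neg_distrib, ← sum_add_distrib]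
    exact sum_congr rfl fun c _ => by simp only [hh]; ring
  rw [hsplit] at h1
  simp only [qpol, Nat.cast_zero] at h1
  set e := Real.exp (-(M + b)) with he
  have e1 : e * Real.exp (M + b) = 1 := by rw [he, ← Real.exp_add]; simp
  have hkS : kinkS (M + b) L = (M + b - L) * Real.exp (M + b)
      + ∑ i ∈ range L, ((L : ℝ) - i) * ((M + b) ^ i / (i.factorial : ℝ)) := rfl
  have hup : bin (M / n) (b / n) n (fun i j => nodeF C.kap C.mu C.nu i j) 0 0
      ≤ 1 + C.kap + J * (e * kinkS (M + b) L) - e * C.hSum M b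
        + (A * M ^ 2 + 2 * B * (M * b) + D * b ^ 2) / (2 * n) := by
    have hq2 : (n : ℝ) * ((n : ℝ) - 1) / 2
        * (A * (M / n) ^ 2 + 2 * B * (M / n * (b / n)) + D * (b / n) ^ 2)
        = (A * M ^ 2 + 2 * B * (M * b) + D * b ^ 2) / 2
          - (A * M ^ 2 + 2 * B * (M * b) + D * b ^ 2) / (2 * n) := by field_simp
    have hk2 : J * (e * kinkS (M + b) L) = J * (M + b - L)
        + e * (J * ∑ i ∈ range L, ((L : ℝ) - i) * ((M + b) ^ i / (i.factorial : ℝ))) := by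
      rw [hkS]; linear_combination J * (M + b - L) * e1
    linarith
  have hslop : (A * M ^ 2 + 2 * B * (M * b) + D * b ^ 2) / (2 * n) ≤ C.slopR M b := by
    rw [slopR, hAdef, hBdef, hDdef]
    have hd : (0 : ℝ) < C.dR := dR_pos hF
    have hdn : C.dR ≤ n := hn
    calc ((C.D11 : ℝ) / E * M ^ 2 + 2 * ((C.D12 : ℝ) / E) * (M * b)
          + (C.D22 : ℝ) / E * b ^ 2) / (2 * n)
        ≤ ((C.D11 : ℝ) / E * M ^ 2 + 2 * ((C.D12 : ℝ) / E) * (M * b)
          + (C.D22 : ℝ) / E * b ^ 2) / (2 * C.dR) :=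
          div_le_div_of_nonneg_left (by positivity) (by positivity) (by linarith)
      _ = _ := by rw [hEdef]; field_simp
  rcases le_total (C.rhsR X M b - C.slopR M b) (1 + C.kap) with hR | hR
  · have hm := main_ineq hF hv.poly hX0 hlo hhi hM hb hX hR
    rw [← hEdef, ← hJdef] at hm
    have h2 := mul_le_mul_of_nonneg_left hm (show (0 : ℝ) ≤ e from (Real.exp_pos _).le)
    have h3 : e * ((1 + C.kap - (C.rhsR X M b - C.slopR M b)) * Real.exp (M + b)
        + J * kinkS (M + b) L)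
        = 1 + C.kap - (C.rhsR X M b - C.slopR M b) + J * (e * kinkS (M + b) L) := by
      linear_combination (1 + C.kap - (C.rhsR X M b - C.slopR M b)) * e1
    linarith
  · have hm' : C.mu ≤ 1 / 2 := by linarith [hF.hmn, hF.hnu]
    have h2 := bin_mono hp hq hpq (g := qpol 0 0 0 0 0 (1 + C.kap))
      (f := fun i j => nodeF C.kap C.mu C.nu i j)
      (fun k j => by
        simpa [qpol] using nodeF_le hF.hk hF.hmu.le hm' (by linarith [hF.hmn, hF.hmu]) hF.hnu k j)
      n 0 0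
    rw [bin_qpol] at h2
    simp [qpol] at h2
    have := slop_nonneg hF hM hb
    linarith

end Cell

end Window

end Vale.Agent.P154
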