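import Vale.Agent.P154.Window.ScalarPoly

/-!
Data of one cell of the scalar inequality.
-/

namespace Vale.Agent.P154

namespace Window

/-- The data of the cell. -/
def cellR8_0 : Cell where
  t := ⟨1, 10, 17, 48, 1, 4, 233466604682886512640000⟩
  tab :=
    [[0, 30202979683611443200000, 66299481522002895403751, 100092146414959839376998,
  128793437843337789416603, 153047693163818404807008, 173811310905591165227828,
  191400669967298228919258, 206248409269602594497690, 218891766017000553513198,
  229631624738745782919693, 238732129772144581296214, 246486724628239094753634],
    [2340502711945937289216, 32764491342823749570336, 68601393973015747043337, 101988168267261842965183,
  130369316499200766122452, 154389216817187680752937, 174936300666835071901392,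
  192342642377769582857128, 207049252745083823109741, 219568738215137638068307,
  230202483812199292388983, 239218288572751018804754],
    [4686379676940876742801, 35306737067823082770453, 70874484944672382446587, 103863434059129338134111,
  131931603298338845890082, 155717245849402952546240, 176050217899298120937254,
  193276708094574815301266, 207842775646699331516964, 220239510083923753994428,
  230768659034432580750027],
    [7036364740631143315081, 37827802097263695712694, 73118589126080410733454, 105717831617162950441072,
  133479530516404122030848, 157031438282132645193620, 177152852843265727957786,
  194202448249295792639354, 208628722786372369941617, 220903906295731890936297],
    [9388994332538960565576, 40326253537798674720353, 75333863978362736663683, 107551463985957033319455,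
  135012634862693261987231, 158331684557196051431057, 178244170471462673512989,
  195119634178083857706049, 209406991408758310306315],
    [11742699612864256965814, 42801054174276413663507, 77520661483070840624376,
  109364541757269032491199, 136530650519726859678039, 159618008304835501939196,
  179324226428067202718455, 196028151131177146647530],
    [14095886292657588269951, 45251478024964476988150, 79679449268829030792221,
  111157327472602600262857, 138033441490600590304874, 160890509522982244684543,
  180393122572837724941197],
    [16446992749103867635054, 47677040731284243085907, 81810760011465457534307,
  112930106028968935543175, 139520958843543644192983, 162149331439873923755096],
    [18794527129868189265276, 50077445185435846516350, 83915158313259968417628,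
  114683168940639250129355, 140993213420992660241039],
    [21137088442059657641445, 52452539445747409013574, 85993219086293492822721,
  116416806159656593656050],
    [23473376790222774857209, 54802284084617773369107, 88045513715095007679397],
    [25802196610467084085983, 57126726746178662218013],
    [28122455504958041433473]]
  N := 12
  n := 15
  a := 0
  b := 30
  den := 1000
  d0 := 8
  gam := true
  J := 263710800348650099366527
  D11 := 28986790248607116383
  D12 := 405890598710848051401
  D22 := 5091373464578993933642

end Window

end Vale.Agent.P154
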