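import Vale.Agent.P154.Window.ScalarPoly

/-!
Data of one cell of the scalar inequality.
-/

namespace Vale.Agent.P154

namespace Window

/-- The data of the cell. -/
def cellR8_3 : Cell where
  t := ⟨9, 50, 17, 48, 1, 4, 145916627926804070400000000⟩
  tab :=
    [[0, 18876862302257152000000000, 41437175951251809627343813, 62557591509349899610623622,
  80495898652086118385376868, 95654808227386503004379456, 108632069315994478267392118,
  119625418729561393074535719, 128905255793501621561055974, 136807353760625345945748475,
  143519765461716114324807878, 149207581107590363310133236, 154054202892649434221021013,
  158181590981843294441239064, 161690451382148735773401821],
    [4765993104661562341195776, 24215481527352677429913293, 46286531050692432149146290,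
  66577601271567916521709851, 83844792819407227491050637, 98509748289885414601236351,
  111032192287957842804515866, 121637167355304093855794027, 130616211443781266407109308,
  138255600897892115452021153, 144741747520206782816747719, 150248349599822275861682646,
  154938790454183342898065991, 158931508267037167316387873],
    [9608500648514840657300528, 29425435864602166275139327, 50933384165184340071652808,
  70442847181467442633847073, 87089863049888392601079613, 101264868317012487995111350,
  113347729562144994732278858, 123587322213315954832605402, 132271668345218919582761099,
  139655908996803852238157257, 145926965355239620254989270, 151256736494242966073584168,
  155795311161805414402445698],
    [14489763236487594945664881, 34480172900165448593156943, 55383161413261773711481638,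
  74162868402570474005063150, 90225178768359774747243990, 103919454236633522847229997,
  115581597144622859259861006, 125473345611796395710891008, 133870632640379326875610587,
  141009061624539417136460894, 147074108510208316061789924, 152232010559763136661917940],
    [19368724135388020278861712, 39365467259465320919398760, 59649864037472774546312835,
  77746369948988501366022270, 93250918449027463881083917, 106478069632536045921562525,
  117737991242462353583438454, 127296243330771225756086586, 135415277493065772829851528,
  142317214142424591776730288, 148184012798148956700214818],
    [24206637309757373242126576, 44080004745329095339984363, 63747216525760116509562409,
  81200035880184427699204332, 96169849624326731136548380, 108945453443973603768099575,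
  119820287204330950424398569, 129057788446062140509751892, 136907830101987479664130784,
  143582139466637861423763531],
    [28974720245685846390855177, 48627787795252958075494916, 67686939235857969344673044,
  84529345000614952373843995, 98985636262054518029914212, 111325916601652279517403190,
  121831346608502454795149898, 130760008666498333023656275, 138350373819692897366716477],
    [33654115959109554331172752, 53014318863772793659186874, 71478647641038856234813515,
  87739472860523350137844590, 101702143922672250631648113, 113623304473680179325079144,
  123773865581963821079866463, 132404975918241560643475185],
    [38231948716193937991124521, 57245887942082032514905185, 75130353771392715825277329,
  90835341357922335173037503, 104323307840221753251365543, 115841072041423679757971737,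
  125650415866645147291726615],
    [42699449075023500002368740, 61328782234484882102529375, 78649154444468005290433905,
  93821584314793709469068130, 106852953070977586917773443, 117982446341022637991790132],
    [47051365786265484742469383, 65268927018394260678891615, 82041405086507589582830156,
  96702677143553864853828666, 109294705547514292879220606],
    [51284795939777562186780668, 69072064976607169412737755, 85312817191700274858702913,
  99482895090137017532035840],
    [55398374279558603879744237, 72743669131433259218865605, 88468684311436881636420063],
    [59392071164457076162756290, 76288861005079164679017882],
    [63266790996114203517597409]]
  N := 14
  n := 17
  a := 130
  b := 200
  den := 1000
  d0 := 8
  gam := true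
  J := 119128993912390884482402591
  D11 := 202501984948714599295959
  D12 := 829345337222605610716248
  D22 := 3182108415361871208526563

end Window

end Vale.Agent.P154
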