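import Vale.Agent.P154.Window.ScalarPoly

/-!
Data of one cell of the scalar inequality.
-/

namespace Vale.Agent.P154

namespace Window

/-- The data of the cell. -/
def cellR8_4 : Cell where
  t := ⟨11, 50, 17, 48, 1, 4, 145916627926804070400000000⟩
  tab :=
    [[0, 18876862302257152000000000, 41437175951251809627343813, 62557591509349899610623622,
  80495898652086118385376868, 95654808227386503004379456, 108632069315994478267392118,
  119625418729561393074535719, 128905255793501621561055974, 136807353760625345945748475,
  143519765461716114324807878, 149207581107590363310133236, 154054202892649434221021013,
  158181590981843294441239064, 161690451382148735773401821],
    [7147819405636370543149056, 26987695310598479383832018, 48847789469344149519465888,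
  68725699332012525134360482, 85643802926035110496243306, 100046526783640764796612976,
  112329510563884106913130562, 122727350403049821319603681, 131543798731400193443044321,
  139042409187568480537100587, 145406651720751225423751050, 150814691705968412953216210,
  155420743668110742273264491, 159340504734249695495306117],
    [14527871683509736344230535, 34812116409870132178545433, 55792884069226707866987642,
  74527889113857110114010044, 90540421354318135264667940, 104200958441216536375720549,
  115823619092305721513608014, 125678685871335367900360345, 134048562898946707143940991,
  141161283414886320959291891, 147203323795910267182695580, 152343163937249430144026640,
  156718925179951158414500478],
    [21983321227773658857712666, 42274720213808082983367216, 62300643334031667324170775,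
  80007343828457191414923137, 95179585181471326552215289, 108123525471484603397987350,
  119131901380907926701045424, 128479248083231362499918490, 136421591472687399154144250,
  143171591744657535495993398, 148910411046573314025753218, 153794074141833802000477763],
    [29368638589434096174083182, 49343092457489966029411219, 68423179409403367418838870,
  85189080439689342248285332, 99567130417055773242071812, 111832755003557219322003529,
  122267171730266033826359332, 131134479901421105482399217, 138671741910709868237524578,
  145080177019587443331267908, 150531633635242062737098312],
    [36566318118424233642498993, 56033478434839274647577611, 74199780613429409295804227,
  90089495835481533114851244, 103717409492773119484069091, 115344136043194990127892424,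
  125238822432460580001501593, 133652183522061882517699995, 140806648271428636828587353,
  146892323655071250411863596],
    [43517390481191359385676409, 62370201905933685466613227, 79657443633834592391934484,
  94724615036347095348505061, 107645474058346137746423265, 118670019480903490398457327,
  128055756114118997322151832, 136040244398483223287557186, 142832803467312231991017039],
    [50200084638685630624076095, 68372138921759508920627493, 84818162480906725573266278,
  99110877774560125320143376, 111364685283925787662726436, 121821419177712007887758337,
  130726778635458207164211631, 138305887721113811902813776],
    [56600647831882885892049254, 74058874369997232550364622, 89701014853184320887368590,
  103263452695371402918235691, 114887602528218665193502965, 124808414715607355129816844,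
  133260150456699539592056005],
    [62714175995512835610162699, 79448765885781057656836200, 94323634997234665934799454,
  107196083587825370897485873, 118225865621701649642230185, 127640500352654077500172233],
    [68545750290416340440863900, 84557811871522714163802708, 98701918910241663502487320,
  110921905775283416385972368, 121390068522907588464191360],
    [74101793469069471979338524, 89402022778816155117166538, 102850086317021955262397474,
  114453059447891942199930164],
    [79389884348115825500750216, 93996223217683246082082892, 106781722564345095515369941],
    [84420843465635282036614216, 98353726922923258106402572],
    [89205281867649117150237415]]
  N := 14
  n := 17
  a := 200
  b := 350
  den := 1000
  d0 := 8
  gam := true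
  J := 93190503040855970849762585
  D11 := 465518918209781544600321
  D12 := 1242505695429714368385215
  D22 := 3182108415361871208526563

end Window

end Vale.Agent.P154
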