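import Vale.Agent.P154.Window.ScalarPoly

/-!
Data of one cell of the scalar inequality.
-/

namespace Vale.Agent.P154

namespace Window

/-- The data of the cell. -/
def cellR8_5 : Cell where
  t := ⟨13, 50, 17, 48, 1, 4, 145916627926804070400000000⟩
  tab :=
    [[0, 18876862302257152000000000, 41437175951251809627343813, 62557591509349899610623622,
  80495898652086118385376868, 95654808227386503004379456, 108632069315994478267392118,
  119625418729561393074535719, 128905255793501621561055974, 136807353760625345945748475,
  143519765461716114324807878, 149207581107590363310133236, 154054202892649434221021013,
  158181590981843294441239064, 161690451382148735773401821],
    [10030665040260653201227776, 30419232806200588849045775, 52049783927425351270985667,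
  71432896856324388157843342, 87921839850612089425359979, 101994809162020800707039631,
  113978331825468021315913444, 124116197010859126776495514, 132725836217325560892244495,
  140046202254158067097248489, 146256137313354322068162816, 151538304501125533480376182,
  156036922804880098103884078, 159863905076938886140742743],
    [20659792197841771012254538, 41417354085683721490686061, 61734055182360738967538193,
  79558697756425078799667397, 94817287013321581022250188, 107841972995774843784299019,
  118899453589546038218751337, 128285490708631679009032392, 136264407154883697531487850,
  143039761844216887290507121, 148799195480755543389407103, 153702030358261349268604092,
  157874485118966148190983066],
    [31360062752811901190275914, 51673355936976256977724737, 70580905402519042690320911,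
  87062341397886892583083769, 101189613241045769988245428, 113223634917244852908455158,
  123451997580302687608946963, 132147118896069966816246530, 139535050959490460760550966,
  145815070042049449792995118, 151158963162393904133085763, 155707176165432148804269806],
    [41736796098961251220675513, 61138021961441208392865285, 78728050988118951387528314,
  93996206451281781425487877, 107062486786093194113053588, 118194623745108843060273504,
  127666123547738145042863599, 135718255374939196998720901, 142564382987998570449190050,
  148389088887448581889562383, 153346415008484890657192103],
    [51549098500693352260037973, 69891666681089828000920501, 86254139725094739942231387,
  100392692947204936378219185, 112485360077817913423521352, 122792898205907504206966459,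
  131563944323954328476755068, 139024557806512286576603522, 145372547826077359636456583,
  150775267571414034289733888],
    [60752521833664901805708990, 78003048745283134890807679, 93201804489123443420462259,
  106299718862309077848069179, 117499797938380755419370821, 127045625428723824671071480,
  135171778893273164481826261, 142088213354711874880851601, 147975435425862439572889002],
    [69364515050526725553975311, 85507539123690938049951259, 99621249433481864777239409,
  111761578928275055267985825, 122136900970080061678424671, 130981198518120686756195491,
  138513744966122857130980758, 144927340877860157102417823],
    [77384143622789530993566654, 92452861672416129583102612, 105559059536275500343911512,
  116812757244637733092079585, 126427597814399328741167656, 134625819861016689557034036,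
  141610167491237158879219363],
    [84836146267112307447884824, 98886408427756581823864488, 111052117165150479368762959,
  121486554496920699430739058, 130400512791716100406355060, 138002023876063924680009733],
    [91763370967626276447165401, 104843395832528049541520232, 116136219224536085700553837,
  125814086661972354327343219, 134080315908869364966690708],
    [98193474409575543339132748, 110360810671430487645158918, 120844555705469317332845070,
  129822272854517702793351119],
    [104157515186224379198995407, 115474138692103929670109363, 125205981291651375506659590],
    [109693370349984824295947599, 120212521907806507110579906],
    [114829220902319710678612713]]
  N := 14
  n := 17
  a := 350
  b := 600
  den := 1000
  d0 := 8
  gam := false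
  J := 67566564006185377321387287
  D11 := 928336721238153947089328
  D12 := 1737302629199053096422134
  D22 := 3182108415361871208526563

end Window

end Vale.Agent.P154
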