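import Vale.Agent.P154.Window.ScalarPoly

/-!
Data of one cell of the scalar inequality.
-/

namespace Vale.Agent.P154

namespace Window

/-- The data of the cell. -/
def cellR8_6 : Cell where
  t := ⟨17, 50, 17, 48, 1, 4, 145916627926804070400000000⟩
  tab :=
    [[0, 18876862302257152000000000, 41437175951251809627343813, 62557591509349899610623622,
  80495898652086118385376868, 95654808227386503004379456, 108632069315994478267392118,
  119625418729561393074535719, 128905255793501621561055974, 136807353760625345945748475,
  143519765461716114324807878, 149207581107590363310133236, 154054202892649434221021013],
    [17355446295581534648795136, 39490804384726944699526466, 60675315955863023084149515,
  78850396145402241005833342, 94236845918600676534750945, 107411561658906865389083332,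
  118583593300262740825536770, 128017626944464044220752382, 136049886625709808772315926,
  142874328286889397575134366, 148657690932996794051931495, 153585106767321307147298796],
    [37591561994576155774339744, 58794557713449176332961395, 77188731604305616754505413,
  92800313136035463356713094, 106173746763341105734130789, 117525948035475915619716485,
  127115988611596912509558939, 135280322769407865719392280, 142218453852698515333783342,
  148098816299963154728379846, 153108331362065270808405013],
    [56919406905192852628961962, 75512675370531220563996352, 91345607574132932886172304,
  104918596356715180495092891, 116452384185853445719150787, 126200196252697634188651626,
  134498499818583768965390167, 141551994708262511200856996, 147530824035176557335874106,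
  152623756396341569427423623],
    [73824209880982386418085586, 89873263600467189677759693, 103646131243656364955377847,
  115362819258268359210990158, 125270113582239173238631929, 133704259000289079249218457,
  140874804180415557338154047, 146953580756311385637863137, 152131260952061290812703788],
    [88383958689169798521853360, 102356427401219041052972942, 114257189680504454570700614,
  124325613273731144821852706, 132897445361590785339470455, 140186736532791612088937399,
  146366952909492070246724835, 151630723454467733310650987],
    [101049622384152956371167470, 113135453738824756743945892, 123366577951205331304828117,
  132077908070548154858468279, 139487647167609127838368788, 145770806842337481570709898,
  151122021669620797142481017],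
    [111997594742129062993222692, 122392901471857573026792360, 131245500801050397723687777,
  138777392868312469791503291, 145165008910614624563248741, 150605032717118195720280374],
    [121404490494540584430882851, 130400082209278244019155133, 138055832080939121723641171,
  144549425617721658053714923, 150079633097033166786700980],
    [129541516514327387939755802, 137322825231510064726917149, 143923923787431799211997875,
  149545698730288686319513440],
    [136578235076172445625573151, 143288370771441962584191153, 149003105011918968288683403],
    [142642634694143323839979906, 148451726876982413293009022],
    [147891438879363147494451669]]
  N := 12
  n := 15
  a := 600
  b := 1000
  den := 1000
  d0 := 8
  gam := false
  J := 34504346029141940505548331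
  D11 := 2724724356168619786449804
  D12 := 2945335368558872061595982
  D22 := 3182108415361871208526563

end Window

end Vale.Agent.P154
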