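import Vale.Agent.P154.Window.ScalarCell

/-!
The scalar inequality for a small fixed number of children: an exact binomial polynomial.
-/

namespace Vale.Agent.P154

namespace Window

open Finset

/-- Powers of a rational expression. -/
def rpw (e : RE) : ℕ → RE
  | 0 => .q 1 1
  | n + 1 => rpw e n * e

lemma ev_rpw (z : ℕ → ℝ) (e : RE) : ∀ n, RE.ev z (rpw e n) = RE.ev z e ^ n
  | 0 => by simp [rpw, RE.ev]
  | n + 1 => by simp [rpw, ev_rpw z e n, pow_succ]

/-- Sum of a list of rational expressions. -/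
def sumR : List RE → RE
  | [] => .q 0 1
  | a :: l => a + sumR l

lemma ev_sumR (z : ℕ → ℝ) (f : ℕ → RE) : ∀ n : ℕ,
    RE.ev z (sumR ((List.range n).map f)) = ∑ i ∈ range n, RE.ev z (f i) := by
  have key : ∀ l : List ℕ, RE.ev z (sumR (l.map f)) = (l.map fun i => RE.ev z (f i)).sum := by
    intro l
    induction l with
    | nil => simp [sumR, RE.ev]
    | cons a l ih => simp [sumR, ih]
  intro n
  rw [key]; rfl

namespace Cell

variable (C : Cell)

/-- One term of the binomial expectation, per unit moment. -/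
def binTerm (k j : ℕ) : RE :=
  if k + j = 0 ∨ C.N < k + j then .q 0 1
  else .q ((C.N.choose k * (C.N - k).choose j * C.tabV k j : ℕ) : ℤ) (C.t.E * C.N ^ (k + j))
    * (rpw xv (k + j - 1) * (rpw zv k * (rpw yv j
      * rpw (.q 1 1 + .q (-1) C.N * tv) (C.N - k - j))))

/-- The binomial expectation, per unit moment. -/
def binX : RE :=
  sumR ((List.range (C.N + 1)).map fun k => sumR ((List.range (C.N + 1)).map fun j => C.binTerm k j))

/-- The polynomial of a cell with a fixed number of children. -/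
def polyB : RE := C.rH + .q (-1) 1 * C.binX

/-- The test of the polynomial. -/
def chkPolyB (bits r : ℕ) : Bool := chkREr bits r D1 D2 C.env C.polyB

/-- All the tests of a cell with a fixed number of children. -/
structure ValidB (C : Cell) : Prop where
  shape : C.chkShape = true
  count : C.N = C.d0 ∧ C.dd = 1
  poly : ∃ bits r, C.chkPolyB bits r = true
  table : ∃ lxs lys, chainL srt (cntL srt 0) lxs = true ∧ chainL id (cntL id 0) lys = true
    ∧ chkTab C.t lys 0 C.tab lxs = true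

variable {C}

lemma ev_binX (hF : Facts C) (z : ℕ → ℝ) :
    z 0 * RE.ev z C.binX = bin (z 0 * z 1 / C.N) (z 0 * z 2 / C.N) C.N
      (fun i j => (C.tabV i j : ℝ) / C.t.E) 0 0 := by
  rw [bin_sum _ _ C.N _ (C.N + 1) (Nat.lt_succ_self _), binX, ev_sumR, mul_sum]
  refine sum_congr rfl fun k _ => ?_
  rw [ev_sumR, mul_sum]
  refine sum_congr rfl fun j _ => ?_
  simp only [binTerm]
  split_ifs with h
  · rcases h with h | h
    · obtain ⟨rfl, rfl⟩ : k = 0 ∧ j = 0 := by omega
      simp [RE.ev, hF.t00]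
    · simp [RE.ev, bw_zero h]
  · simp only [RE.ev_mul, RE.ev_add, ev_rpw, RE.ev, tv, xv, zv, yv, bw]
    obtain ⟨m, hm⟩ : ∃ m, k + j = m + 1 := ⟨k + j - 1, by omega⟩
    have hp : z 0 * z 0 ^ m = z 0 ^ k * z 0 ^ j := by rw [← pow_add, hm, pow_succ']
    rw [hm, Nat.add_sub_cancel, div_pow, div_pow, mul_pow, mul_pow,
      show (C.N : ℕ) ^ (m + 1) = C.N ^ k * C.N ^ j by rw [← pow_add, hm]]
    push_cast
    rw [show (1 : ℝ) / 1 + -1 / (C.N : ℝ) * (z 0 * (z 1 + z 2))
      = 1 - z 0 * z 1 / C.N - z 0 * z 2 / C.N by ring]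
    generalize (1 - z 0 * z 1 / (C.N : ℝ) - z 0 * z 2 / C.N) ^ (C.N - k - j) = W
    calc z 0 * ((((C.N.choose k : ℝ) * ((C.N - k).choose j) * (C.tabV k j)))
          / ((C.t.E : ℝ) * ((C.N : ℝ) ^ k * (C.N : ℝ) ^ j))
          * (z 0 ^ m * (z 1 ^ k * (z 2 ^ j * W))))
        = ((C.N.choose k : ℝ) * ((C.N - k).choose j) * (C.tabV k j))
          / ((C.t.E : ℝ) * ((C.N : ℝ) ^ k * (C.N : ℝ) ^ j))
          * ((z 0 * z 0 ^ m) * (z 1 ^ k * (z 2 ^ j * W))) := by ring
      _ = _ := by rw [hp]; ring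

/-- The inequality in a cell with a fixed number of children. -/
theorem cell_fixed (hv : C.ValidB) {X M b wl Qs c : ℝ} (hX0 : 0 < X) (hlo : C.lo ≤ X)
    (hhi : X ≤ C.hi) (hM : 0 ≤ M) (hb : 0 ≤ b) (hX : C.mu ^ 2 * M + C.nu ^ 2 * b = X)
    (hMb : M + b ≤ C.N) (hL : Lin C.N C.mu C.nu M b wl Qs)
    (hQ : Qs ≤ C.mu ^ 4 * M + C.nu ^ 4 * b) (hc : cX X ≤ c) (hc1 : c ≤ 1) :
    bin (M / C.N) (b / C.N) C.N (fun i j => nodeF C.kap C.mu C.nu i j) 0 0
      ≤ X + C.kap * (c * (C.mu ^ 4 * M + C.nu ^ 4 * b) + ((C.N : ℝ) - c) * Qs)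
        - X ^ 2 / 100 := by
  have hF := C.facts hv.shape
  obtain ⟨lxs, lys, hx, hy, ht⟩ := hv.table
  refine le_trans ?_ (rhs_le hF hX0.le hhi (by rw [Cell.dR, hv.count.1, hv.count.2, Nat.cast_one, div_one]) hL hQ hc hc1)
  have hN : (0 : ℝ) < C.N := by
    have h1 := hv.count.1; have h2 := hF.hd0; exact_mod_cast (show 0 < C.N by omega)
  have hpq : M / (C.N : ℝ) + b / C.N ≤ 1 := by rw [← add_div, div_le_one hN]; exact hMb
  have h1 : bin (M / C.N) (b / C.N) C.N (fun i j => nodeF C.kap C.mu C.nu i j) 0 0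
      ≤ bin (M / C.N) (b / C.N) C.N (fun i j => (C.tabV i j : ℝ) / C.t.E) 0 0 := by
    refine bin_mono (by positivity) (by positivity) hpq (fun k j => ?_) _ 0 0
    have := nodeF_le_tab hF hx hy ht k j
    rw [← hF.top, defV, ← sub_div, sub_sub_cancel] at this
    exact this
  refine le_trans h1 ?_
  obtain ⟨bits, r, hp⟩ := hv.poly
  have h := poly_nonneg hF (e := C.polyB) (fun _ a b c d _ g => chkREr_sound hp a b c d g)
    hlo hhi (u := M / X) (w := b / X)
    (by positivity) (by positivity) (by field_simp; linarith)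
  set z : ℕ → ℝ := fun i => if i = 0 then X else if i = 1 then M / X else if i = 2 then b / X
    else 0 with hz
  have key := mul_nonneg (show 0 ≤ z 0 from hX0.le) h
  have e1 : z 0 * z 1 = M := by simp only [hz]; simp; field_simp
  have e2 : z 0 * z 2 = b := by simp only [hz]; simp; field_simp
  have e : z 0 * RE.ev z C.polyB = z 0 * RE.ev z C.rH - z 0 * RE.ev z C.binX := by
    simp only [polyB, RE.ev_add, RE.ev_mul, RE.ev]; push_cast; ring
  rw [e, ev_rH hF z, ev_binX hF z, e1, e2] at key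
  have hz0 : z 0 = X := rfl
  rw [hz0] at key
  have := slop_nonneg hF hM hb
  linarith

end Cell

end Window

end Vale.Agent.P154
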