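import Vale.Agent.P154.Window.ScalarDataFixed
import Vale.Agent.P154.Window.ScalarFixed
import Vale.Agent.P154.Window.ScalarLists
import Vale.Agent.P154.Window.ScalarMain

/-!
The scalar inequality for four to seven children.
-/

namespace Vale.Agent.P154

namespace Window

theorem cellB4_0_shape : cellB4_0.chkShape = true := by decide +kernel

theorem cellB4_0_poly : cellB4_0.chkPolyB 160 5 = true := by decide +kernel

theorem cellB4_0_table : chkTab cellB4_0.t lysData 0 cellB4_0.tab lxsData = true := by decide +kernel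

theorem cellB4_0_valid : cellB4_0.ValidB :=
  ⟨cellB4_0_shape, ⟨rfl, rfl⟩, ⟨160, 5, cellB4_0_poly⟩, ⟨lxsData, lysData, lxsData_ok, lysData_ok, cellB4_0_table⟩⟩

theorem cellB5_0_shape : cellB5_0.chkShape = true := by decide +kernel

theorem cellB5_0_poly : cellB5_0.chkPolyB 189 5 = true := by decide +kernel

theorem cellB5_0_table : chkTab cellB5_0.t lysData 0 cellB5_0.tab lxsData = true := by decide +kernel

theorem cellB5_0_valid : cellB5_0.ValidB :=
  ⟨cellB5_0_shape, ⟨rfl, rfl⟩, ⟨189, 5, cellB5_0_poly⟩, ⟨lxsData, lysData, lxsData_ok, lysData_ok, cellB5_0_table⟩⟩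

theorem cellB5_1_shape : cellB5_1.chkShape = true := by decide +kernel

theorem cellB5_1_poly : cellB5_1.chkPolyB 249 5 = true := by decide +kernel

theorem cellB5_1_table : chkTab cellB5_1.t lysData 0 cellB5_1.tab lxsData = true := by decide +kernel

theorem cellB5_1_valid : cellB5_1.ValidB :=
  ⟨cellB5_1_shape, ⟨rfl, rfl⟩, ⟨249, 5, cellB5_1_poly⟩, ⟨lxsData, lysData, lxsData_ok, lysData_ok, cellB5_1_table⟩⟩

theorem cellB6_0_shape : cellB6_0.chkShape = true := by decide +kernel

theorem cellB6_0_poly : cellB6_0.chkPolyB 230 5 = true := by decide +kernel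

theorem cellB6_0_table : chkTab cellB6_0.t lysData 0 cellB6_0.tab lxsData = true := by decide +kernel

theorem cellB6_0_valid : cellB6_0.ValidB :=
  ⟨cellB6_0_shape, ⟨rfl, rfl⟩, ⟨230, 5, cellB6_0_poly⟩, ⟨lxsData, lysData, lxsData_ok, lysData_ok, cellB6_0_table⟩⟩

theorem cellB6_1_shape : cellB6_1.chkShape = true := by decide +kernel

theorem cellB6_1_poly : cellB6_1.chkPolyB 311 10 = true := by decide +kernel

theorem cellB6_1_table : chkTab cellB6_1.t lysData 0 cellB6_1.tab lxsData = true := by decide +kernel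

theorem cellB6_1_valid : cellB6_1.ValidB :=
  ⟨cellB6_1_shape, ⟨rfl, rfl⟩, ⟨311, 10, cellB6_1_poly⟩, ⟨lxsData, lysData, lxsData_ok, lysData_ok, cellB6_1_table⟩⟩

theorem cellB6_2_shape : cellB6_2.chkShape = true := by decide +kernel

theorem cellB6_2_poly : cellB6_2.chkPolyB 294 5 = true := by decide +kernel

theorem cellB6_2_table : chkTab cellB6_2.t lysData 0 cellB6_2.tab lxsData = true := by decide +kernel

theorem cellB6_2_valid : cellB6_2.ValidB :=
  ⟨cellB6_2_shape, ⟨rfl, rfl⟩, ⟨294, 5, cellB6_2_poly⟩, ⟨lxsData, lysData, lxsData_ok, lysData_ok, cellB6_2_table⟩⟩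

theorem cellB6_3_shape : cellB6_3.chkShape = true := by decide +kernel

theorem cellB6_3_poly : cellB6_3.chkPolyB 268 5 = true := by decide +kernel

theorem cellB6_3_table : chkTab cellB6_3.t lysData 0 cellB6_3.tab lxsData = true := by decide +kernel

theorem cellB6_3_valid : cellB6_3.ValidB :=
  ⟨cellB6_3_shape, ⟨rfl, rfl⟩, ⟨268, 5, cellB6_3_poly⟩, ⟨lxsData, lysData, lxsData_ok, lysData_ok, cellB6_3_table⟩⟩

theorem cellB7_0_shape : cellB7_0.chkShape = true := by decide +kernel

theorem cellB7_0_poly : cellB7_0.chkPolyB 276 5 = true := by decide +kernel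

theorem cellB7_0_table : chkTab cellB7_0.t lysData 0 cellB7_0.tab lxsData = true := by decide +kernel

theorem cellB7_0_valid : cellB7_0.ValidB :=
  ⟨cellB7_0_shape, ⟨rfl, rfl⟩, ⟨276, 5, cellB7_0_poly⟩, ⟨lxsData, lysData, lxsData_ok, lysData_ok, cellB7_0_table⟩⟩

theorem cellB7_1_shape : cellB7_1.chkShape = true := by decide +kernel

theorem cellB7_1_poly : cellB7_1.chkPolyB 311 5 = true := by decide +kernel

theorem cellB7_1_table : chkTab cellB7_1.t lysData 0 cellB7_1.tab lxsData = true := by decide +kernel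

theorem cellB7_1_valid : cellB7_1.ValidB :=
  ⟨cellB7_1_shape, ⟨rfl, rfl⟩, ⟨311, 5, cellB7_1_poly⟩, ⟨lxsData, lysData, lxsData_ok, lysData_ok, cellB7_1_table⟩⟩

/-- A cell with a fixed number of children supplies the nodes. -/
lemma fixed_of_cell {C : Cell} (hv : C.ValidB) (h1 : C.t.cn = 1) (h2 : C.t.cd = 4) {n : ℕ}
    (h3 : C.N = n) (hnu : 1 ≤ (n : ℝ) * C.nu ^ 2) {X : ℝ} (hX0 : 0 < X) (hlo : C.lo ≤ X)
    (hhi : X ≤ C.hi) : Scal (1 / 4) (1 / 4) n (fun σ ν => binSum (1 / 4) σ ν n) (1 / 100) X := by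
  subst h3
  have hF := C.facts hv.shape
  refine ⟨C.mu, C.nu, hF.hmu, hF.hmn, hF.hnu, Or.inl hnu, ?_⟩
  intro M b wl Qs c hb hwl hwlM hX hMb hL hQ hc hc1
  have h := Cell.cell_fixed hv hX0 hlo hhi (le_trans hwl hwlM) hb hX hMb hL hQ hc hc1
  rw [Cell.kap_quarter h1 h2] at h
  simp only [binSum_eq]
  linarith

/-- The scalar contraction inequality for four children. -/
theorem scalar_regular_four {X : ℝ} (hX0 : 0 < X) (hX1 : X ≤ 1 / 25) :
    Scal (1 / 4) (1 / 4) 4 (fun σ ν => binSum (1 / 4) σ ν 4) (1 / 100) X := by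
  have h := fixed_of_cell (n := 4) cellB4_0_valid rfl rfl rfl (by norm_num [cellB4_0, Cell.nu, TPar.nu]) hX0
      (by norm_num [cellB4_0, Cell.lo]; linarith) (by norm_num [cellB4_0, Cell.hi]; linarith)
  rwa [show ((4 : ℕ) : ℝ) = 4 by norm_num] at h

/-- The scalar contraction inequality for five children. -/
theorem scalar_regular_five {X : ℝ} (hX0 : 0 < X) (hX1 : X ≤ 2 / 25) :
    Scal (1 / 4) (1 / 4) (5 : ℕ) (fun σ ν => binSum (1 / 4) σ ν 5) (1 / 100) X := by
  rcases le_or_gt X (60 / 1000) with h0 | h0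
  · exact fixed_of_cell cellB5_0_valid rfl rfl rfl (by norm_num [cellB5_0, Cell.nu, TPar.nu]) hX0
      (by norm_num [cellB5_0, Cell.lo]; linarith) (by norm_num [cellB5_0, Cell.hi]; linarith)
  exact fixed_of_cell cellB5_1_valid rfl rfl rfl (by norm_num [cellB5_1, Cell.nu, TPar.nu]) hX0
      (by norm_num [cellB5_1, Cell.lo]; linarith) (by norm_num [cellB5_1, Cell.hi]; linarith)

/-- The scalar contraction inequality for six children. -/
theorem scalar_regular_six {X : ℝ} (hX0 : 0 < X) (hX1 : X ≤ 1) :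
    Scal (1 / 4) (1 / 4) (6 : ℕ) (fun σ ν => binSum (1 / 4) σ ν 6) (1 / 100) X := by
  rcases le_or_gt X (100 / 1000) with h0 | h0
  · exact fixed_of_cell cellB6_0_valid rfl rfl rfl (by norm_num [cellB6_0, Cell.nu, TPar.nu]) hX0
      (by norm_num [cellB6_0, Cell.lo]; linarith) (by norm_num [cellB6_0, Cell.hi]; linarith)
  rcases le_or_gt X (200 / 1000) with h1 | h1
  · exact fixed_of_cell cellB6_1_valid rfl rfl rfl (by norm_num [cellB6_1, Cell.nu, TPar.nu]) hX0
      (by norm_num [cellB6_1, Cell.lo]; linarith) (by norm_num [cellB6_1, Cell.hi]; linarith)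
  rcases le_or_gt X (700 / 1000) with h2 | h2
  · exact fixed_of_cell cellB6_2_valid rfl rfl rfl (by norm_num [cellB6_2, Cell.nu, TPar.nu]) hX0
      (by norm_num [cellB6_2, Cell.lo]; linarith) (by norm_num [cellB6_2, Cell.hi]; linarith)
  exact fixed_of_cell cellB6_3_valid rfl rfl rfl (by norm_num [cellB6_3, Cell.nu, TPar.nu]) hX0
      (by norm_num [cellB6_3, Cell.lo]; linarith) (by norm_num [cellB6_3, Cell.hi]; linarith)

/-- The scalar contraction inequality for seven children. -/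
theorem scalar_regular_seven {X : ℝ} (hX0 : 0 < X) (hX1 : X ≤ 1) :
    Scal (1 / 4) (1 / 4) (7 : ℕ) (fun σ ν => binSum (1 / 4) σ ν 7) (1 / 100) X := by
  rcases le_or_gt X (200 / 1000) with h0 | h0
  · exact fixed_of_cell cellB7_0_valid rfl rfl rfl (by norm_num [cellB7_0, Cell.nu, TPar.nu]) hX0
      (by norm_num [cellB7_0, Cell.lo]; linarith) (by norm_num [cellB7_0, Cell.hi]; linarith)
  exact fixed_of_cell cellB7_1_valid rfl rfl rfl (by norm_num [cellB7_1, Cell.nu, TPar.nu]) hX0
      (by norm_num [cellB7_1, Cell.lo]; linarith) (by norm_num [cellB7_1, Cell.hi]; linarith)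

end Window

end Vale.Agent.P154
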