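import Vale.Agent.P154.Window.Node
import Mathlib.Data.Nat.Cast.Order.Ring
import Mathlib.Tactic.FieldSimp
import Mathlib.Tactic.Positivity

/-!
Rational upper bounds for the potential of several copies of two reference children, through the
composition lists of the observed symbols.
-/

namespace Vale.Agent.P154

namespace Window

/-- Numbers of the three symbols. -/
abbrev Cnt := ℕ × ℕ × ℕ

/-- One more copy of the symbol `s`. -/
def bump : Cnt → Fin 3 → Cnt
  | (a, b, c), s => (if s = 0 then a + 1 else a, if s = 1 then b + 1 else b,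
      if s = 2 then c + 1 else c)

/-- The decreasing rearrangement. -/
def srt : Cnt → Cnt
  | (a, b, c) =>
    if b ≤ a then (if c ≤ b then (a, b, c) else if c ≤ a then (a, c, b) else (c, a, b))
    else (if c ≤ a then (b, a, c) else if c ≤ b then (b, c, a) else (c, b, a))

/-- Insert with a multiplicity. -/
def ins (r : Cnt) (m : ℕ) : List (Cnt × ℕ) → List (Cnt × ℕ)
  | [] => [(r, m)]
  | e :: l => if Nat.beq r.1 e.1.1 && (Nat.beq r.2.1 e.1.2.1 && Nat.beq r.2.2 e.1.2.2)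
      then (e.1, m + e.2) :: l else e :: ins r m l

/-- One more observed symbol. -/
def stepL (nf : Cnt → Cnt) : List (Cnt × ℕ) → List (Cnt × ℕ)
  | [] => []
  | e :: l => ins (nf (bump e.1 0)) e.2 (ins (nf (bump e.1 1)) e.2
      (ins (nf (bump e.1 2)) e.2 (stepL nf l)))

/-- The compositions of `k` observed symbols. -/
def cntL (nf : Cnt → Cnt) : ℕ → List (Cnt × ℕ)
  | 0 => [((0, 0, 0), 1)]
  | k + 1 => stepL nf (cntL nf k)

/-- Weighted sum over a list of compositions. -/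
def sumL (φ : Cnt → ℝ) : List (Cnt × ℕ) → ℝ
  | [] => 0
  | e :: l => (e.2 : ℝ) * φ e.1 + sumL φ l

lemma sumL_ins (φ : Cnt → ℝ) (r : Cnt) (m : ℕ) :
    ∀ l, sumL φ (ins r m l) = (m : ℝ) * φ r + sumL φ l
  | [] => by simp [ins, sumL]
  | e :: l => by
    simp only [ins]
    split_ifs with h
    · simp only [Bool.and_eq_true, Nat.beq_eq] at h
      have : r = e.1 := Prod.ext h.1 (Prod.ext h.2.1 h.2.2)
      subst this
      simp only [sumL]; push_cast; ring
    · simp only [sumL, sumL_ins φ r m l]; ring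

lemma sumL_step (nf : Cnt → Cnt) (φ : Cnt → ℝ) (h : ∀ r, φ (nf r) = φ r) :
    ∀ l, sumL φ (stepL nf l)
      = sumL (fun r => φ (bump r 0) + φ (bump r 1) + φ (bump r 2)) l
  | [] => rfl
  | e :: l => by simp only [stepL, sumL, sumL_ins, h, sumL_step nf φ h l]; ring

/-- Likelihood of the symbols for the first root colour, and so on. -/
def rowC (lo hi : ℝ) : Cnt → Fin 3 → ℝ
  | (a, b, c) => ![lo ^ a * hi ^ (b + c), lo ^ b * hi ^ (a + c), lo ^ c * hi ^ (a + b)]

/-- A function of three colours not depending on their order. -/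
def Sym3 (g : ℝ → ℝ → ℝ → ℝ) : Prop := ∀ a b c, g b a c = g a b c ∧ g a c b = g a b c

lemma sym3_perm {g : ℝ → ℝ → ℝ → ℝ} (h : Sym3 g) (a b c : ℝ) :
    g b a c = g a b c ∧ g a c b = g a b c ∧ g c a b = g a b c ∧ g b c a = g a b c
      ∧ g c b a = g a b c :=
  ⟨(h a b c).1, (h a b c).2, ((h a c b).1).trans (h a b c).2, ((h b a c).2).trans (h a b c).1,
    ((h b c a).1).trans (((h b a c).2).trans (h a b c).1)⟩

lemma rowC_srt (lo hi : ℝ) {g : ℝ → ℝ → ℝ → ℝ} (h : Sym3 g) :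
    ∀ r, row g (rowC lo hi (srt r)) = row g (rowC lo hi r)
  | (a, b, c) => by
    obtain ⟨p1, p2, p3, p4, p5⟩ := sym3_perm h (lo ^ a * hi ^ (b + c)) (lo ^ b * hi ^ (a + c))
      (lo ^ c * hi ^ (a + b))
    simp only [srt]
    split_ifs <;> simp [row, rowC, add_comm a c, add_comm a b, add_comm b c] at * <;> assumption

/-- The sum over the symbols of one more reference child. -/
noncomputable def addC (mu : ℝ) (g : ℝ → ℝ → ℝ → ℝ) (a b c : ℝ) : ℝ :=
  ∑ s, g (node mu s 0 * a) (node mu s 1 * b) (node mu s 2 * c)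

lemma addC_eq (mu : ℝ) (g : ℝ → ℝ → ℝ → ℝ) (a b c : ℝ) :
    addC mu g a b c = g ((1 - 2 * mu) / 3 * a) ((1 + mu) / 3 * b) ((1 + mu) / 3 * c)
      + g ((1 + mu) / 3 * a) ((1 - 2 * mu) / 3 * b) ((1 + mu) / 3 * c)
      + g ((1 + mu) / 3 * a) ((1 + mu) / 3 * b) ((1 - 2 * mu) / 3 * c) := by
  simp only [addC, Fin.sum_univ_three, node_eq, Fin.isValue, ↓reduceIte,
    show (1 : Fin 3) ≠ 0 by decide, show (0 : Fin 3) ≠ 1 by decide,
    show (2 : Fin 3) ≠ 0 by decide, show (0 : Fin 3) ≠ 2 by decide,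
    show (2 : Fin 3) ≠ 1 by decide, show (1 : Fin 3) ≠ 2 by decide]
  ring_nf

lemma addC_sym (mu : ℝ) {g : ℝ → ℝ → ℝ → ℝ} (h : Sym3 g) : Sym3 (addC mu g) := by
  intro a b c
  simp only [addC_eq]
  generalize (1 - 2 * mu) / 3 = l
  generalize (1 + mu) / 3 = u
  constructor
  · linarith [(h (l * a) (u * b) (u * c)).1, (h (u * a) (l * b) (u * c)).1,
      (h (u * a) (u * b) (l * c)).1]
  · linarith [(h (l * a) (u * b) (u * c)).2, (h (u * a) (l * b) (u * c)).2,
      (h (u * a) (u * b) (l * c)).2]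

lemma sum_power_succ {mu : ℝ} (g : ℝ → ℝ → ℝ → ℝ) (k : ℕ) :
    ∑ x, row g (power (node mu) (k + 1) x) = ∑ x, row (addC mu g) (power (node mu) k x) := by
  rw [← (Fin.consEquiv fun _ : Fin (k + 1) => Fin 3).sum_comp, Fintype.sum_prod_type,
    Finset.sum_comm]
  refine Finset.sum_congr rfl fun x _ => ?_
  simp [row, addC, power, Fin.prod_univ_succ, Fin.consEquiv]

lemma sum_power_sym {mu : ℝ} {g : ℝ → ℝ → ℝ → ℝ} (h : Sym3 g) : ∀ k,
    Sym3 fun a b c => ∑ x, g (a * power (node mu) k x 0) (b * power (node mu) k x 1)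
      (c * power (node mu) k x 2)
  | 0 => fun a b c => by simpa [power] using h a b c
  | k + 1 => by
    have ih := sum_power_sym (mu := mu) (addC_sym mu h) k
    have e : ∀ a b c : ℝ, (∑ x, g (a * power (node mu) (k + 1) x 0)
        (b * power (node mu) (k + 1) x 1) (c * power (node mu) (k + 1) x 2))
        = ∑ x, addC mu g (a * power (node mu) k x 0) (b * power (node mu) k x 1)
            (c * power (node mu) k x 2) := fun a b c => by
      have := sum_power_succ (mu := mu) (fun p q r => g (a * p) (b * q) (c * r)) k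
      simp only [row] at this
      rw [this]
      exact Finset.sum_congr rfl fun x _ => Finset.sum_congr rfl fun s _ => by ring_nf
    intro a b c
    simp only [e]
    exact ih a b c

lemma sum_power_cnt (mu : ℝ) (nf : Cnt → Cnt) (P : (ℝ → ℝ → ℝ → ℝ) → Prop)
    (hnf : ∀ g, P g → ∀ r, row g (rowC ((1 - 2 * mu) / 3) ((1 + mu) / 3) (nf r))
      = row g (rowC ((1 - 2 * mu) / 3) ((1 + mu) / 3) r))
    (hadd : ∀ g, P g → P (addC mu g)) :
    ∀ k g, P g → ∑ x, row g (power (node mu) k x)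
      = sumL (fun r => row g (rowC ((1 - 2 * mu) / 3) ((1 + mu) / 3) r)) (cntL nf k)
  | 0, g, _ => by simp [cntL, sumL, row, power, rowC]
  | k + 1, g, hg => by
    rw [sum_power_succ, sum_power_cnt mu nf P hnf hadd k _ (hadd g hg), cntL,
      sumL_step nf _ (hnf g hg)]
    congr 1
    funext r
    obtain ⟨a, b, c⟩ := r
    simp only [row, addC, Fin.sum_univ_three, node_eq, bump, rowC, Fin.isValue, ↓reduceIte,
      show (1 : Fin 3) ≠ 0 by decide, show (0 : Fin 3) ≠ 1 by decide,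
      show (2 : Fin 3) ≠ 0 by decide, show (0 : Fin 3) ≠ 2 by decide,
      show (2 : Fin 3) ≠ 1 by decide, show (1 : Fin 3) ≠ 2 by decide,
      Matrix.cons_val_zero, Matrix.cons_val_one, Matrix.cons_val]
    congr 1 <;> [congr 1; skip] <;> ring_nf

lemma mPhi_sym (κ : ℝ) : Sym3 (mPhi κ) := fun a b c => by
  constructor <;> simp only [mPhi, mA, mQ, quad, tot, dif, rc] <;> ring

lemma nodeF_sum (κ mu nu : ℝ) (k j : ℕ) :
    nodeF κ mu nu k j
      = sumL (fun r => sumL (fun t => mPhi κ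
          (rowC ((1 - 2 * mu) / 3) ((1 + mu) / 3) r 0 * rowC ((1 - 2 * nu) / 3) ((1 + nu) / 3) t 0)
          (rowC ((1 - 2 * mu) / 3) ((1 + mu) / 3) r 1 * rowC ((1 - 2 * nu) / 3) ((1 + nu) / 3) t 1)
          (rowC ((1 - 2 * mu) / 3) ((1 + mu) / 3) r 2 * rowC ((1 - 2 * nu) / 3) ((1 + nu) / 3) t 2))
          (cntL id j)) (cntL srt k) / 3 := by
  rw [nodeF, mo, tsum_fintype, Fintype.sum_prod_type]
  congr 1
  have h1 := sum_power_cnt mu srt Sym3 (fun g hg r => rowC_srt _ _ hg r)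
    (fun g hg => addC_sym mu hg) k
    (fun a b c => ∑ y, mPhi κ (a * power (node nu) j y 0) (b * power (node nu) j y 1)
      (c * power (node nu) j y 2)) (sum_power_sym (mPhi_sym κ) j)
  simp only [row] at h1
  simp only [row, pair]
  rw [h1]
  congr 1
  funext r
  have h2 := sum_power_cnt nu id (fun _ => True) (fun _ _ _ => rfl) (fun _ _ => trivial) j
    (fun a b c => mPhi κ (rowC ((1 - 2 * mu) / 3) ((1 + mu) / 3) r 0 * a)
      (rowC ((1 - 2 * mu) / 3) ((1 + mu) / 3) r 1 * b)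
      (rowC ((1 - 2 * mu) / 3) ((1 + mu) / 3) r 2 * c)) trivial
  simpa only [row] using h2

/-- Division rounded up. -/
def cdiv (a b : ℕ) : ℕ := (a + b - 1) / b

lemma le_cdiv (a b : ℕ) : (a : ℝ) / b ≤ (cdiv a b : ℝ) := by
  rcases Nat.eq_zero_or_pos b with rfl | hb
  · simp
  · rw [div_le_iff₀ (by exact_mod_cast hb)]
    have h1 := Nat.div_add_mod (a + b - 1) b
    have h2 := Nat.mod_lt (a + b - 1) hb
    have : a ≤ cdiv a b * b := by rw [cdiv, Nat.mul_comm]; omega
    exact_mod_cast this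

/-- The parameters of a table: the two rational nodes, the weight, and the common denominator. -/
structure TPar where
  /-- numerator of the first node -/
  P0 : ℕ
  /-- denominator of the first node -/
  Q0 : ℕ
  /-- numerator of the second node -/
  P1 : ℕ
  /-- denominator of the second node -/
  Q1 : ℕ
  /-- numerator of the weight -/
  cn : ℕ
  /-- denominator of the weight -/
  cd : ℕ
  /-- denominator of the table -/
  E : ℕ

/-- Scaled potential of one row, rounded up. -/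
def termV (t : TPar) (m u v w : ℕ) : ℕ :=
  let q := (u * u + v * v + w * w) - (u * v + u * w + v * w)
  let S := u + v + w
  cdiv (m * t.E * (q * (t.cd * (S * S) + t.cn * q))) (t.cd * (S * (S * S)))

/-- Scaled likelihood of the symbols, one colour. -/
def cellU (t : TPar) (x y a e : ℕ) : ℕ :=
  (t.Q0 - 2 * t.P0) ^ x * (t.Q0 + t.P0) ^ a * ((t.Q1 - 2 * t.P1) ^ y * (t.Q1 + t.P1) ^ e)

/-- Term of a pair of compositions. -/
def termC (t : TPar) (e f : Cnt × ℕ) : ℕ :=
  termV t (e.2 * f.2) (cellU t e.1.1 f.1.1 (e.1.2.1 + e.1.2.2) (f.1.2.1 + f.1.2.2))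
    (cellU t e.1.2.1 f.1.2.1 (e.1.1 + e.1.2.2) (f.1.1 + f.1.2.2))
    (cellU t e.1.2.2 f.1.2.2 (e.1.1 + e.1.2.1) (f.1.1 + f.1.2.1))

/-- Inner sum. -/
def sumIn (t : TPar) (e : Cnt × ℕ) : List (Cnt × ℕ) → ℕ
  | [] => 0
  | f :: l => termC t e f + sumIn t e l

/-- Outer sum. -/
def sumOut (t : TPar) (ly : List (Cnt × ℕ)) : List (Cnt × ℕ) → ℕ
  | [] => 0
  | e :: l => sumIn t e ly + sumOut t ly l

lemma le_termV (t : TPar) (m u v w : ℕ) (hd : 0 < t.cd) :
    (m : ℝ) * t.E * mPhi ((t.cn : ℝ) / t.cd) u v w ≤ (termV t m u v w : ℝ) := by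
  refine le_trans (le_of_eq ?_) (le_cdiv _ _)
  have hle : u * v + u * w + v * w ≤ u * u + v * v + w * w := by
    have h : ((u * v + u * w + v * w : ℕ) : ℝ) ≤ ((u * u + v * v + w * w : ℕ) : ℝ) := by
      push_cast
      nlinarith [sq_nonneg ((u : ℝ) - v), sq_nonneg ((u : ℝ) - w), sq_nonneg ((v : ℝ) - w)]
    exact_mod_cast h
  have hq : (((u * u + v * v + w * w) - (u * v + u * w + v * w) : ℕ) : ℝ)
      = quad rc (u : ℝ) v w := by
    rw [Nat.cast_sub hle]; simp only [quad, dif, rc]; push_cast; ring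
  push_cast [hq]
  simp only [mPhi, mA, mQ, tot]
  have hcd : (0 : ℝ) < t.cd := by exact_mod_cast hd
  rcases eq_or_ne ((u : ℝ) + v + w) 0 with h | h
  · rw [h]; simp
  · field_simp

/-- The check of one entry. -/
def chkOne (t : TPar) (k j T : ℕ) (lx ly : List (Cnt × ℕ)) : Bool :=
  Nat.ble (sumOut t ly lx) (3 * T * ((3 * t.Q0) ^ k * (3 * t.Q1) ^ j))

/-- The admissibility of the parameters. -/
def TPar.good (t : TPar) : Bool :=
  decide (0 < t.cd) && decide (2 * t.P0 < t.Q0) && decide (2 * t.P1 ≤ t.Q1 ∧ 0 < t.Q1)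
    && decide (0 < t.E)

/-- The first node. -/
noncomputable def TPar.mu (t : TPar) : ℝ := (t.P0 : ℝ) / t.Q0
/-- The second node. -/
noncomputable def TPar.nu (t : TPar) : ℝ := (t.P1 : ℝ) / t.Q1
/-- The weight. -/
noncomputable def TPar.kap (t : TPar) : ℝ := (t.cn : ℝ) / t.cd

/-- Total degree of a composition. -/
def cdeg (r : Cnt) : ℕ := r.1 + (r.2.1 + r.2.2)

lemma cdeg_bump : ∀ (r : Cnt) (s : Fin 3), cdeg (bump r s) = cdeg r + 1
  | (a, b, c), s => by fin_cases s <;> simp [cdeg, bump] <;> omega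

lemma cdeg_srt : ∀ r : Cnt, cdeg (srt r) = cdeg r
  | (a, b, c) => by simp only [srt]; split_ifs <;> simp only [cdeg] <;> omega

lemma mem_ins {r : Cnt} {m : ℕ} : ∀ {l : List (Cnt × ℕ)} {p : Cnt × ℕ},
    p ∈ ins r m l → p.1 = r ∨ ∃ q ∈ l, p.1 = q.1
  | [], p, h => by simp [ins] at h; simp [h]
  | e :: l, p, h => by
    simp only [ins] at h
    split_ifs at h
    · rcases List.mem_cons.mp h with rfl | h
      · exact Or.inr ⟨e, List.mem_cons_self, rfl⟩
      · exact Or.inr ⟨p, List.mem_cons_of_mem _ h, rfl⟩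
    · rcases List.mem_cons.mp h with rfl | h
      · exact Or.inr ⟨p, List.mem_cons_self, rfl⟩
      · rcases mem_ins h with h | ⟨q, hq, h⟩
        · exact Or.inl h
        · exact Or.inr ⟨q, List.mem_cons_of_mem _ hq, h⟩

lemma deg_step {nf : Cnt → Cnt} (hnf : ∀ r, cdeg (nf r) = cdeg r) {k : ℕ} :
    ∀ {l : List (Cnt × ℕ)}, (∀ p ∈ l, cdeg p.1 = k) → ∀ p ∈ stepL nf l, cdeg p.1 = k + 1
  | [], _, p, h => absurd h List.not_mem_nil
  | e :: l, hl, p, h => by
    have he := hl e List.mem_cons_self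
    rcases mem_ins h with h | ⟨q, hq, h⟩
    · rw [h, hnf, cdeg_bump, he]
    rw [h]
    rcases mem_ins hq with h | ⟨q', hq', h⟩
    · rw [h, hnf, cdeg_bump, he]
    rw [h]
    rcases mem_ins hq' with h | ⟨q'', hq'', h⟩
    · rw [h, hnf, cdeg_bump, he]
    rw [h]
    exact deg_step hnf (fun p hp => hl p (List.mem_cons_of_mem _ hp)) q'' hq''

lemma deg_cntL {nf : Cnt → Cnt} (hnf : ∀ r, cdeg (nf r) = cdeg r) :
    ∀ k, ∀ p ∈ cntL nf k, cdeg p.1 = k
  | 0, p, h => by simp [cntL] at h; simp [h, cdeg]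
  | k + 1, p, h => deg_step hnf (deg_cntL hnf k) p h

lemma sumL_le {φ : Cnt → ℝ} {ψ : Cnt × ℕ → ℝ} :
    ∀ l : List (Cnt × ℕ), (∀ p ∈ l, (p.2 : ℝ) * φ p.1 ≤ ψ p) → sumL φ l ≤ (l.map ψ).sum
  | [], _ => le_of_eq rfl
  | e :: l, h => by
    simp only [sumL, List.map_cons, List.sum_cons]
    exact add_le_add (h e List.mem_cons_self)
      (sumL_le l fun p hp => h p (List.mem_cons_of_mem _ hp))

lemma sumIn_eq (t : TPar) (e : Cnt × ℕ) :
    ∀ l, (sumIn t e l : ℝ) = (l.map fun f => (termC t e f : ℝ)).sum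
  | [] => by simp [sumIn]
  | f :: l => by simp [sumIn, sumIn_eq t e l]

lemma sumOut_eq (t : TPar) (ly : List (Cnt × ℕ)) :
    ∀ l, (sumOut t ly l : ℝ) = (l.map fun e => (sumIn t e ly : ℝ)).sum
  | [] => by simp [sumOut]
  | e :: l => by simp [sumOut, sumOut_eq t ly l]

lemma mul_sumL (c : ℝ) (φ : Cnt → ℝ) :
    ∀ l, c * sumL φ l = sumL (fun r => c * φ r) l
  | [] => by simp [sumL]
  | e :: l => by simp only [sumL, ← mul_sumL c φ l]; ring

lemma sumL_congr {φ ψ : Cnt → ℝ} :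
    ∀ l : List (Cnt × ℕ), (∀ p ∈ l, φ p.1 = ψ p.1) → sumL φ l = sumL ψ l
  | [], _ => rfl
  | e :: l, h => by
    simp only [sumL]
    rw [h e List.mem_cons_self, sumL_congr l fun p hp => h p (List.mem_cons_of_mem _ hp)]

lemma sumL_mul (c : ℝ) (φ : Cnt → ℝ) (l : List (Cnt × ℕ)) :
    sumL (fun r => φ r * c) l = sumL φ l * c := by
  rw [mul_comm _ c, mul_sumL]; simp [mul_comm]

theorem chkOne_sound {t : TPar} (ht : t.good = true) {k j T : ℕ}
    (h : chkOne t k j T (cntL srt k) (cntL id j) = true) :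
    nodeF t.kap t.mu t.nu k j ≤ (T : ℝ) / t.E := by
  simp only [TPar.good, Bool.and_eq_true, decide_eq_true_eq] at ht
  obtain ⟨⟨⟨hd, h0⟩, ⟨h1, h1'⟩⟩, hE⟩ := ht
  have hE' : (0 : ℝ) < t.E := by exact_mod_cast hE
  have hQ0 : (0 : ℝ) < t.Q0 := by exact_mod_cast (show 0 < t.Q0 by omega)
  have hQ1 : (0 : ℝ) < t.Q1 := by exact_mod_cast h1'
  set c : ℝ := (3 * (t.Q0 : ℝ)) ^ k * (3 * (t.Q1 : ℝ)) ^ j with hc
  have hcpos : 0 < c := by positivity
  have key : (t.E : ℝ) * c * (3 * nodeF t.kap t.mu t.nu k j)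
      ≤ (sumOut t (cntL id j) (cntL srt k) : ℝ) := by
    rw [nodeF_sum, show ∀ s : ℝ, 3 * (s / 3) = s from fun s => by ring, mul_sumL, sumOut_eq]
    refine sumL_le _ fun p hp => ?_
    rw [sumIn_eq, mul_sumL, mul_sumL]
    refine sumL_le _ fun f hf => ?_
    have hk := deg_cntL cdeg_srt k p hp
    have hj := deg_cntL (nf := id) (fun _ => rfl) j f hf
    refine le_trans (le_of_eq ?_) (le_termV t _ _ _ _ hd)
    obtain ⟨⟨a, b, d⟩, m⟩ := p
    obtain ⟨⟨a', b', d'⟩, m'⟩ := f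
    simp only [cdeg] at hk hj
    subst hk hj
    simp only [rowC, cellU, hc, TPar.mu, TPar.nu, TPar.kap, Matrix.cons_val_zero,
      Matrix.cons_val_one, Matrix.cons_val, Nat.cast_mul, Nat.cast_pow,
      Nat.cast_add, Nat.cast_ofNat, Nat.cast_sub (le_of_lt h0), Nat.cast_sub h1]
    have e : ∀ s M u v w : ℝ, M * (s * mPhi ((t.cn : ℝ) / t.cd) u v w)
        = M * mPhi ((t.cn : ℝ) / t.cd) (s * u) (s * v) (s * w) := fun s M u v w => by
      rw [mPhi_scale]
    have e3 : ∀ (Q P : ℝ) (x y : ℕ), Q ≠ 0 →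
        (3 * Q) ^ (x + y) * (((1 - 2 * (P / Q)) / 3) ^ x * ((1 + P / Q) / 3) ^ y)
          = (Q - 2 * P) ^ x * (Q + P) ^ y := fun Q P x y hQ => by
      rw [pow_add, mul_mul_mul_comm, ← mul_pow, ← mul_pow]
      congr 2 <;> field_simp
    rw [← e3 _ _ a (b + d) hQ0.ne', ← e3 _ _ b (a + d) hQ0.ne', ← e3 _ _ d (a + b) hQ0.ne',
      ← e3 _ _ a' (b' + d') hQ1.ne', ← e3 _ _ b' (a' + d') hQ1.ne',
      ← e3 _ _ d' (a' + b') hQ1.ne', show b + (a + d) = a + (b + d) by omega,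
      show d + (a + b) = a + (b + d) by omega, show b' + (a' + d') = a' + (b' + d') by omega,
      show d' + (a' + b') = a' + (b' + d') by omega]
    generalize (3 * (t.Q0 : ℝ)) ^ (a + (b + d)) = p0
    generalize (3 * (t.Q1 : ℝ)) ^ (a' + (b' + d')) = p1
    generalize ((1 - 2 * ((t.P0 : ℝ) / t.Q0)) / 3) ^ a * ((1 + (t.P0 : ℝ) / t.Q0) / 3) ^ (b + d) = u0
    generalize ((1 - 2 * ((t.P0 : ℝ) / t.Q0)) / 3) ^ b * ((1 + (t.P0 : ℝ) / t.Q0) / 3) ^ (a + d) = v0
    generalize ((1 - 2 * ((t.P0 : ℝ) / t.Q0)) / 3) ^ d * ((1 + (t.P0 : ℝ) / t.Q0) / 3) ^ (a + b) = w0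
    generalize ((1 - 2 * ((t.P1 : ℝ) / t.Q1)) / 3) ^ a' * ((1 + (t.P1 : ℝ) / t.Q1) / 3) ^ (b' + d') = u1
    generalize ((1 - 2 * ((t.P1 : ℝ) / t.Q1)) / 3) ^ b' * ((1 + (t.P1 : ℝ) / t.Q1) / 3) ^ (a' + d') = v1
    generalize ((1 - 2 * ((t.P1 : ℝ) / t.Q1)) / 3) ^ d' * ((1 + (t.P1 : ℝ) / t.Q1) / 3) ^ (a' + b') = w1
    rw [show p0 * u0 * (p1 * u1) = p0 * p1 * (u0 * u1) by ring,
      show p0 * v0 * (p1 * v1) = p0 * p1 * (v0 * v1) by ring,
      show p0 * w0 * (p1 * w1) = p0 * p1 * (w0 * w1) by ring, mPhi_scale]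
    ring
  have h' := (Nat.le_of_ble_eq_true h)
  have h'' : (sumOut t (cntL id j) (cntL srt k) : ℝ) ≤ 3 * (T : ℝ) * c := by
    rw [hc]; exact_mod_cast h'
  rw [le_div_iff₀ hE']
  nlinarith [mul_pos hcpos (show (0 : ℝ) < 3 by norm_num)]

/-- The successive lists of compositions start at `l`. -/
def chainL (nf : Cnt → Cnt) (l : List (Cnt × ℕ)) : List (List (Cnt × ℕ)) → Bool
  | [] => true
  | r :: rs => decide (r = l) && chainL nf (stepL nf r) rs

/-- The entries of one line of a table, from column `j` on. -/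
def chkRow (t : TPar) (k : ℕ) (lx : List (Cnt × ℕ)) :
    ℕ → List ℕ → List (List (Cnt × ℕ)) → Bool
  | _, [], _ => true
  | _, _ :: _, [] => false
  | j, T :: ts, ly :: lys => chkOne t k j T lx ly && chkRow t k lx (j + 1) ts lys

/-- The lines of a table, from line `k` on. -/
def chkTab (t : TPar) (lys : List (List (Cnt × ℕ))) :
    ℕ → List (List ℕ) → List (List (Cnt × ℕ)) → Bool
  | _, [], _ => true
  | _, _ :: _, [] => false
  | k, r :: rs, lx :: lxs => chkRow t k lx 0 r lys && chkTab t lys (k + 1) rs lxs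

lemma chain_get {nf : Cnt → Cnt} : ∀ (ls : List (List (Cnt × ℕ))) (k : ℕ),
    chainL nf (cntL nf k) ls = true → ∀ i (h : i < ls.length), ls[i] = cntL nf (k + i)
  | [], _, _, i, h => absurd h (Nat.not_lt_zero i)
  | r :: rs, k, hc, i, h => by
    simp only [chainL, Bool.and_eq_true, decide_eq_true_eq] at hc
    obtain ⟨rfl, hc⟩ := hc
    rcases i with _ | i
    · rfl
    · have := chain_get rs (k + 1) hc i (by simpa using h)
      simpa [Nat.add_right_comm, Nat.add_assoc] using this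

lemma chkRow_get {t : TPar} {k : ℕ} {lx : List (Cnt × ℕ)} :
    ∀ (ts : List ℕ) (lys : List (List (Cnt × ℕ))) (j : ℕ), chkRow t k lx j ts lys = true →
      ∀ i (h : i < ts.length), ∃ h' : i < lys.length, chkOne t k (j + i) ts[i] lx lys[i] = true
  | [], _, _, _, i, h => absurd h (Nat.not_lt_zero i)
  | T :: ts, [], _, hc, _, _ => by simp [chkRow] at hc
  | T :: ts, ly :: lys, j, hc, i, h => by
    simp only [chkRow, Bool.and_eq_true] at hc
    rcases i with _ | i
    · exact ⟨by simp, by simpa using hc.1⟩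
    · obtain ⟨h', e⟩ := chkRow_get ts lys (j + 1) hc.2 i (by simpa using h)
      exact ⟨by simpa using h', by simpa [Nat.add_right_comm, Nat.add_assoc] using e⟩

lemma chkTab_get {t : TPar} {lys : List (List (Cnt × ℕ))} :
    ∀ (rs : List (List ℕ)) (lxs : List (List (Cnt × ℕ))) (k : ℕ),
      chkTab t lys k rs lxs = true → ∀ i (h : i < rs.length),
        ∃ h' : i < lxs.length, chkRow t (k + i) lxs[i] 0 rs[i] lys = true
  | [], _, _, _, i, h => absurd h (Nat.not_lt_zero i)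
  | r :: rs, [], _, hc, _, _ => by simp [chkTab] at hc
  | r :: rs, lx :: lxs, k, hc, i, h => by
    simp only [chkTab, Bool.and_eq_true] at hc
    rcases i with _ | i
    · exact ⟨by simp, by simpa using hc.1⟩
    · obtain ⟨h', e⟩ := chkTab_get rs lxs (k + 1) hc.2 i (by simpa using h)
      exact ⟨by simpa using h', by simpa [Nat.add_right_comm, Nat.add_assoc] using e⟩

theorem chkTab_sound {t : TPar} (ht : t.good = true) {lxs lys : List (List (Cnt × ℕ))}
    (hx : chainL srt (cntL srt 0) lxs = true) (hy : chainL id (cntL id 0) lys = true)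
    {rs : List (List ℕ)} (h : chkTab t lys 0 rs lxs = true) {k j : ℕ} (hk : k < rs.length)
    (hj : j < rs[k].length) : nodeF t.kap t.mu t.nu k j ≤ (rs[k][j] : ℝ) / t.E := by
  obtain ⟨hk', h1⟩ := chkTab_get rs lxs 0 h k hk
  obtain ⟨hj', h2⟩ := chkRow_get rs[k] lys 0 h1 j hj
  rw [chain_get lxs 0 hx k hk', chain_get lys 0 hy j hj', Nat.zero_add, Nat.zero_add] at h2
  exact chkOne_sound ht h2

end Window

end Vale.Agent.P154
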