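import Vale.Agent.P154.Window.Copies

/-!
Spreading the children onto an uninformative child and two reference lengths.
-/

namespace Vale.Agent.P154

namespace Window

variable {η : Type} {M : Lik η} {σ ν : ℝ}

/-- The weights of one child on the three reference lengths. -/
noncomputable def tentW (S T R a : ℝ) : Fin 3 → ℝ :=
  if a ≤ S * R then ![R - a / S, a / S, 0]
  else ![0, (T * R - a) / (T - S), (a - S * R) / (T - S)]

/-- The low part of the weight on the middle length. -/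
noncomputable def tentLow (S R a : ℝ) : ℝ := if a ≤ S * R then a / S else 0

/-- The spreading of a channel. -/
noncomputable def tent (σ ν : ℝ) (M : Lik η) (y : η) : Fin 3 → ℝ :=
  tentW (σ ^ 2) (ν ^ 2) (row mS (M y)) (row mA (M y))

lemma tentW_spec {S T R a : ℝ} (hS : 0 < S) (hST : S < T) (ha : 0 ≤ a) (haT : a ≤ T * R)
    (hR : 0 ≤ R) :
    (∀ i, 0 ≤ tentW S T R a i) ∧ ∑ i, tentW S T R a i = R
      ∧ ∑ i, tentW S T R a i * ![0, S, T] i = a
      ∧ 0 ≤ tentLow S R a ∧ tentLow S R a ≤ tentW S T R a 1 := by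
  have hT : 0 < T - S := by linarith
  by_cases h : a ≤ S * R
  · simp only [tentW, tentLow, if_pos h, Fin.sum_univ_three]
    refine ⟨?_, by simp, by simp; field_simp, div_nonneg ha hS.le, by simp⟩
    intro i; fin_cases i <;> simp
    · rw [div_le_iff₀ hS]; linarith
    · exact div_nonneg ha hS.le
  · simp only [tentW, tentLow, if_neg h, Fin.sum_univ_three]
    have h1 : 0 ≤ (T * R - a) / (T - S) := div_nonneg (by linarith) hT.le
    refine ⟨?_, ?_, ?_, le_rfl, by simpa using h1⟩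
    · intro i; fin_cases i <;> simp
      · exact h1
      · exact div_nonneg (by linarith [not_le.mp h]) hT.le
    · simp; field_simp; ring
    · simp; field_simp; ring

lemma tentW_lin {S T R a : ℝ} (hS : 0 < S) (hST : S < T) (ha : 0 ≤ a) (hR : 0 ≤ R)
    (h0 : R = 0 → a = 0) (η' ζ : ℝ) :
    2 * η' * S * tentLow S R a - η' ^ 2 * R
        + 2 * ζ * (S * (tentW S T R a 1 - tentLow S R a) + T * tentW S T R a 2)
        - ζ ^ 2 * (tentW S T R a 1 - tentLow S R a + tentW S T R a 2)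
      ≤ a ^ 2 / R := by
  rcases eq_or_lt_of_le hR with hz | hz
  · have h2 := h0 hz.symm
    subst h2
    simp [← hz, tentW, tentLow]
  have key : ∀ t : ℝ, 2 * t * a - t ^ 2 * R ≤ a ^ 2 / R := fun t => by
    have e : a ^ 2 / R - (2 * t * a - t ^ 2 * R) = (a - t * R) ^ 2 / R := by field_simp; ring
    have : 0 ≤ (a - t * R) ^ 2 / R := by positivity
    linarith
  by_cases h : a ≤ S * R
  · simp only [tentW, tentLow, if_pos h]
    simp only [Matrix.cons_val_one, Matrix.cons_val, Matrix.cons_val_zero, sub_self, mul_zero,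
      add_zero, zero_add, sub_zero]
    have : 2 * η' * S * (a / S) = 2 * η' * a := by field_simp
    rw [this]; exact key η'
  · simp only [tentW, tentLow, if_neg h]
    simp only [Matrix.cons_val_one, Matrix.cons_val, Matrix.cons_val_zero, mul_zero, zero_sub,
      sub_zero]
    have hT : T - S ≠ 0 := by linarith
    have e1 : S * ((T * R - a) / (T - S)) + T * ((a - S * R) / (T - S)) = a := by field_simp; ring
    have e2 : (T * R - a) / (T - S) + (a - S * R) / (T - S) = R := by field_simp; ring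
    rw [e1, e2]
    have := key ζ
    have := mul_nonneg (sq_nonneg η') hR
    linarith

lemma row_facts (hM : Ok M) (hb : ∀ y, quad rc (M y 0) (M y 1) (M y 2)
      ≤ ν ^ 2 * tot (M y 0) (M y 1) (M y 2) ^ 2) (y : η) :
    0 ≤ row mA (M y) ∧ row mA (M y) ≤ ν ^ 2 * row mS (M y) ∧ 0 ≤ row mS (M y)
      ∧ row mA (M y) ^ 2 / row mS (M y) = row mQ (M y)
      ∧ (row mS (M y) = 0 → row mA (M y) = 0) := by
  have hR := tot_nonneg (hM.nonneg y 0) (hM.nonneg y 1) (hM.nonneg y 2)
  refine ⟨mA_nonneg (hM.nonneg y 0) (hM.nonneg y 1) (hM.nonneg y 2), ?_, hR, ?_, ?_⟩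
  · simp only [row, mA, mS]
    rcases eq_or_lt_of_le hR with h | h
    · rw [← h]; simp
    · rw [div_le_iff₀ h]; linarith [hb y]
  · simp only [row, mA, mS, mQ]
    rcases eq_or_lt_of_le hR with h | h
    · rw [← h]; simp
    · field_simp
  · intro h
    simp only [row, mA, mS] at h ⊢
    rw [h, div_zero]

theorem tent_spread (hM : Ok M) (hσ : 0 < σ) (hσν : σ < ν) (hν : ν ≤ 1 / 2)
    (hb : ∀ y, quad rc (M y 0) (M y 1) (M y 2) ≤ ν ^ 2 * tot (M y 0) (M y 1) (M y 2) ^ 2) :
    Spread M ![0, σ, ν] (tent σ ν M) := by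
  have hST : σ ^ 2 < ν ^ 2 := pow_lt_pow_left₀ hσν hσ.le two_ne_zero
  have sp := fun y => tentW_spec (pow_pos hσ 2) hST (row_facts hM hb y).1
    (row_facts hM hb y).2.1 (row_facts hM hb y).2.2.1
  refine ⟨fun y => ?_, fun i => ?_, fun y i => (sp y).1 i, fun y => (sp y).2.1, fun y => ?_⟩
  · have h1 : ν ^ 2 ≤ 1 / 4 := by nlinarith
    have h2 := mul_le_mul_of_nonneg_right h1 (sq_nonneg (tot (M y 0) (M y 1) (M y 2)))
    linarith [hb y]
  · fin_cases i <;> simp <;> constructor <;> linarith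
  · refine Eq.trans ?_ (sp y).2.2.1
    refine Finset.sum_congr rfl fun i _ => ?_
    fin_cases i <;> simp [tent]

/-- The weights seen by the scalar inequality. -/
theorem tent_geometry (hM : Ok M) (hσ : 0 < σ) (hσν : σ < ν) (hν : ν ≤ 1 / 2)
    (hb : ∀ y, quad rc (M y 0) (M y 1) (M y 2) ≤ ν ^ 2 * tot (M y 0) (M y 1) (M y 2) ^ 2) :
    ∃ ul : ℝ, 0 ≤ ul ∧ ul ≤ wt' (tent σ ν M) 1 ∧ ∀ η' ζ : ℝ,
      2 * η' * σ ^ 2 * ul - η' ^ 2
          + 2 * ζ * (σ ^ 2 * (wt' (tent σ ν M) 1 - ul) + ν ^ 2 * wt' (tent σ ν M) 2)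
          - ζ ^ 2 * (wt' (tent σ ν M) 1 - ul + wt' (tent σ ν M) 2)
        ≤ mo mQ M := by
  have hST : σ ^ 2 < ν ^ 2 := pow_lt_pow_left₀ hσν hσ.le two_ne_zero
  have rf := row_facts hM hb
  have sp := fun y => tentW_spec (pow_pos hσ 2) hST (rf y).1 (rf y).2.1 (rf y).2.2.1
  have hS := tent_spread hM hσ hσν hν hb
  set lo : η → ℝ := fun y => tentLow (σ ^ 2) (row mS (M y)) (row mA (M y)) with hlo
  have lo0 : ∀ y, 0 ≤ lo y := fun y => (sp y).2.2.2.1
  have lo1 : ∀ y, lo y ≤ tent σ ν M y 1 := fun y => (sp y).2.2.2.2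
  have slo : Summable lo := Summable.of_nonneg_of_le lo0 lo1 (hS.summable hM 1)
  refine ⟨(∑' y, lo y) / 3, div_nonneg (tsum_nonneg lo0) (by norm_num),
    div_le_div_of_nonneg_right (slo.tsum_le_tsum lo1 (hS.summable hM 1)) (by norm_num),
    fun η' ζ => ?_⟩
  have h1 := (hS.summable hM 1).hasSum
  have h2 := (hS.summable hM 2).hasSum
  have hl := slo.hasSum
  have lhs := (((hl.mul_left (2 * η' * σ ^ 2)).sub (hM.hasSum_mass.mul_left (η' ^ 2))).add
      ((((h1.sub hl).mul_left (σ ^ 2)).add (h2.mul_left (ν ^ 2))).mul_left (2 * ζ))).sub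
      (((h1.sub hl).add h2).mul_left (ζ ^ 2))
  have key := hasSum_le (fun y => ?_) lhs (hM.summable_mom dom_mQ).hasSum
  · simp only [wt', mo] at key ⊢
    linarith
  · have := tentW_lin (pow_pos hσ 2) hST (rf y).1 (rf y).2.2.1 (rf y).2.2.2.2 η' ζ
    rw [(rf y).2.2.2.1] at this
    exact this

end Window

end Vale.Agent.P154
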