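import Vale.Agent.P154.Window.Expand
import Vale.Agent.P154.Window.Tent

/-!
One level of the recursion.
-/

namespace Vale.Agent.P154

namespace Window

variable {η : Type} {M : Lik η} {k : ℕ} {μ : Fin k → ℝ} {h : η → Fin k → ℝ}

lemma mo_pair_unit {ι θ : Type} (g : ℝ → ℝ → ℝ → ℝ) (B : Lik ι) (X : Lik θ) :
    mo g (pair (power B 0) X) = mo g X := by
  rw [mo_pair_comm, mo_pair_power_zero]

/-- The squared defect of the information of `N - 1` copies, weighted by `N`. -/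
noncomputable def wgap {θ : Type} (Q : Lik θ) (N : ℕ) : ℝ :=
  (N : ℝ) * (1 - mo mA (power Q (N - 1))) ^ 2

lemma wgap_bounds {θ : Type} {Q : Lik θ} (hQ : Ok Q) (N : ℕ) :
    0 ≤ wgap Q N ∧ wgap Q N ≤ N := by
  have h1 := (power_ok Q hQ (N - 1)).mA_le_one
  have h0 : 0 ≤ mo mA (power Q (N - 1)) :=
    (power_ok Q hQ (N - 1)).mo_nonneg fun _ _ _ => mA_nonneg
  refine ⟨mul_nonneg (Nat.cast_nonneg N) (sq_nonneg _), ?_⟩
  have h2 : (1 - mo mA (power Q (N - 1))) ^ 2 ≤ 1 := pow_le_one₀ (by linarith) (by linarith)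
  calc wgap Q N ≤ (N : ℝ) * 1 := mul_le_mul_of_nonneg_left h2 (Nat.cast_nonneg N)
    _ = N := mul_one _

lemma summable_law_mo {p : ℕ → ℝ} {d : ℝ} (hp : Law p d) {θ : Type} {Q : Lik θ} (hQ : Ok Q)
    {g : ℝ → ℝ → ℝ → ℝ} {C : ℝ} (hg : Dom g C) : Summable fun N => p N * mo g (power Q N) :=
  Summable.of_norm_bounded (hp.total.summable.mul_right C) fun N => by
    rw [Real.norm_eq_abs, abs_mul, abs_of_nonneg (hp.nonneg N)]
    exact mul_le_mul_of_nonneg_left (abs_mo_le (power_ok Q hQ N) hg) (hp.nonneg N)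

lemma summable_wgap {p : ℕ → ℝ} {d : ℝ} (hp : Law p d) {θ : Type} {Q : Lik θ} (hQ : Ok Q) :
    Summable fun N => p N * wgap Q N :=
  Summable.of_nonneg_of_le (fun N => mul_nonneg (hp.nonneg N) (wgap_bounds hQ N).1)
    (fun N => by
      have := mul_le_mul_of_nonneg_left (wgap_bounds hQ N).2 (hp.nonneg N)
      linarith) hp.mean.summable

/-- All children of a random family replaced. -/
theorem mix_replaced {p : ℕ → ℝ} {d κ κ' : ℝ} (hp : Law p d) (hM : Ok M) (hsw : Sw M)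
    (hS : Spread M μ h) (hc : CC κ κ') (k0 : 0 ≤ κ) (k1 : κ ≤ 12 / 25) (k0' : 0 ≤ κ') :
    mo (mPhi κ) (mix p M) ≤ (∑' N, p N * mo (mPhi κ) (power (mixNode (wt' h) μ) N))
      - κ' * (gain M μ h * ∑' N, p N * wgap (mixNode (wt' h) μ) N) := by
  have hQ := mixNode_ok hS.wt_nonneg (hS.wt_sum hM) hS.range
  refine hasSum_le (fun N => ?_) (mix_mom hp hM (dom_mPhi κ) (mPhi_scale κ))
    ((summable_law_mo hp hQ (dom_mPhi κ)).hasSum.sub
      (((summable_wgap hp hQ).hasSum.mul_left (gain M μ h)).mul_left κ'))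
  have h1 := power_phi_le hM hsw hS hc k0 k1 k0' N (power_ok (mixNode (wt' h) μ) hQ 0)
  rw [mo_pair_unit, mo_pair_unit, mo_pair_unit] at h1
  have h2 := mul_le_mul_of_nonneg_left h1 (hp.nonneg N)
  simp only [wgap]
  linarith

/-- The weights are at least the mean times the squared defect, for a fixed number of children. -/
lemma wgap_regular {θ : Type} {Q : Lik θ} (hQ : Ok Q) (n : ℕ) :
    (n : ℝ) * (1 - mo mA (power Q n)) ^ 2 ≤ ∑' N, regularLaw n N * wgap Q N := by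
  have e : ∀ N, N ≠ n → regularLaw n N * wgap Q N = 0 := fun N hN => by simp [regularLaw, hN]
  rw [tsum_eq_single n e]
  simp only [regularLaw, if_pos, one_mul, wgap]
  refine mul_le_mul_of_nonneg_left ?_ (Nat.cast_nonneg n)
  have h1 := (power_ok Q hQ n).mA_le_one
  rcases Nat.eq_zero_or_pos n with rfl | hn
  · simp
  · have h2 : mo mA (power Q (n - 1)) ≤ mo mA (power Q n) := by
      obtain ⟨m, rfl⟩ : ∃ m, n = m + 1 := ⟨n - 1, by omega⟩
      rw [Nat.add_sub_cancel, power_succ, mo_reindex, mo_pair_comm]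
      exact mA_le_pair (power_ok Q hQ m) hQ
    exact pow_le_pow_left₀ (by linarith) (by linarith) 2

lemma poisson_succ_mul (d : ℝ) (N : ℕ) :
    poissonLaw d (N + 1) * ((N + 1 : ℕ) : ℝ) = d * poissonLaw d N := by
  simp only [poissonLaw, Nat.factorial_succ, Nat.cast_mul, Nat.cast_succ, pow_succ]
  field_simp

/-- The same for a Poisson number of children. -/
lemma wgap_poisson {d : ℝ} (hd : 0 < d) {θ : Type} {Q : Lik θ} (hQ : Ok Q) :
    d * (1 - ∑' N, poissonLaw d N * mo mA (power Q N)) ^ 2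
      ≤ ∑' N, poissonLaw d N * wgap Q N := by
  have hp := poisson_law hd
  set t := 1 - ∑' N, poissonLaw d N * mo mA (power Q N) with ht
  set v : ℕ → ℝ := fun N => 1 - mo mA (power Q N) with hv
  have s1 : Summable fun N => poissonLaw d N * v N ^ 2 :=
    Summable.of_nonneg_of_le (fun N => mul_nonneg (hp.nonneg N) (sq_nonneg _))
      (fun N => by
        have h1 := (power_ok Q hQ N).mA_le_one
        have h0 : 0 ≤ mo mA (power Q N) := (power_ok Q hQ N).mo_nonneg fun _ _ _ => mA_nonneg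
        calc poissonLaw d N * v N ^ 2 ≤ poissonLaw d N * 1 :=
              mul_le_mul_of_nonneg_left (pow_le_one₀ (by linarith) (by linarith)) (hp.nonneg N)
          _ = poissonLaw d N := mul_one _) hp.total.summable
  have s2 := (summable_law_mo hp hQ dom_mA).hasSum
  have h1 : HasSum (fun N => poissonLaw d N * v N) t := by
    refine (hasSum_val (hp.total.sub s2) ht.symm).congr_fun fun N => ?_
    simp only [hv]; ring
  have key := hasSum_le (fun N => ?_)
    ((h1.mul_left (2 * t)).sub (hp.total.mul_left (t ^ 2))) s1.hasSum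
  · have s3 := (hasSum_nat_add_iff' (f := fun N => poissonLaw d N * wgap Q N) 1).mpr
      (summable_wgap hp hQ).hasSum
    simp only [Finset.sum_range_one, wgap, Nat.cast_zero, zero_mul, mul_zero, sub_zero] at s3
    have e : ∀ N, poissonLaw d (N + 1) * (((N + 1 : ℕ) : ℝ) * (1 - mo mA (power Q (N + 1 - 1))) ^ 2)
        = d * (poissonLaw d N * v N ^ 2) := fun N => by
      rw [← mul_assoc, poisson_succ_mul, Nat.add_sub_cancel]; simp only [hv]; ring
    simp only [e] at s3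
    have := s3.unique (s1.hasSum.mul_left d)
    simp only [wgap]
    rw [this]
    refine mul_le_mul_of_nonneg_left ?_ hd.le
    linarith [sq_nonneg t]
  · have h3 := mul_nonneg (hp.nonneg N) (sq_nonneg (v N - t))
    linarith

/-- A scalar bound on the squared lengths of one step, in the units of the information. -/
def Lin (d σ ν Mv b wl Qs : ℝ) : Prop :=
  ∀ η' ζ : ℝ, 2 * η' * σ ^ 2 * wl - η' ^ 2 * d + 2 * ζ * (σ ^ 2 * (Mv - wl) + ν ^ 2 * b)
    - ζ ^ 2 * (Mv - wl + b) ≤ Qs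

variable {σ ν : ℝ}

lemma ok_Q (hM : Ok M) (hσ : 0 < σ) (hσν : σ < ν) (hν : ν ≤ 1 / 2)
    (hb : ∀ y, quad rc (M y 0) (M y 1) (M y 2) ≤ ν ^ 2 * tot (M y 0) (M y 1) (M y 2) ^ 2) :
    Ok (mixNode (wt' (tent σ ν M)) ![0, σ, ν]) := by
  have hS := tent_spread hM hσ hσν hν hb
  exact mixNode_ok hS.wt_nonneg (hS.wt_sum hM) hS.range

/-- The inequality of one level, before any scalar estimate. -/
theorem level_bound {p : ℕ → ℝ} {d κ κ' : ℝ} (hp : Law p d) (hd : 0 < d) (hM : Ok M) (hsw : Sw M)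
    (hσ : 0 < σ) (hσν : σ < ν) (hν : ν ≤ 1 / 2)
    (hb : ∀ y, quad rc (M y 0) (M y 1) (M y 2) ≤ ν ^ 2 * tot (M y 0) (M y 1) (M y 2) ^ 2)
    (hc : CC κ κ') (k0 : 0 ≤ κ) (k1 : κ ≤ 12 / 25) (k0' : 0 ≤ κ') {c : ℝ}
    (hgap : d * c ≤ ∑' N, p N * wgap (mixNode (wt' (tent σ ν M)) ![0, σ, ν]) N) :
    ∃ Mv b wl : ℝ, Mv = d * wt' (tent σ ν M) 1 ∧ b = d * wt' (tent σ ν M) 2 ∧
      0 ≤ b ∧ 0 ≤ wl ∧ wl ≤ Mv ∧ Mv + b ≤ d ∧ σ ^ 2 * Mv + ν ^ 2 * b = d * mo mA M ∧
      Lin d σ ν Mv b wl (d * mo mQ M) ∧ d * mo mQ M ≤ σ ^ 4 * Mv + ν ^ 4 * b ∧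
      mo (mPhi κ) (mix p M)
        ≤ (∑' N, p N * mo (mPhi κ) (power (mixNode (wt' (tent σ ν M)) ![0, σ, ν]) N))
          - κ' * (c * (σ ^ 4 * Mv + ν ^ 4 * b - d * mo mQ M)) := by
  have hS := tent_spread hM hσ hσν hν hb
  obtain ⟨ul, u0, u1, ulin⟩ := tent_geometry hM hσ hσν hν hb
  have w0 := hS.wt_nonneg 0
  have w2 := hS.wt_nonneg 2
  have w1 := hS.wt_nonneg 1
  have wsum := hS.wt_sum hM
  rw [Fin.sum_univ_three] at wsum
  have wlen := hS.wt_length hM
  simp [Fin.sum_univ_three] at wlen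
  have hg := hS.gain_nonneg hM
  have hge : gain M ![0, σ, ν] (tent σ ν M)
      = wt' (tent σ ν M) 1 * σ ^ 4 + wt' (tent σ ν M) 2 * ν ^ 4 - mo mQ M := by
    simp [gain, Fin.sum_univ_three]
  rw [hge] at hg
  refine ⟨_, _, d * ul, rfl, rfl, mul_nonneg hd.le w2, mul_nonneg hd.le u0,
    mul_le_mul_of_nonneg_left u1 hd.le, ?_, ?_, fun η' ζ => ?_, ?_, ?_⟩
  · calc d * wt' (tent σ ν M) 1 + d * wt' (tent σ ν M) 2
        = d * (wt' (tent σ ν M) 1 + wt' (tent σ ν M) 2) := by ring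
      _ ≤ d * 1 := mul_le_mul_of_nonneg_left (by linarith) hd.le
      _ = d := mul_one d
  · rw [← wlen]; ring
  · have := mul_le_mul_of_nonneg_left (ulin η' ζ) hd.le
    linarith
  · have := mul_le_mul_of_nonneg_left (show mo mQ M ≤ wt' (tent σ ν M) 1 * σ ^ 4
      + wt' (tent σ ν M) 2 * ν ^ 4 by linarith) hd.le
    linarith
  · refine le_trans (mix_replaced hp hM hsw hS hc k0 k1 k0') ?_
    rw [hge]
    have h2 := mul_le_mul_of_nonneg_left (mul_le_mul_of_nonneg_left hgap hg) k0'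
    linarith

end Window

end Vale.Agent.P154
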